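import Vale.Agent.Lib.P329.Radon

namespace Vale.Agent.Lib.P329

open Classical

/-- The number of homomorphisms into a group of prime order that vanish at a point `d`
which is not in the kernel of all of them. -/
theorem card_filter_eval {B Z : Type} [Group B] [CommGroup Z]
    (hZ : ∀ c : Z, c ≠ 1 → ∀ b : Z, ∃ j : ℕ, c ^ j = b) (d : B)
    (hsep : ∃ χ : B →* Z, χ d ≠ 1) :
    Nat.card {χ : B →* Z // χ d = 1} * Nat.card Z = Nat.card (B →* Z) := by
  obtain ⟨χ0, hχ0⟩ := hsep
  have hsurj : Function.Surjective (MonoidHom.eval (N := Z) d) := by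
    intro z
    obtain ⟨j, hj⟩ := hZ (χ0 d) hχ0 z
    refine ⟨χ0 ^ j, ?_⟩
    rw [← hj]
    rfl
  have h1 := Subgroup.card_mul_index (MonoidHom.eval (N := Z) d).ker
  rw [Subgroup.index_ker, MonoidHom.range_eq_top.mpr hsurj, Subgroup.card_top] at h1
  have h2 : Nat.card (MonoidHom.eval (N := Z) d).ker = Nat.card {χ : B →* Z // χ d = 1} :=
    Nat.card_congr (Equiv.subtypeEquivRight (fun χ => Iff.rfl))
  rw [h2] at h1
  exact h1

/-- Homomorphisms into the group of complex `p`-th roots of unity separate the points of a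
finite commutative group of exponent `p`. -/
theorem exists_char_ne_one {B : Type} [Group B] [Finite B] (hcomm : ∀ a b : B, a * b = b * a)
    (p : ℕ) (hexp : ∀ b : B, b ^ p = 1) (d : B) (hd : d ≠ 1) :
    ∃ χ : B →* rootsOfUnity p ℂ, χ d ≠ 1 := by
  let cg : CommGroup B := { (inferInstance : Group B) with mul_comm := hcomm }
  have instE : NeZero (Monoid.exponent B) := ⟨Monoid.exponent_ne_zero_of_finite⟩
  obtain ⟨φ, hφ⟩ := CommGroup.exists_apply_ne_one_of_hasEnoughRootsOfUnity B ℂ hd
  refine ⟨φ.codRestrict (rootsOfUnity p ℂ) (fun b => ?_), ?_⟩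
  · rw [mem_rootsOfUnity, ← map_pow, hexp, map_one]
  · intro h
    apply hφ
    exact congrArg Subtype.val h

/-- Every language recognized by a finite group with a commutative normal subgroup whose
quotient is commutative of prime exponent has generalized star height at most one. -/
theorem gsh_abelian_by_elementary (α : Type) [Fintype α] (G : Type) [Group G] [Finite G]
    (A : Subgroup G) [A.Normal] (hA : ∀ a ∈ A, ∀ b ∈ A, a * b = b * a) (p : ℕ) (hp : p.Prime)
    (hcomm : ∀ x y : G, x * y * x⁻¹ * y⁻¹ ∈ A) (hexp : ∀ x : G, x ^ p ∈ A) (g : α → G)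
    (P : Set G) :
    ∃ e : GRegex α, e.starHeight ≤ 1 ∧ e.lang = {w : List α | (w.map g).prod ∈ P} := by
  have instp : NeZero p := ⟨hp.ne_zero⟩
  have instN : NeZero (Nat.card G) := ⟨Nat.card_pos.ne'⟩
  have instF : Fact p.Prime := ⟨hp⟩
  have hBcomm : ∀ a b : G ⧸ A, a * b = b * a := by
    intro a b
    induction a using QuotientGroup.induction_on with
    | _ x =>
      induction b using QuotientGroup.induction_on with
      | _ y =>
        have h := (QuotientGroup.eq_one_iff (N := A) _).mpr (hcomm x y)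
        rw [QuotientGroup.mk_mul, QuotientGroup.mk_mul, QuotientGroup.mk_mul,
          QuotientGroup.mk_inv, QuotientGroup.mk_inv, mul_inv_eq_one, mul_inv_eq_iff_eq_mul] at h
        exact h
  have hBexp : ∀ b : G ⧸ A, b ^ p = 1 := by
    intro b
    induction b using QuotientGroup.induction_on with
    | _ x =>
      rw [← QuotientGroup.mk_pow]
      exact (QuotientGroup.eq_one_iff _).mpr (hexp x)
  have hZcard : Nat.card (rootsOfUnity p ℂ) = p := Complex.card_rootsOfUnity p
  have hZ : ∀ c : rootsOfUnity p ℂ, c ≠ 1 → ∀ b : rootsOfUnity p ℂ, ∃ j : ℕ, c ^ j = b :=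
    fun c hc b => (Submonoid.mem_powers_iff _ _).mp (mem_powers_of_prime_card hZcard hc)
  have instX : Finite ((G ⧸ A) →* rootsOfUnity p ℂ) :=
    Finite.of_injective (fun f => (f : (G ⧸ A) → rootsOfUnity p ℂ)) DFunLike.coe_injective
  have instX' : Fintype ((G ⧸ A) →* rootsOfUnity p ℂ) := Fintype.ofFinite _
  have hcount : ∀ d : G ⧸ A, d ≠ 1 →
      Nat.card {χ : (G ⧸ A) →* rootsOfUnity p ℂ // χ d = 1} =
        Fintype.card ((G ⧸ A) →* rootsOfUnity p ℂ) / p := by
    intro d hd
    have h := card_filter_eval hZ d (exists_char_ne_one hBcomm p hBexp d hd)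
    rw [hZcard, Nat.card_eq_fintype_card (α := (G ⧸ A) →* rootsOfUnity p ℂ)] at h
    exact (Nat.div_eq_of_eq_mul_left hp.pos h.symm).symm
  have hlt : Fintype.card ((G ⧸ A) →* rootsOfUnity p ℂ) / p <
      Fintype.card ((G ⧸ A) →* rootsOfUnity p ℂ) := Nat.div_lt_self Fintype.card_pos hp.one_lt
  exact gsh_of_walk A hA g (good_bzone hBcomm _)
    (fun x b => good_N_radon hZ (fun χ => χ) _ hcount hlt _ x b (Nat.card G)) P

end Vale.Agent.Lib.P329
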