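import Vale.Agent.Lib.P329.WalkStats

namespace Vale.Agent.Lib.P329

open Classical

section wreath

variable {α : Type} [Fintype α]

/-- The wreath product identity: with a section `s` of the zones and a commutative kernel,
the product of a word is the product of the kernel elements attached to its
(zone, letter) statistics, followed by the section of the final zone. -/
theorem wreath_key {G A' B : Type} [Group G] [CommGroup A'] [Group B] [Fintype B]
    (ι : A' →* G) (s : B → G) (wt : α → B) (c' : B × α → A') (g : α → G)
    (hc : ∀ b x, ι (c' (b, x)) * s (b * wt x) = s b * g x) (w : List α) :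
    s 1 * (w.map g).prod =
      ι (∏ p : B × α, c' p ^ (cntP (fun v a => a = p.2 ∧ zone wt v = p.1) w)) *
        s (zone wt w) := by
  induction w using List.reverseRecOn with
  | nil =>
    simp only [cntP_nil, pow_zero, Finset.prod_const_one, map_one, one_mul, List.map_nil,
      List.prod_nil, mul_one, zone_nil]
  | append_singleton w a ih =>
    rw [List.map_append, List.prod_append, List.map_singleton, List.prod_singleton, ← mul_assoc,
      ih, zone_snoc]
    have e : ∏ p : B × α, c' p ^ (cntP (fun v a => a = p.2 ∧ zone wt v = p.1) (w ++ [a])) =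
        (∏ p : B × α, c' p ^ (cntP (fun v a => a = p.2 ∧ zone wt v = p.1) w)) *
          c' (zone wt w, a) := by
      simp only [cntP_snoc, pow_add]
      rw [Finset.prod_mul_distrib]
      congr 1
      rw [Finset.prod_eq_single (zone wt w, a)]
      · rw [if_pos ⟨rfl, rfl⟩, pow_one]
      · intro p _ hp
        rw [if_neg, pow_zero]
        rintro ⟨h1, h2⟩
        exact hp (Prod.ext h2.symm h1.symm)
      · intro h
        exact absurd (Finset.mem_univ _) h
    rw [e, map_mul, mul_assoc, mul_assoc, hc]

theorem wreath_invariant {G A' B : Type} [Group G] [CommGroup A'] [Group B] [Fintype B]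
    (ι : A' →* G) (s : B → G) (wt : α → B) (c' : B × α → A') (g : α → G)
    (hc : ∀ b x, ι (c' (b, x)) * s (b * wt x) = s b * g x) (N : ℕ) (hN : ∀ a : A', a ^ N = 1)
    (w w' : List α) (hz : zone wt w = zone wt w')
    (hcnt : ∀ x b, cntP (fun v a => a = x ∧ zone wt v = b) w ≡
      cntP (fun v a => a = x ∧ zone wt v = b) w' [MOD N]) :
    (w.map g).prod = (w'.map g).prod := by
  have k1 := wreath_key ι s wt c' g hc w
  have k2 := wreath_key ι s wt c' g hc w'
  have e : ∏ p : B × α, c' p ^ (cntP (fun v a => a = p.2 ∧ zone wt v = p.1) w) =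
      ∏ p : B × α, c' p ^ (cntP (fun v a => a = p.2 ∧ zone wt v = p.1) w') :=
    Finset.prod_congr rfl (fun p _ => pow_congr_mod (c' p) (hN _) (hcnt p.2 p.1))
  rw [e, hz] at k1
  exact mul_left_cancel (a := s 1) (k1.trans k2.symm)

/-- In a finite group with a commutative normal subgroup `A`, the product of a word is
determined by its zone in the quotient and by the numbers, modulo the order of the group, of
occurrences of each letter in each zone. -/
theorem prod_determined {G : Type} [Group G] [Finite G] (A : Subgroup G) [A.Normal]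
    (hA : ∀ a ∈ A, ∀ b ∈ A, a * b = b * a) (g : α → G) (w w' : List α)
    (hz : zone (fun a => (QuotientGroup.mk (g a) : G ⧸ A)) w =
      zone (fun a => (QuotientGroup.mk (g a) : G ⧸ A)) w')
    (hcnt : ∀ (x : α) (b : G ⧸ A),
      cntP (fun v a => a = x ∧ zone (fun a => (QuotientGroup.mk (g a) : G ⧸ A)) v = b) w ≡
      cntP (fun v a => a = x ∧ zone (fun a => (QuotientGroup.mk (g a) : G ⧸ A)) v = b) w'
        [MOD Nat.card G]) :
    (w.map g).prod = (w'.map g).prod := by
  have instB : Fintype (G ⧸ A) := Fintype.ofFinite _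
  let cg : CommGroup A :=
    { (inferInstance : Group A) with
      mul_comm := fun a b => Subtype.ext (hA a a.2 b b.2) }
  have hmem : ∀ (b : G ⧸ A) (x : α),
      Quotient.out b * g x * (Quotient.out (b * (QuotientGroup.mk (g x) : G ⧸ A)))⁻¹ ∈ A := by
    intro b x
    rw [← QuotientGroup.eq_one_iff, QuotientGroup.mk_mul, QuotientGroup.mk_mul,
      QuotientGroup.mk_inv, QuotientGroup.out_eq', QuotientGroup.out_eq', mul_inv_cancel]
  exact wreath_invariant (A' := A) (B := G ⧸ A) A.subtype (fun b : G ⧸ A => Quotient.out b)
    (fun a => (QuotientGroup.mk (g a) : G ⧸ A))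
    (fun p : (G ⧸ A) × α => ⟨_, hmem p.1 p.2⟩) g
    (fun (b : G ⧸ A) (x : α) => by
      show Quotient.out b * g x * (Quotient.out (b * (QuotientGroup.mk (g x) : G ⧸ A)))⁻¹ *
        Quotient.out (b * (QuotientGroup.mk (g x) : G ⧸ A)) = Quotient.out b * g x
      rw [inv_mul_cancel_right])
    (Nat.card G) (fun a => Subtype.ext (pow_card_eq_one' (G := G) (x := a.1))) w w' hz hcnt

/-- If the zone function and the (zone, letter) statistics are good, then every language
recognized through `g` has generalized star height at most one. -/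
theorem gsh_of_walk {G : Type} [Group G] [Finite G] (A : Subgroup G) [A.Normal]
    (hA : ∀ a ∈ A, ∀ b ∈ A, a * b = b * a) (g : α → G)
    (hz : Good (zone (fun a => (QuotientGroup.mk (g a) : G ⧸ A))))
    (hN : ∀ (x : α) (b : G ⧸ A), Good (fun w =>
      ((cntP (fun v a => a = x ∧ zone (fun a => (QuotientGroup.mk (g a) : G ⧸ A)) v = b) w : ℕ) :
        ZMod (Nat.card G))))
    (P : Set G) : GSH 1 (langOf (fun w => (w.map g).prod ∈ P)) := by
  have instN : NeZero (Nat.card G) := ⟨Nat.card_pos.ne'⟩
  have instB : Fintype (G ⧸ A) := Fintype.ofFinite _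
  have instG : Fintype G := Fintype.ofFinite _
  have hΨ : Good (fun w => (zone (fun a => (QuotientGroup.mk (g a) : G ⧸ A)) w,
      fun p : α × (G ⧸ A) =>
        ((cntP (fun v a => a = p.1 ∧ zone (fun a => (QuotientGroup.mk (g a) : G ⧸ A)) v = p.2) w :
          ℕ) : ZMod (Nat.card G)))) :=
    hz.prod (Good.pi (fun p => hN p.1 p.2))
  have hprod : Good (fun w : List α => (w.map g).prod) :=
    Good.of_determined hΨ (fun w w' h => prod_determined A hA g w w' (congrArg Prod.fst h)
      (fun x b => (ZMod.natCast_eq_natCast_iff _ _ _).mp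
        (congrFun (congrArg Prod.snd h) (x, b))))
  have h := (hprod.comp (fun y => decide (y ∈ P))) true
  exact h.congr (fun w => by rw [mem_langOf, mem_langOf, decide_eq_true_eq])

end wreath

/-- Every language recognized by a finite group with a commutative normal subgroup of prime
index has generalized star height at most one. -/
theorem gsh_abelian_by_prime (α : Type) [Fintype α] (G : Type) [Group G] [Finite G]
    (A : Subgroup G) [A.Normal] (hA : ∀ a ∈ A, ∀ b ∈ A, a * b = b * a)
    (hp : (A.index).Prime) (g : α → G) (P : Set G) :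
    ∃ e : GRegex α, e.starHeight ≤ 1 ∧ e.lang = {w : List α | (w.map g).prod ∈ P} := by
  have hcard : Nat.card (G ⧸ A) = A.index := (Subgroup.index_eq_card A).symm
  have instp : Fact (A.index).Prime := ⟨hp⟩
  have instN : NeZero (Nat.card G) := ⟨Nat.card_pos.ne'⟩
  have hB : ∀ c : G ⧸ A, c ≠ 1 → ∀ b : G ⧸ A, ∃ j : ℕ, c ^ j = b := by
    intro c hc b
    have h := mem_powers_of_prime_card hcard (g := c) (g' := b) hc
    exact (Submonoid.mem_powers_iff _ _).mp h
  exact gsh_of_walk A hA g (good_bzone (comm_of_gen hB) _)
    (fun x b => good_N hB _ x b (Nat.card G)) P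

end Vale.Agent.Lib.P329
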