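import Vale.Agent.Lib.P329.Defs

namespace Vale.Agent.Lib.P329

variable {α : Type}

/-- `GSH k L`: the language `L` is denoted by a generalized regular expression of star
height at most `k`. -/
def GSH (k : ℕ) (L : Language α) : Prop := ∃ e : GRegex α, e.starHeight ≤ k ∧ e.lang = L

theorem mem_compl_lang {L : Language α} {w : List α} : w ∈ Lᶜ ↔ w ∉ L := Iff.rfl

theorem mem_top_lang (w : List α) : w ∈ (⊤ : Language α) := trivial

/-- The language of all words satisfying `p`. -/
def langOf (p : List α → Prop) : Language α := {w | p w}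

theorem mem_langOf {p : List α → Prop} {w : List α} : w ∈ langOf p ↔ p w := Iff.rfl

theorem mem_singleton_lang {u w : List α} : w ∈ ({u} : Language α) ↔ w = u := Iff.rfl

theorem GSH.mono {k k' : ℕ} {L : Language α} (h : GSH k L) (hk : k ≤ k') : GSH k' L := by
  obtain ⟨e, he, rfl⟩ := h
  exact ⟨e, he.trans hk, rfl⟩

theorem GSH.zero (k : ℕ) : GSH k (0 : Language α) := ⟨GRegex.zero, Nat.zero_le _, rfl⟩

theorem GSH.one (k : ℕ) : GSH k (1 : Language α) := ⟨GRegex.one, Nat.zero_le _, rfl⟩

theorem GSH.letter (k : ℕ) (a : α) : GSH k ({[a]} : Language α) :=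
  ⟨GRegex.letter a, Nat.zero_le _, rfl⟩

theorem GSH.add {k : ℕ} {L M : Language α} (hL : GSH k L) (hM : GSH k M) : GSH k (L + M) := by
  obtain ⟨e, he, rfl⟩ := hL
  obtain ⟨f, hf, rfl⟩ := hM
  exact ⟨GRegex.plus e f, max_le he hf, rfl⟩

theorem GSH.mul {k : ℕ} {L M : Language α} (hL : GSH k L) (hM : GSH k M) : GSH k (L * M) := by
  obtain ⟨e, he, rfl⟩ := hL
  obtain ⟨f, hf, rfl⟩ := hM
  exact ⟨GRegex.times e f, max_le he hf, rfl⟩

theorem GSH.compl {k : ℕ} {L : Language α} (hL : GSH k L) : GSH k Lᶜ := by
  obtain ⟨e, he, rfl⟩ := hL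
  exact ⟨GRegex.compl e, he, rfl⟩

theorem GSH.kstar {k : ℕ} {L : Language α} (hL : GSH k L) : GSH (k + 1) (KStar.kstar L) := by
  obtain ⟨e, he, rfl⟩ := hL
  exact ⟨GRegex.star e, Nat.succ_le_succ he, rfl⟩

theorem GSH.congr {k : ℕ} {L M : Language α} (hL : GSH k L) (h : ∀ w, w ∈ M ↔ w ∈ L) :
    GSH k M := by
  have : M = L := Language.ext h
  rw [this]; exact hL

theorem GSH.top (k : ℕ) : GSH k (⊤ : Language α) :=
  (GSH.zero k).compl.congr (fun w => by
    rw [mem_compl_lang]
    exact ⟨fun _ => Language.notMem_zero w, fun _ => mem_top_lang w⟩)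

theorem GSH.inf {k : ℕ} {L M : Language α} (hL : GSH k L) (hM : GSH k M) : GSH k (L ⊓ M) :=
  (hL.compl.add hM.compl).compl.congr (fun w => by
    rw [mem_compl_lang, Language.mem_add, mem_compl_lang, mem_compl_lang, Language.mem_inf]
    tauto)

theorem GSH.pow {k : ℕ} {L : Language α} (hL : GSH k L) (m : ℕ) : GSH k (L ^ m) := by
  induction m with
  | zero => rw [pow_zero]; exact GSH.one k
  | succ m ih => rw [pow_succ]; exact ih.mul hL

/-- Finite unions. -/
theorem GSH.finsetUnion {k : ℕ} {ι : Type} (s : Finset ι) (f : ι → Language α)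
    (h : ∀ i ∈ s, GSH k (f i)) : GSH k (langOf (fun w => ∃ i ∈ s, w ∈ f i)) := by
  classical
  induction s using Finset.induction_on with
  | empty =>
    exact (GSH.zero k).congr (fun w => by
      rw [mem_langOf]
      constructor
      · rintro ⟨i, hi, _⟩; simp at hi
      · intro hw; exact absurd hw (Language.notMem_zero w))
  | insert a s ha ih =>
    have h1 : GSH k (f a) := h a (Finset.mem_insert_self a s)
    have h2 := ih (fun i hi => h i (Finset.mem_insert_of_mem hi))
    exact (h1.add h2).congr (fun w => by
      rw [mem_langOf, Language.mem_add, mem_langOf]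
      constructor
      · rintro ⟨i, hi, hw⟩
        rcases Finset.mem_insert.mp hi with rfl | hi
        · exact Or.inl hw
        · exact Or.inr ⟨i, hi, hw⟩
      · rintro (hw | ⟨i, hi, hw⟩)
        · exact ⟨a, Finset.mem_insert_self a s, hw⟩
        · exact ⟨i, Finset.mem_insert_of_mem hi, hw⟩)

/-- Finite intersections. -/
theorem GSH.finsetInter {k : ℕ} {ι : Type} (s : Finset ι) (f : ι → Language α)
    (h : ∀ i ∈ s, GSH k (f i)) : GSH k (langOf (fun w => ∀ i ∈ s, w ∈ f i)) := by
  have h1 := (GSH.finsetUnion s (fun i => (f i)ᶜ) (fun i hi => (h i hi).compl)).compl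
  exact h1.congr (fun w => by
    rw [mem_compl_lang, mem_langOf, mem_langOf]
    constructor
    · intro hw
      rintro ⟨i, hi, hni⟩
      exact hni (hw i hi)
    · intro hw i hi
      by_contra hni
      exact hw ⟨i, hi, hni⟩)

/-- The language of one-letter words whose letter satisfies `p`. -/
theorem GSH.letters [Fintype α] (k : ℕ) (p : α → Prop) :
    GSH k (langOf (fun w => ∃ a, p a ∧ w = [a])) := by
  classical
  have h := GSH.finsetUnion (k := k) (Finset.univ.filter p) (fun a => ({[a]} : Language α))
    (fun a _ => GSH.letter k a)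
  exact h.congr (fun w => by
    rw [mem_langOf, mem_langOf]
    constructor
    · rintro ⟨a, ha, rfl⟩
      exact ⟨a, by simpa using ha, rfl⟩
    · rintro ⟨a, ha, hw⟩
      exact ⟨a, by simpa using ha, hw⟩)

/-- The language of all words all of whose letters satisfy `p` is star-free. -/
theorem GSH.lettersStar [Fintype α] (k : ℕ) (p : α → Prop) :
    GSH k (langOf (fun w => ∀ a ∈ w, p a)) := by
  have h := (((GSH.top k).mul (GSH.letters k (fun a => ¬ p a))).mul (GSH.top (α := α) k)).compl
  exact h.congr (fun w => by
    rw [mem_compl_lang, mem_langOf]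
    constructor
    · intro hw hmem
      obtain ⟨x, hx, y, _, rfl⟩ := Language.mem_mul.mp hmem
      obtain ⟨u, _, v, hv, rfl⟩ := Language.mem_mul.mp hx
      obtain ⟨a, ha, rfl⟩ := hv
      exact ha (hw a (by simp))
    · intro hw a ha
      by_contra hpa
      obtain ⟨u, v, rfl⟩ := List.append_of_mem ha
      apply hw
      have : u ++ a :: v = (u ++ [a]) ++ v := by simp
      rw [this]
      exact Language.append_mem_mul
        (Language.append_mem_mul (mem_top_lang u) ⟨a, hpa, rfl⟩) (mem_top_lang v))

/-- A function on words with values in a finite type is *good* if all its fibres have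
generalized star height at most one. -/
def Good {β : Type} (f : List α → β) : Prop := ∀ v : β, GSH 1 (langOf (fun w => f w = v))

theorem Good.comp {β γ : Type} [Fintype β] {f : List α → β} (hf : Good f) (φ : β → γ) :
    Good (fun w => φ (f w)) := by
  classical
  intro v
  have h := GSH.finsetUnion (k := 1) (Finset.univ.filter (fun u => φ u = v))
    (fun u => (langOf (fun w => f w = u))) (fun u _ => hf u)
  exact h.congr (fun w => by
    rw [mem_langOf, mem_langOf]
    constructor
    · intro hw
      exact ⟨f w, by simpa using hw, rfl⟩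
    · rintro ⟨u, hu, hw⟩
      have hw' : f w = u := hw
      show φ (f w) = v
      rw [hw']
      simpa using hu)

theorem Good.prod {β γ : Type} {f : List α → β} {g : List α → γ} (hf : Good f) (hg : Good g) :
    Good (fun w => (f w, g w)) := by
  rintro ⟨u, v⟩
  exact ((hf u).inf (hg v)).congr (fun w => by
    rw [mem_langOf, Language.mem_inf, mem_langOf, mem_langOf, Prod.mk.injEq])

theorem Good.pi {ι : Type} [Fintype ι] {β : ι → Type} {f : (i : ι) → List α → β i}
    (hf : ∀ i, Good (f i)) : Good (fun w => fun i => f i w) := by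
  intro v
  have h := GSH.finsetInter (k := 1) (Finset.univ : Finset ι)
    (fun i => (langOf (fun w => f i w = v i))) (fun i _ => hf i (v i))
  exact h.congr (fun w => by
    rw [mem_langOf, mem_langOf]
    constructor
    · intro hw i _
      exact congrFun hw i
    · intro hw
      funext i
      exact hw i (Finset.mem_univ i))

theorem Good.const {β : Type} (c : β) : Good (fun _ : List α => c) := by
  classical
  intro v
  by_cases h : c = v
  · exact (GSH.top 1).congr (fun w => by
      rw [mem_langOf]
      exact ⟨fun _ => mem_top_lang w, fun _ => h⟩)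
  · exact (GSH.zero 1).congr (fun w => by
      rw [mem_langOf]
      exact ⟨fun hw => absurd hw h, fun hw => absurd hw (Language.notMem_zero w)⟩)

theorem Good.congr {β : Type} {f g : List α → β} (hf : Good f) (h : ∀ w, g w = f w) : Good g := by
  have : g = f := funext h
  rw [this]; exact hf

end Vale.Agent.Lib.P329
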