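import Vale.Agent.Lib.P329.Cascade

namespace Vale.Agent.Lib.P329

open Classical

variable {α : Type}

section block

variable (S : Finset α) (M : ℕ) [NeZero M] (β : ZMod M → α)

/-- The block automaton of the pattern `β`: the state is the position in the current block of
`M` letters of `S`, together with a flag telling whether the letters of the current block read
so far agree with `β`. -/
noncomputable def kδ (q : ZMod M × Bool) (a : α) : ZMod M × Bool :=
  if a ∈ S then (if q.1 + 1 = 0 then (0, true) else (q.1 + 1, q.2 && decide (a = β q.1)))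
  else q

/-- The events of the block automaton: the completions of a block different from `β`. -/
def kT (q : ZMod M × Bool) (a : α) : Prop :=
  a ∈ S ∧ q.1 + 1 = 0 ∧ ¬ (q.2 = true ∧ a = β q.1)

theorem kδ_notMem (q : ZMod M × Bool) (a : α) (h : a ∉ S) : kδ S M β q a = q := by
  unfold kδ
  rw [if_neg h]

theorem kδ_wrap (j : ZMod M) (ok : Bool) (a : α) (h : a ∈ S) (h1 : j + 1 = 0) :
    kδ S M β (j, ok) a = (0, true) := by
  unfold kδ
  rw [if_pos h, if_pos h1]

theorem kδ_step (j : ZMod M) (ok : Bool) (a : α) (h : a ∈ S) (h1 : ¬ j + 1 = 0) :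
    kδ S M β (j, ok) a = (j + 1, ok && decide (a = β j)) := by
  unfold kδ
  rw [if_pos h, if_neg h1]

theorem kT_enter (q : ZMod M × Bool) (a : α) (h : kT S M β q a) : kδ S M β q a = (0, true) := by
  obtain ⟨j, ok⟩ := q
  exact kδ_wrap S M β j ok a h.1 h.2.1

theorem krun_fst : ∀ (w : List α) (j : ZMod M) (ok : Bool),
    (run (kδ S M β) (j, ok) w).1 = j + ((sc S w : ℕ) : ZMod M) := by
  intro w
  induction w with
  | nil =>
    intro j ok
    rw [run_nil, sc_nil, Nat.cast_zero, add_zero]
  | cons a w ih =>
    intro j ok
    rw [run_cons, sc_cons]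
    by_cases h : a ∈ S
    · rw [if_pos h]
      by_cases h1 : j + 1 = 0
      · rw [kδ_wrap S M β j ok a h h1, ih]
        push_cast
        linear_combination (-1 : ZMod M) * h1
      · rw [kδ_step S M β j ok a h h1, ih]
        push_cast
        ring
    · rw [if_neg h, kδ_notMem S M β (j, ok) a h, ih, Nat.add_zero]

theorem krun_noS : ∀ (u : List α), sc S u = 0 → ∀ q : ZMod M × Bool,
    run (kδ S M β) q u = q ∧ cnt (kδ S M β) (kT S M β) q u = 0 := by
  intro u
  induction u with
  | nil =>
    intro _ q
    exact ⟨rfl, rfl⟩
  | cons a u ih =>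
    intro h q
    rw [sc_cons] at h
    have ha : a ∉ S := by
      intro ha
      rw [if_pos ha] at h
      omega
    rw [if_neg ha, Nat.add_zero] at h
    rw [run_cons, cnt_cons, kδ_notMem S M β q a ha]
    have hT : ¬ kT S M β q a := fun hT => ha hT.1
    rw [if_neg hT, Nat.zero_add]
    exact ih h q

theorem zmod_val_succ (j : ZMod M) (h : ¬ j + 1 = 0) : (j + 1).val = j.val + 1 := by
  have hlt : j.val < M := ZMod.val_lt j
  have e : j + 1 = ((j.val + 1 : ℕ) : ZMod M) := by
    push_cast
    rw [ZMod.natCast_zmod_val]
  have hne : j.val + 1 ≠ M := by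
    intro he
    apply h
    rw [e, he]
    exact ZMod.natCast_self M
  rw [e, ZMod.val_natCast, Nat.mod_eq_of_lt (by omega)]

theorem krun_false : ∀ (w : List α) (j : ZMod M),
    cnt (kδ S M β) (kT S M β) (j, false) w = 0 →
    j.val + sc S w < M ∧
      run (kδ S M β) (j, false) w = (j + ((sc S w : ℕ) : ZMod M), false) := by
  intro w
  induction w with
  | nil =>
    intro j _
    refine ⟨?_, ?_⟩
    · rw [sc_nil, Nat.add_zero]
      exact ZMod.val_lt j
    · rw [run_nil, sc_nil, Nat.cast_zero, add_zero]
  | cons a w ih =>
    intro j h
    rw [cnt_cons] at h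
    rw [run_cons, sc_cons]
    by_cases ha : a ∈ S
    · by_cases h1 : j + 1 = 0
      · exfalso
        have hT : kT S M β (j, false) a := ⟨ha, h1, fun hh => Bool.noConfusion hh.1⟩
        rw [if_pos hT] at h
        omega
      · have hT : ¬ kT S M β (j, false) a := fun hT => h1 hT.2.1
        rw [if_neg hT, Nat.zero_add, kδ_step S M β j false a ha h1, Bool.false_and] at h
        rw [kδ_step S M β j false a ha h1, Bool.false_and, if_pos ha]
        obtain ⟨h2, h3⟩ := ih (j + 1) h
        rw [zmod_val_succ M j h1] at h2
        refine ⟨by omega, ?_⟩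
        rw [h3]
        push_cast
        rw [show j + 1 + ((sc S w : ℕ) : ZMod M) = j + (((sc S w : ℕ) : ZMod M) + 1) by ring]
    · have hT : ¬ kT S M β (j, false) a := fun hT => ha hT.1
      rw [if_neg hT, Nat.zero_add, kδ_notMem S M β (j, false) a ha] at h
      rw [kδ_notMem S M β (j, false) a ha, if_neg ha, Nat.add_zero]
      exact ih j h

theorem krun_wrap : ∀ (u : List α) (j : ZMod M) (ok ok' : Bool), M ≤ j.val + sc S u →
    run (kδ S M β) (j, ok) u = run (kδ S M β) (j, ok') u := by
  intro u
  induction u with
  | nil =>
    intro j ok ok' h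
    rw [sc_nil, Nat.add_zero] at h
    exact absurd (ZMod.val_lt j) (by omega)
  | cons a u ih =>
    intro j ok ok' h
    rw [run_cons, run_cons]
    rw [sc_cons] at h
    by_cases ha : a ∈ S
    · rw [if_pos ha] at h
      by_cases h1 : j + 1 = 0
      · rw [kδ_wrap S M β j ok a ha h1, kδ_wrap S M β j ok' a ha h1]
      · rw [kδ_step S M β j ok a ha h1, kδ_step S M β j ok' a ha h1]
        apply ih
        rw [zmod_val_succ M j h1]
        omega
    · rw [if_neg ha, Nat.add_zero] at h
      rw [kδ_notMem S M β (j, ok) a ha, kδ_notMem S M β (j, ok') a ha]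
      exact ih j ok ok' h

/-- The letters of `S` in `w` are `β j`, `β (j + 1)`, ... in this order. -/
noncomputable def mt : List α → ZMod M → Prop
  | [], _ => True
  | a :: w, j => if a ∈ S then (a = β j ∧ mt w (j + 1)) else mt w j

theorem mt_cons_mem (j : ZMod M) (a : α) (w : List α) (h : a ∈ S) :
    mt S M β (a :: w) j ↔ (a = β j ∧ mt S M β w (j + 1)) := by
  show (if a ∈ S then (a = β j ∧ mt S M β w (j + 1)) else mt S M β w j) ↔ _
  rw [if_pos h]

theorem mt_cons_notMem (j : ZMod M) (a : α) (w : List α) (h : a ∉ S) :
    mt S M β (a :: w) j ↔ mt S M β w j := by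
  show (if a ∈ S then (a = β j ∧ mt S M β w (j + 1)) else mt S M β w j) ↔ _
  rw [if_neg h]

theorem mt_append : ∀ (u v : List α) (j : ZMod M),
    mt S M β (u ++ v) j ↔ (mt S M β u j ∧ mt S M β v (j + ((sc S u : ℕ) : ZMod M))) := by
  intro u
  induction u with
  | nil =>
    intro v j
    rw [List.nil_append, sc_nil, Nat.cast_zero, add_zero]
    exact ⟨fun h => ⟨trivial, h⟩, fun h => h.2⟩
  | cons a u ih =>
    intro v j
    rw [List.cons_append, sc_cons]
    by_cases ha : a ∈ S
    · rw [mt_cons_mem S M β j a _ ha, mt_cons_mem S M β j a _ ha, ih, if_pos ha]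
      push_cast
      rw [show j + 1 + ((sc S u : ℕ) : ZMod M) = j + (((sc S u : ℕ) : ZMod M) + 1) by ring]
      exact and_assoc.symm
    · rw [mt_cons_notMem S M β j a _ ha, mt_cons_notMem S M β j a _ ha, ih, if_neg ha,
        Nat.add_zero]

theorem krun_true : ∀ (w : List α) (j : ZMod M),
    cnt (kδ S M β) (kT S M β) (j, true) w = 0 → (run (kδ S M β) (j, true) w).2 = true →
    mt S M β w j := by
  intro w
  induction w with
  | nil =>
    intro j _ _
    exact trivial
  | cons a w ih =>
    intro j h hf
    rw [cnt_cons] at h
    rw [run_cons] at hf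
    by_cases ha : a ∈ S
    · rw [mt_cons_mem S M β j a w ha]
      by_cases h1 : j + 1 = 0
      · have hab : a = β j := by
          by_contra hab
          have hT : kT S M β (j, true) a := ⟨ha, h1, fun hh => hab hh.2⟩
          rw [if_pos hT] at h
          omega
        have hT : ¬ kT S M β (j, true) a := fun hT => hT.2.2 ⟨rfl, hab⟩
        rw [if_neg hT, Nat.zero_add, kδ_wrap S M β j true a ha h1] at h
        rw [kδ_wrap S M β j true a ha h1] at hf
        refine ⟨hab, ?_⟩
        rw [h1]
        exact ih 0 h hf
      · have hT : ¬ kT S M β (j, true) a := fun hT => h1 hT.2.1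
        rw [if_neg hT, Nat.zero_add, kδ_step S M β j true a ha h1, Bool.true_and] at h
        rw [kδ_step S M β j true a ha h1, Bool.true_and] at hf
        by_cases hab : a = β j
        · rw [decide_eq_true hab] at h hf
          exact ⟨hab, ih (j + 1) h hf⟩
        · exfalso
          rw [decide_eq_false hab] at h hf
          have h3 := (krun_false S M β w (j + 1) h).2
          rw [h3] at hf
          exact Bool.noConfusion hf
    · rw [mt_cons_notMem S M β j a w ha]
      have hT : ¬ kT S M β (j, true) a := fun hT => ha hT.1
      rw [if_neg hT, Nat.zero_add, kδ_notMem S M β (j, true) a ha] at h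
      rw [kδ_notMem S M β (j, true) a ha] at hf
      exact ih j h hf

theorem mt_period : ∀ (W : List α) (j j' : ZMod M), mt S M β W j → mt S M β W j' →
    ∀ n : ℕ, n < sc S W → β (j + (n : ZMod M)) = β (j' + (n : ZMod M)) := by
  intro W
  induction W with
  | nil =>
    intro j j' _ _ n hn
    rw [sc_nil] at hn
    omega
  | cons a W ih =>
    intro j j' h h' n hn
    rw [sc_cons] at hn
    by_cases ha : a ∈ S
    · rw [mt_cons_mem S M β j a W ha] at h
      rw [mt_cons_mem S M β j' a W ha] at h'
      rw [if_pos ha] at hn
      cases n with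
      | zero => rw [Nat.cast_zero, add_zero, add_zero, ← h.1, ← h'.1]
      | succ n =>
        have h3 := ih (j + 1) (j' + 1) h.2 h'.2 n (by omega)
        push_cast
        rw [show j + ((n : ZMod M) + 1) = j + 1 + (n : ZMod M) by ring,
          show j' + ((n : ZMod M) + 1) = j' + 1 + (n : ZMod M) by ring]
        exact h3
    · rw [mt_cons_notMem S M β j a W ha] at h
      rw [mt_cons_notMem S M β j' a W ha] at h'
      rw [if_neg ha, Nat.add_zero] at hn
      exact ih j j' h h' n hn

/-- A pattern is primitive if it has no nontrivial period. -/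
def Prim : Prop := ∀ e : ZMod M, e ≠ 0 → ∃ o, β (o + e) ≠ β o

theorem sc_pw (u : List α) (k : ℕ) : sc S (pw u k) = k * sc S u := by
  induction k with
  | zero => rw [pw_zero, sc_nil, Nat.zero_mul]
  | succ k ih => rw [pw_succ, sc_append, ih, Nat.succ_mul, Nat.add_comm]

/-- For a primitive pattern, the block automaton with the completions of the blocks different
from the pattern removed is counter-free. -/
theorem block_counterFree (hβ : Prim M β) :
    CounterFree (rem (kδ S M β) (kT S M β)) := by
  intro q u m hm hrun
  cases q with
  | none => exact run_rem_none _ _ u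
  | some q =>
    rw [run_rem_some] at hrun ⊢
    by_cases h0 : cnt (kδ S M β) (kT S M β) q (pw u m) = 0
    · rw [if_pos h0] at hrun
      have hq : run (kδ S M β) q (pw u m) = q := Option.some.inj hrun
      obtain ⟨m', rfl⟩ : ∃ m', m = m' + 1 := ⟨m - 1, by omega⟩
      have hu0 : cnt (kδ S M β) (kT S M β) q u = 0 := by
        rw [pw_succ, cnt_append] at h0
        omega
      rw [if_pos hu0]
      congr 1
      by_cases hs : sc S u = 0
      · exact (krun_noS S M β u hs q).1
      · obtain ⟨j, ok⟩ := q
        have hMpos : 0 < M := Nat.pos_of_ne_zero (NeZero.ne M)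
        cases ok with
        | false =>
          exfalso
          obtain ⟨h1, h2⟩ := krun_false S M β (pw u (m' + 1)) j h0
          rw [hq] at h2
          have h3 : j = j + ((sc S (pw u (m' + 1)) : ℕ) : ZMod M) := congrArg Prod.fst h2
          have h4 : ((sc S (pw u (m' + 1)) : ℕ) : ZMod M) = 0 := by
            have h5 : j + ((sc S (pw u (m' + 1)) : ℕ) : ZMod M) = j + 0 := by
              rw [add_zero]
              exact h3.symm
            exact add_left_cancel h5
          rw [ZMod.natCast_eq_zero_iff] at h4
          have h5 : 0 < sc S (pw u (m' + 1)) := by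
            rw [sc_pw]
            exact Nat.mul_pos (by omega) (by omega)
          have h6 := Nat.le_of_dvd h5 h4
          omega
        | true =>
          by_cases he : ((sc S u : ℕ) : ZMod M) = 0
          · have hMle : M ≤ sc S u :=
              Nat.le_of_dvd (by omega) ((ZMod.natCast_eq_zero_iff _ _).mp he)
            have hfst : (run (kδ S M β) (j, true) u).1 = j := by
              rw [krun_fst, he, add_zero]
            obtain ⟨f, hf⟩ : ∃ f, run (kδ S M β) (j, true) u = (j, f) :=
              ⟨(run (kδ S M β) (j, true) u).2, Prod.ext hfst rfl⟩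
            have hall : ∀ k, run (kδ S M β) (j, true) (pw u (k + 1)) = (j, f) := by
              intro k
              induction k with
              | zero =>
                rw [Nat.zero_add, pw_one]
                exact hf
              | succ k ih =>
                rw [pw_succ', run_append, ih, krun_wrap S M β u j f true (by omega), hf]
            have h7 := hall m'
            rw [hq] at h7
            rw [hf, ← h7]
          · exfalso
            obtain ⟨o, ho⟩ := hβ _ he
            have hmult : ∀ K, cnt (kδ S M β) (kT S M β) (j, true) (pw u ((m' + 1) * K)) = 0 ∧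
                run (kδ S M β) (j, true) (pw u ((m' + 1) * K)) = (j, true) := by
              intro K
              induction K with
              | zero => exact ⟨rfl, rfl⟩
              | succ K ih =>
                have e : (m' + 1) * (K + 1) = (m' + 1) + (m' + 1) * K := by ring
                rw [e, pw_add, cnt_append, run_append, hq]
                exact ⟨by rw [h0, ih.1], ih.2⟩
            obtain ⟨N, hN⟩ : ∃ N, (m' + 1) * (M + 1) = N + 1 :=
              ⟨(m' + 1) * (M + 1) - 1, by
                have : 0 < (m' + 1) * (M + 1) := Nat.mul_pos (by omega) (by omega)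
                omega⟩
            have hNM : M ≤ N := by
              have h8 : M + 1 ≤ (m' + 1) * (M + 1) := Nat.le_mul_of_pos_left _ (by omega)
              omega
            obtain ⟨hc, hr⟩ := hmult (M + 1)
            rw [hN] at hc hr
            have hmt : mt S M β (pw u (N + 1)) j :=
              krun_true S M β _ j hc (by rw [hr])
            have hmt1 : mt S M β (pw u N) (j + ((sc S u : ℕ) : ZMod M)) := by
              rw [pw_succ] at hmt
              exact ((mt_append S M β u (pw u N) j).mp hmt).2
            have hmt2 : mt S M β (pw u N) j := by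
              rw [pw_succ'] at hmt
              exact ((mt_append S M β (pw u N) u j).mp hmt).1
            have hlen : (o - j).val < sc S (pw u N) := by
              rw [sc_pw]
              have h8 : (o - j).val < M := ZMod.val_lt _
              have h9 : N ≤ N * sc S u := Nat.le_mul_of_pos_right _ (by omega)
              omega
            have hp := mt_period S M β (pw u N) j (j + ((sc S u : ℕ) : ZMod M)) hmt2 hmt1
              (o - j).val hlen
            rw [ZMod.natCast_zmod_val] at hp
            apply ho
            rw [show j + (o - j) = o by ring,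
              show j + ((sc S u : ℕ) : ZMod M) + (o - j) = o + ((sc S u : ℕ) : ZMod M) by ring]
              at hp
            exact hp.symm
    · rw [if_neg h0] at hrun
      exact absurd hrun (by simp)

end block

end Vale.Agent.Lib.P329
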