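import Vale.Agent.Lib.P329.Block

namespace Vale.Agent.Lib.P329

open Classical

variable {α : Type}

section blockcount

variable (S : Finset α) (M : ℕ) [NeZero M]

/-- The current incomplete block: the letters of `S` read since the last block boundary. -/
noncomputable def buf (w : List α) : List α :=
  w.foldl (fun b a => if a ∈ S then
    (if ((b.length : ℕ) : ZMod M) + 1 = 0 then [] else b ++ [a]) else b) []

theorem buf_nil : buf S M ([] : List α) = [] := rfl

theorem buf_snoc (w : List α) (a : α) :
    buf S M (w ++ [a]) = if a ∈ S then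
      (if (((buf S M w).length : ℕ) : ZMod M) + 1 = 0 then [] else buf S M w ++ [a])
      else buf S M w := by
  unfold buf
  rw [List.foldl_append]
  rfl

theorem cast_succ_eq (L : ℕ) (hL : L < M) (h : ((L : ℕ) : ZMod M) + 1 = 0) : L + 1 = M := by
  have e : ((L + 1 : ℕ) : ZMod M) = 0 := by
    push_cast
    exact h
  rw [ZMod.natCast_eq_zero_iff] at e
  have h1 := Nat.le_of_dvd (by omega) e
  omega

theorem cast_succ_ne (L : ℕ) (hL : L < M) (h : ¬ ((L : ℕ) : ZMod M) + 1 = 0) : L + 1 < M := by
  by_contra hc
  have h1 : L + 1 = M := by omega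
  apply h
  have e : ((L + 1 : ℕ) : ZMod M) = 0 := by
    rw [h1]
    exact ZMod.natCast_self M
  push_cast at e
  exact e

theorem cast_eq_iff_val (L : ℕ) (hL : L < M) (o : ZMod M) :
    ((L : ℕ) : ZMod M) = o ↔ L = o.val := by
  constructor
  · intro h
    rw [← h, ZMod.val_natCast, Nat.mod_eq_of_lt hL]
  · intro h
    rw [h, ZMod.natCast_zmod_val]

theorem buf_length_lt (w : List α) : (buf S M w).length < M := by
  have hM : 0 < M := Nat.pos_of_ne_zero (NeZero.ne M)
  induction w using List.reverseRecOn with
  | nil =>
    rw [buf_nil]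
    exact hM
  | append_singleton w a ih =>
    rw [buf_snoc]
    by_cases ha : a ∈ S
    · rw [if_pos ha]
      by_cases h1 : (((buf S M w).length : ℕ) : ZMod M) + 1 = 0
      · rw [if_pos h1]
        exact hM
      · rw [if_neg h1, List.length_append, List.length_singleton]
        exact cast_succ_ne M _ ih h1
    · rw [if_neg ha]
      exact ih

theorem buf_length_cast (w : List α) :
    (((buf S M w).length : ℕ) : ZMod M) = ((sc S w : ℕ) : ZMod M) := by
  induction w using List.reverseRecOn with
  | nil => rfl
  | append_singleton w a ih =>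
    rw [buf_snoc, sc_snoc]
    by_cases ha : a ∈ S
    · rw [if_pos ha, if_pos ha]
      by_cases h1 : (((buf S M w).length : ℕ) : ZMod M) + 1 = 0
      · rw [if_pos h1]
        push_cast
        rw [← ih, h1, List.length_nil, Nat.cast_zero]
      · rw [if_neg h1, List.length_append, List.length_singleton]
        push_cast
        rw [ih]
    · rw [if_neg ha, if_neg ha, Nat.add_zero]
      exact ih

/-- The completion of a block. -/
def comp (v : List α) (a : α) : Prop :=
  a ∈ S ∧ (((buf S M v).length : ℕ) : ZMod M) + 1 = 0

theorem comp_count (w : List α) :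
    sc S w = M * cntP (comp S M) w + (buf S M w).length := by
  induction w using List.reverseRecOn with
  | nil => rfl
  | append_singleton w a ih =>
    rw [sc_snoc, cntP_snoc, buf_snoc]
    by_cases ha : a ∈ S
    · rw [if_pos ha, if_pos ha]
      by_cases h1 : (((buf S M w).length : ℕ) : ZMod M) + 1 = 0
      · have hc : comp S M w a := ⟨ha, h1⟩
        have h2 := cast_succ_eq M _ (buf_length_lt S M w) h1
        rw [if_pos h1, if_pos hc, List.length_nil, Nat.mul_add, Nat.mul_one]
        omega
      · have hc : ¬ comp S M w a := fun hc => h1 hc.2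
        rw [if_neg h1, if_neg hc, List.length_append, List.length_singleton]
        simp only [Nat.add_zero]
        omega
    · have hc : ¬ comp S M w a := fun hc => ha hc.1
      rw [if_neg ha, if_neg ha, if_neg hc, Nat.add_zero, Nat.add_zero]
      exact ih

theorem comp_div (w : List α) : cntP (comp S M) w = sc S w / M := by
  have hM : 0 < M := Nat.pos_of_ne_zero (NeZero.ne M)
  rw [comp_count S M w, Nat.mul_add_div hM, Nat.div_eq_of_lt (buf_length_lt S M w),
    Nat.add_zero]

theorem good_comp [Fintype α] (n : ℕ) [NeZero n] :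
    Good (fun w : List α => ((cntP (comp S M) w : ℕ) : ZMod n)) := by
  have hM : M ≠ 0 := NeZero.ne M
  have hn : n ≠ 0 := NeZero.ne n
  have inst : NeZero (M * n) := ⟨Nat.mul_ne_zero hM hn⟩
  have h := (good_sc S (M * n)).comp (fun z : ZMod (M * n) => ((z.val / M : ℕ) : ZMod n))
  refine h.congr (fun w => ?_)
  rw [comp_div, ZMod.val_natCast, Nat.mod_mul_right_div_self, ZMod.natCast_mod]

variable (β : ZMod M → α)

/-- The first `L` letters of the pattern `β`. -/
def pre (L : ℕ) : List α := (List.range L).map (fun i => β ((i : ℕ) : ZMod M))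

omit [NeZero M] in
theorem pre_length (L : ℕ) : (pre M β L).length = L := by
  unfold pre
  rw [List.length_map, List.length_range]

omit [NeZero M] in
theorem pre_succ (L : ℕ) : pre M β (L + 1) = pre M β L ++ [β ((L : ℕ) : ZMod M)] := by
  unfold pre
  rw [List.range_succ, List.map_append]
  rfl

omit [NeZero M] in
theorem pre_snoc_iff (b : List α) (a : α) :
    b ++ [a] = pre M β (b.length + 1) ↔ (b = pre M β b.length ∧ a = β ((b.length : ℕ) : ZMod M)) := by
  rw [pre_succ]
  constructor
  · intro h
    have h1 := List.append_inj h (by rw [pre_length])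
    exact ⟨h1.1, List.singleton_inj.mp h1.2⟩
  · rintro ⟨h1, h2⟩
    rw [← h1, h2]

theorem krun_buf (w : List α) : run (kδ S M β) (0, true) w =
    ((((buf S M w).length : ℕ) : ZMod M),
      decide (buf S M w = pre M β (buf S M w).length)) := by
  induction w using List.reverseRecOn with
  | nil =>
    rw [run_nil, buf_nil]
    refine Prod.ext ?_ ?_
    · show (0 : ZMod M) = ((0 : ℕ) : ZMod M)
      rw [Nat.cast_zero]
    · show true = decide (([] : List α) = pre M β 0)
      exact (decide_eq_true rfl).symm
  | append_singleton w a ih =>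
    rw [run_snoc, ih, buf_snoc]
    by_cases ha : a ∈ S
    · rw [if_pos ha]
      by_cases h1 : (((buf S M w).length : ℕ) : ZMod M) + 1 = 0
      · rw [if_pos h1, kδ_wrap S M β _ _ a ha h1]
        refine Prod.ext ?_ ?_
        · show (0 : ZMod M) = ((0 : ℕ) : ZMod M)
          rw [Nat.cast_zero]
        · show true = decide (([] : List α) = pre M β 0)
          exact (decide_eq_true rfl).symm
      · rw [if_neg h1, kδ_step S M β _ _ a ha h1, List.length_append, List.length_singleton]
        refine Prod.ext ?_ ?_
        · show (((buf S M w).length : ℕ) : ZMod M) + 1 = (((buf S M w).length + 1 : ℕ) : ZMod M)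
          push_cast
          rfl
        · show (decide (buf S M w = pre M β (buf S M w).length) &&
            decide (a = β (((buf S M w).length : ℕ) : ZMod M))) =
            decide (buf S M w ++ [a] = pre M β ((buf S M w).length + 1))
          rw [← Bool.decide_and, decide_eq_decide]
          exact (pre_snoc_iff M β (buf S M w) a).symm
    · rw [if_neg ha, kδ_notMem S M β _ a ha]

theorem cnt_mis (w : List α) : cnt (kδ S M β) (kT S M β) (0, true) w =
    cntP (fun v a => comp S M v a ∧ buf S M v ++ [a] ≠ pre M β M) w := by
  rw [cnt_eq_cntP]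
  apply cntP_congr
  intro v a
  rw [krun_buf]
  constructor
  · rintro ⟨h1, h2, h3⟩
    have hL := cast_succ_eq M _ (buf_length_lt S M v) h2
    have e : pre M β ((buf S M v).length + 1) = pre M β M := by rw [hL]
    refine ⟨⟨h1, h2⟩, fun h => h3 ?_⟩
    rw [← e] at h
    have h4 := (pre_snoc_iff M β (buf S M v) a).mp h
    exact ⟨decide_eq_true h4.1, h4.2⟩
  · rintro ⟨⟨h1, h2⟩, h3⟩
    have hL := cast_succ_eq M _ (buf_length_lt S M v) h2
    have e : pre M β ((buf S M v).length + 1) = pre M β M := by rw [hL]
    refine ⟨h1, h2, fun h => h3 ?_⟩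
    rw [← e]
    exact (pre_snoc_iff M β (buf S M v) a).mpr ⟨of_decide_eq_true h.1, h.2⟩

/-- The number of complete blocks of `w` equal to the pattern `β`. -/
noncomputable def mc (w : List α) : ℕ :=
  cntP (fun v a => comp S M v a ∧ buf S M v ++ [a] = pre M β M) w

theorem mc_snoc (w : List α) (a : α) : mc S M β (w ++ [a]) =
    mc S M β w + (if comp S M w a ∧ buf S M w ++ [a] = pre M β M then 1 else 0) := by
  by_cases h : comp S M w a ∧ buf S M w ++ [a] = pre M β M
  · rw [if_pos h]
    unfold mc
    rw [cntP_snoc, if_pos h]
  · rw [if_neg h]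
    unfold mc
    rw [cntP_snoc, if_neg h]

theorem mc_add (w : List α) :
    cntP (comp S M) w = mc S M β w + cnt (kδ S M β) (kT S M β) (0, true) w := by
  rw [cnt_mis]
  unfold mc
  exact cntP_add _ _ _
    (fun v a => by
      constructor
      · intro h
        by_cases h1 : buf S M v ++ [a] = pre M β M
        · exact Or.inl ⟨h, h1⟩
        · exact Or.inr ⟨h, h1⟩
      · rintro (h | h)
        · exact h.1
        · exact h.1)
    (fun v a => by
      rintro ⟨⟨_, h1⟩, ⟨_, h2⟩⟩
      exact h2 h1) w

/-- For a primitive pattern, the number of complete blocks equal to the pattern, counted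
modulo `n`, is a good function. -/
theorem good_mc [Fintype α] (hβ : Prim M β) (n : ℕ) [NeZero n] :
    Good (fun w : List α => ((mc S M β w : ℕ) : ZMod n)) := by
  have h1 := good_comp S M (α := α) n
  have h2 := renewal (kδ S M β) (kT S M β) (0, true) (kT_enter S M β)
    (block_counterFree S M β hβ) (0, true) n
  refine (h1.zsub h2).congr (fun w => ?_)
  rw [mc_add S M β w]
  push_cast
  ring

end blockcount

end Vale.Agent.Lib.P329
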