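import Vale.Agent.Lib.P329.BlockCount

namespace Vale.Agent.Lib.P329

open Classical

variable {α : Type}

theorem getElem?_snoc_ite (b : List α) (a x : α) (i : ℕ) :
    (if (b ++ [a])[i]? = some x then 1 else 0 : ℕ) =
      (if b[i]? = some x then 1 else 0) + (if a = x ∧ b.length = i then 1 else 0) := by
  rcases Nat.lt_trichotomy i b.length with h | h | h
  · rw [List.getElem?_append_left h]
    have h2 : ¬ (a = x ∧ b.length = i) := fun hh => by omega
    rw [if_neg h2, Nat.add_zero]
  · subst h
    rw [List.getElem?_concat_length, List.getElem?_eq_none (le_refl _)]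
    by_cases hax : a = x
    · rw [if_pos (by rw [hax]), if_neg (by simp), if_pos ⟨hax, rfl⟩]
    · rw [if_neg (fun hh => hax (Option.some.inj hh)), if_neg (by simp),
        if_neg (fun hh => hax hh.1)]
  · have h3 : (b ++ [a]).length ≤ i := by
      rw [List.length_append, List.length_singleton]
      omega
    rw [List.getElem?_eq_none h3, List.getElem?_eq_none (by omega)]
    have h2 : ¬ (a = x ∧ b.length = i) := fun hh => by omega
    rw [if_neg (by simp), if_neg h2]

section ident

variable (S : Finset α) (M : ℕ) [NeZero M]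

/-- Exactly one pattern is equal to a given block of length `M`. -/
theorem sum_block [Fintype α] (B : List α) (hB : B.length = M) (x : α) (o : ZMod M) :
    (∑ β : ZMod M → α, if β o = x ∧ B = pre M β M then 1 else 0 : ℕ) =
      if B[o.val]? = some x then 1 else 0 := by
  have ho : o.val < B.length := by
    rw [hB]
    exact ZMod.val_lt o
  obtain ⟨β₀, hβ₀⟩ : ∃ β₀ : ZMod M → α, ∀ i, β₀ i = (B[i.val]?).getD x :=
    ⟨fun i => (B[i.val]?).getD x, fun _ => rfl⟩
  have hval : ∀ i : ZMod M, B[i.val]? = some (β₀ i) := by
    intro i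
    have hi : i.val < B.length := by
      rw [hB]
      exact ZMod.val_lt i
    rw [hβ₀, List.getElem?_eq_getElem hi]
    rfl
  have h2 : pre M β₀ M = B := by
    apply List.ext_getElem?
    intro i
    by_cases hi : i < M
    · have e : (pre M β₀ M)[i]? = some (β₀ ((i : ℕ) : ZMod M)) := by
        unfold pre
        rw [List.getElem?_map, List.getElem?_range hi]
        rfl
      rw [e]
      have h3 := hval ((i : ℕ) : ZMod M)
      rw [ZMod.val_natCast, Nat.mod_eq_of_lt hi] at h3
      exact h3.symm
    · rw [List.getElem?_eq_none (by rw [pre_length]; omega),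
        List.getElem?_eq_none (by rw [hB]; omega)]
  have h1 : ∀ β : ZMod M → α, B = pre M β M → β = β₀ := by
    intro β hβ
    funext i
    have h3 := hval i
    have hi : i.val < M := ZMod.val_lt i
    have e : (pre M β M)[i.val]? = some (β ((i.val : ℕ) : ZMod M)) := by
      unfold pre
      rw [List.getElem?_map, List.getElem?_range hi]
      rfl
    rw [hβ, e, ZMod.natCast_zmod_val] at h3
    exact Option.some.inj h3
  rw [Finset.sum_eq_single β₀]
  · have e : (β₀ o = x ∧ B = pre M β₀ M) ↔ B[o.val]? = some x := by
      rw [hval o]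
      constructor
      · rintro ⟨h3, _⟩
        rw [h3]
      · intro h3
        exact ⟨Option.some.inj h3, h2.symm⟩
    exact if_congr e rfl rfl
  · intro β _ hβ
    rw [if_neg]
    rintro ⟨_, h3⟩
    exact hβ (h1 β h3)
  · intro h
    exact absurd (Finset.mem_univ _) h

theorem sc_cast_iff (o : ZMod M) (w : List α) :
    ((sc S w : ℕ) : ZMod M) = o ↔ (buf S M w).length = o.val := by
  rw [← buf_length_cast]
  exact cast_eq_iff_val M _ (buf_length_lt S M w) o

/-- The positional statistics of a letter of `S` as a combination of the numbers of complete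
blocks equal to each pattern, up to the contribution of the last, incomplete block. -/
theorem pos_ident [Fintype α] (x : α) (hx : x ∈ S) (o : ZMod M) (w : List α) :
    cntP (fun v a => a = x ∧ ((sc S v : ℕ) : ZMod M) = o) w =
      (∑ β : ZMod M → α, if β o = x then mc S M β w else 0) +
        (if (buf S M w)[o.val]? = some x then 1 else 0) := by
  induction w using List.reverseRecOn with
  | nil =>
    have h0 : ∀ β : ZMod M → α, (if β o = x then mc S M β [] else 0) = 0 := fun β => by
      unfold mc
      rw [cntP_nil, ite_self]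
    rw [cntP_nil, buf_nil, Finset.sum_congr rfl (fun β _ => h0 β), Finset.sum_const_zero]
    simp
  | append_singleton w a ih =>
    have hs : cntP (fun v a => a = x ∧ ((sc S v : ℕ) : ZMod M) = o) (w ++ [a]) =
        cntP (fun v a => a = x ∧ ((sc S v : ℕ) : ZMod M) = o) w +
          (if a = x ∧ ((sc S w : ℕ) : ZMod M) = o then 1 else 0) := by
      rw [cntP_snoc]
      by_cases hE : a = x ∧ ((sc S w : ℕ) : ZMod M) = o
      · simp only [if_pos hE]
      · simp only [if_neg hE]
    rw [hs, ih]
    have hsum : (∑ β : ZMod M → α, if β o = x then mc S M β (w ++ [a]) else 0) =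
        (∑ β : ZMod M → α, if β o = x then mc S M β w else 0) +
        (∑ β : ZMod M → α,
          if β o = x ∧ (comp S M w a ∧ buf S M w ++ [a] = pre M β M) then 1 else 0) := by
      rw [← Finset.sum_add_distrib]
      apply Finset.sum_congr rfl
      intro β _
      rw [mc_snoc]
      by_cases h1 : β o = x
      · by_cases h2 : comp S M w a ∧ buf S M w ++ [a] = pre M β M
        · rw [if_pos h1, if_pos h1, if_pos h2, if_pos ⟨h1, h2⟩]
        · rw [if_pos h1, if_pos h1, if_neg h2, if_neg (fun h => h2 h.2)]
      · rw [if_neg h1, if_neg h1, if_neg (fun h => h1 h.1)]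
    rw [hsum]
    have e2 : (if a = x ∧ ((sc S w : ℕ) : ZMod M) = o then 1 else 0 : ℕ) =
        if a = x ∧ (buf S M w).length = o.val then 1 else 0 :=
      if_congr (and_congr Iff.rfl (sc_cast_iff S M o w)) rfl rfl
    have hV := getElem?_snoc_ite (buf S M w) a x o.val
    have key : (if a = x ∧ ((sc S w : ℕ) : ZMod M) = o then 1 else 0) +
        (if (buf S M w)[o.val]? = some x then 1 else 0 : ℕ) =
        (∑ β : ZMod M → α,
          if β o = x ∧ (comp S M w a ∧ buf S M w ++ [a] = pre M β M) then 1 else 0) +
        (if (buf S M (w ++ [a]))[o.val]? = some x then 1 else 0) := by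
      rw [buf_snoc, e2]
      by_cases ha : a ∈ S
      · rw [if_pos ha]
        by_cases h1 : (((buf S M w).length : ℕ) : ZMod M) + 1 = 0
        · rw [if_pos h1]
          have hlen : (buf S M w ++ [a]).length = M := by
            rw [List.length_append, List.length_singleton]
            exact cast_succ_eq M _ (buf_length_lt S M w) h1
          have hU := sum_block M (buf S M w ++ [a]) hlen x o
          have e : (∑ β : ZMod M → α,
              if β o = x ∧ (comp S M w a ∧ buf S M w ++ [a] = pre M β M) then 1 else 0) =
              ∑ β : ZMod M → α, if β o = x ∧ buf S M w ++ [a] = pre M β M then 1 else 0 :=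
            Finset.sum_congr rfl (fun β _ => if_congr
              ⟨fun h => ⟨h.1, h.2.2⟩, fun h => ⟨h.1, ⟨ha, h1⟩, h.2⟩⟩ rfl rfl)
          rw [e, hU, hV]
          have e3 : (if ([] : List α)[o.val]? = some x then 1 else 0 : ℕ) = 0 := by
            rw [if_neg (by simp)]
          rw [e3]
          omega
        · rw [if_neg h1]
          have e : (∑ β : ZMod M → α,
              if β o = x ∧ (comp S M w a ∧ buf S M w ++ [a] = pre M β M) then 1 else 0) = 0 :=
            Finset.sum_eq_zero (fun β _ => if_neg (fun h => h1 h.2.1.2))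
          rw [e, hV]
          omega
      · rw [if_neg ha]
        have hax : ¬ (a = x ∧ (buf S M w).length = o.val) := fun h => ha (h.1 ▸ hx)
        have e : (∑ β : ZMod M → α,
            if β o = x ∧ (comp S M w a ∧ buf S M w ++ [a] = pre M β M) then 1 else 0) = 0 :=
          Finset.sum_eq_zero (fun β _ => if_neg (fun h => ha h.2.1.1))
        rw [e, if_neg hax]
    omega

theorem btail_fwd (x : α) (hx : x ∈ S) (o : ZMod M) : ∀ (w₂ w₁ : List α),
    (buf S M w₁).length = o.val → o.val + 1 + sc S w₂ < M →
    (buf S M (w₁ ++ x :: w₂)).length = o.val + 1 + sc S w₂ ∧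
      (buf S M (w₁ ++ x :: w₂))[o.val]? = some x := by
  intro w₂
  induction w₂ using List.reverseRecOn with
  | nil =>
    intro w₁ h1 h2
    rw [sc_nil, Nat.add_zero] at h2 ⊢
    have h3 : ¬ (((buf S M w₁).length : ℕ) : ZMod M) + 1 = 0 := by
      intro h3
      have h4 := cast_succ_eq M _ (buf_length_lt S M w₁) h3
      omega
    rw [buf_snoc, if_pos hx, if_neg h3, List.length_append, List.length_singleton, h1]
    refine ⟨rfl, ?_⟩
    rw [← h1, List.getElem?_concat_length]
  | append_singleton w₂ a ih =>
    intro w₁ h1 h2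
    rw [sc_snoc] at h2 ⊢
    have e : w₁ ++ x :: (w₂ ++ [a]) = (w₁ ++ x :: w₂) ++ [a] := by simp
    obtain ⟨h3, h4⟩ := ih w₁ h1 (by omega)
    rw [e, buf_snoc]
    by_cases ha : a ∈ S
    · rw [if_pos ha] at h2
      have h5 : ¬ (((buf S M (w₁ ++ x :: w₂)).length : ℕ) : ZMod M) + 1 = 0 := by
        intro h5
        have h6 := cast_succ_eq M _ (buf_length_lt S M _) h5
        omega
      rw [if_pos ha, if_pos ha, if_neg h5, List.length_append, List.length_singleton, h3]
      refine ⟨rfl, ?_⟩
      rw [List.getElem?_append_left (by omega)]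
      exact h4
    · rw [if_neg ha, if_neg ha, Nat.add_zero]
      exact ⟨h3, h4⟩

theorem btail_iff (x : α) (hx : x ∈ S) (o : ZMod M) (w : List α) :
    (buf S M w)[o.val]? = some x ↔
      ∃ w₁ w₂, w = w₁ ++ x :: w₂ ∧ (buf S M w₁).length = o.val ∧ o.val + 1 + sc S w₂ < M := by
  constructor
  · induction w using List.reverseRecOn with
    | nil =>
      intro h
      rw [buf_nil] at h
      exact absurd h (by simp)
    | append_singleton w a ih =>
      intro h
      rw [buf_snoc] at h
      by_cases ha : a ∈ S
      · rw [if_pos ha] at h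
        by_cases h1 : (((buf S M w).length : ℕ) : ZMod M) + 1 = 0
        · rw [if_pos h1] at h
          exact absurd h (by simp)
        · rw [if_neg h1] at h
          have hlt := cast_succ_ne M _ (buf_length_lt S M w) h1
          rcases Nat.lt_trichotomy o.val (buf S M w).length with h2 | h2 | h2
          · rw [List.getElem?_append_left h2] at h
            obtain ⟨w₁, w₂, rfl, h3, h4⟩ := ih h
            have h5 := (btail_fwd S M x hx o w₂ w₁ h3 h4).1
            refine ⟨w₁, w₂ ++ [a], by simp, h3, ?_⟩
            rw [sc_snoc, if_pos ha]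
            omega
          · rw [h2, List.getElem?_concat_length] at h
            have hax : a = x := Option.some.inj h
            refine ⟨w, [], by rw [hax], h2.symm, ?_⟩
            rw [sc_nil]
            omega
          · have h3 : (buf S M w ++ [a]).length ≤ o.val := by
              rw [List.length_append, List.length_singleton]
              omega
            rw [List.getElem?_eq_none h3] at h
            exact absurd h (by simp)
      · rw [if_neg ha] at h
        obtain ⟨w₁, w₂, rfl, h3, h4⟩ := ih h
        refine ⟨w₁, w₂ ++ [a], by simp, h3, ?_⟩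
        rw [sc_snoc, if_neg ha]
        omega
  · rintro ⟨w₁, w₂, rfl, h3, h4⟩
    exact (btail_fwd S M x hx o w₂ w₁ h3 h4).2

/-- The contribution of the last, incomplete block is a good function. -/
theorem good_tail [Fintype α] (x : α) (hx : x ∈ S) (o : ZMod M) (n : ℕ) [NeZero n] :
    Good (fun w : List α => if (buf S M w)[o.val]? = some x then (1 : ZMod n) else 0) := by
  apply Good.indicator
  have h1 : GSH 1 (langOf (fun w : List α => ((sc S w : ℕ) : ZMod M) = o)) := good_sc S M o
  have h2 : GSH 1 ((((Seg S) ^ (M - (o.val + 1))) * (⊤ : Language α))ᶜ) :=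
    (((gsh_Seg S 1).pow _).mul (GSH.top 1)).compl
  refine (h1.mul ((GSH.letter 1 x).mul h2)).congr (fun w => ?_)
  rw [mem_langOf, btail_iff S M x hx o w]
  constructor
  · rintro ⟨w₁, w₂, rfl, h3, h4⟩
    have e : w₁ ++ x :: w₂ = w₁ ++ ([x] ++ w₂) := rfl
    rw [e]
    refine Language.append_mem_mul ?_ (Language.append_mem_mul rfl ?_)
    · rw [mem_langOf]
      exact (sc_cast_iff S M o w₁).mpr h3
    · rw [mem_compl_lang, ← sc_ge_iff]
      omega
  · intro h
    obtain ⟨w₁, hw₁, r, hr, rfl⟩ := Language.mem_mul.mp h
    obtain ⟨y, hy, w₂, hw₂, rfl⟩ := Language.mem_mul.mp hr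
    rw [mem_singleton_lang] at hy
    rw [mem_compl_lang, ← sc_ge_iff] at hw₂
    rw [mem_langOf] at hw₁
    refine ⟨w₁, w₂, by rw [hy]; rfl, (sc_cast_iff S M o w₁).mp hw₁, ?_⟩
    have h5 : o.val < M := ZMod.val_lt o
    omega

end ident

end Vale.Agent.Lib.P329
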