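import Vale.Agent.Lib.P329.WalkStats

namespace Vale.Agent.Lib.P329

open Classical

variable {Q α : Type}

/-- Removing any set of transitions from a counter-free automaton leaves a counter-free
automaton. -/
theorem rem_counterFree (δ : Q → α → Q) (hcf : CounterFree δ) (T : Q → α → Prop) :
    CounterFree (rem δ T) := by
  intro p u m hm hrun
  cases p with
  | none => exact run_rem_none _ _ u
  | some p =>
    rw [run_rem_some] at hrun ⊢
    by_cases h0 : cnt δ T p (pw u m) = 0
    · rw [if_pos h0] at hrun
      have hq : run δ p (pw u m) = p := Option.some.inj hrun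
      obtain ⟨m', rfl⟩ : ∃ m', m = m' + 1 := ⟨m - 1, by omega⟩
      have hu0 : cnt δ T p u = 0 := by
        rw [pw_succ, cnt_append] at h0
        omega
      rw [if_pos hu0, hcf p u (m' + 1) hm hq]
    · rw [if_neg h0] at hrun
      exact absurd hrun (by simp)

/-- Counting modulo `n` the uses of one transition of a counter-free automaton is good. -/
theorem good_cnt_single [Finite Q] [Fintype α] (δ : Q → α → Q) (hcf : CounterFree δ)
    (q0 q : Q) (a : α) (n : ℕ) [NeZero n] :
    Good (fun w => ((cnt δ (fun q' a' => q' = q ∧ a' = a) q0 w : ℕ) : ZMod n)) :=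
  renewal δ _ (δ q a) (fun q' a' h => by rw [h.1, h.2]) (rem_counterFree δ hcf _) q0 n

theorem cntP_sum_pair {β : Type} [Fintype β] [Fintype α] (f : List α → β)
    (ev : List α → α → Prop) (w : List α) :
    cntP ev w = ∑ p : β × α, cntP (fun v a => a = p.2 ∧ (ev v p.2 ∧ f v = p.1)) w := by
  induction w using List.reverseRecOn with
  | nil =>
    simp only [cntP_nil]
    rw [Finset.sum_const_zero]
  | append_singleton w a ih =>
    rw [cntP_snoc, ih]
    simp only [cntP_snoc]
    rw [Finset.sum_add_distrib]
    congr 1
    by_cases e : ev w a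
    · rw [if_pos e, Finset.sum_eq_single (f w, a)]
      · rw [if_pos ⟨rfl, e, rfl⟩]
      · intro p _ hp
        rw [if_neg]
        rintro ⟨h1, _, h2⟩
        exact hp (Prod.ext h2.symm h1.symm)
      · intro h
        exact absurd (Finset.mem_univ _) h
    · rw [if_neg e]
      symm
      apply Finset.sum_eq_zero
      intro p _
      rw [if_neg]
      rintro ⟨h1, h2, _⟩
      rw [← h1] at h2
      exact e h2

/-- Counting modulo `n` the uses of any set of transitions of a counter-free automaton is
good. -/
theorem good_cnt [Finite Q] [Fintype α] (δ : Q → α → Q) (hcf : CounterFree δ)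
    (T : Q → α → Prop) (q0 : Q) (n : ℕ) [NeZero n] :
    Good (fun w => ((cnt δ T q0 w : ℕ) : ZMod n)) := by
  have instQ : Fintype Q := Fintype.ofFinite Q
  have h1 : ∀ p : Q × α, Good (fun w => ((cntP (fun v a => a = p.2 ∧
      (T (run δ q0 v) p.2 ∧ run δ q0 v = p.1)) w : ℕ) : ZMod n)) := by
    intro p
    by_cases hT : T p.1 p.2
    · refine (good_cnt_single δ hcf q0 p.1 p.2 n).congr (fun w => ?_)
      rw [cnt_eq_cntP]
      congr 1
      apply cntP_congr
      intro v a
      constructor
      · rintro ⟨h1, _, h3⟩
        exact ⟨h3, h1⟩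
      · rintro ⟨h1, h2⟩
        exact ⟨h2, by rw [h1]; exact hT, h1⟩
    · refine (Good.const (0 : ZMod n)).congr (fun w => ?_)
      rw [cntP_false _ (fun v a h => hT (by rw [← h.2.2]; exact h.2.1))]
      exact Nat.cast_zero
  have h := (Good.pi h1).comp (fun f => ∑ p, f p)
  refine h.congr (fun w => ?_)
  rw [cnt_eq_cntP, cntP_sum_pair (fun v => run δ q0 v)]
  push_cast
  rfl

/-- The number of initial segments of `w` (the empty word and `w` itself included) that
belong to the language `K`. -/
noncomputable def pcount (K : Language α) (w : List α) : ℕ :=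
  w.inits.countP (fun v => decide (v ∈ K))

theorem inits_countP_run (δ : Q → α → Q) (F : Set Q) : ∀ (w : List α) (q : Q),
    w.inits.countP (fun v => decide (run δ q v ∈ F)) =
      (if q ∈ F then 1 else 0) + cnt δ (fun q a => δ q a ∈ F) q w := by
  intro w
  induction w with
  | nil =>
    intro q
    rw [cnt_nil, Nat.add_zero]
    by_cases h : q ∈ F
    · simp [run_nil, h]
    · simp [run_nil, h]
  | cons a w ih =>
    intro q
    rw [List.inits_cons, List.countP_cons, List.countP_map, cnt_cons]
    have e : ((fun v => decide (run δ q v ∈ F)) ∘ fun t => a :: t) =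
        (fun v => decide (run δ (δ q a) v ∈ F)) := by
      funext v
      rfl
    rw [e, ih (δ q a)]
    by_cases h : q ∈ F
    · simp [run_nil, h]
      omega
    · simp [run_nil, h]

theorem pcount_eq (δ : Q → α → Q) (q0 : Q) (F : Set Q) (K : Language α)
    (hK : ∀ w, w ∈ K ↔ run δ q0 w ∈ F) (w : List α) :
    pcount K w = (if q0 ∈ F then 1 else 0) + cnt δ (fun q a => δ q a ∈ F) q0 w := by
  rw [← inits_countP_run]
  unfold pcount
  congr 1
  funext v
  exact decide_eq_decide.mpr (hK v)

/-- A language is recognized by a finite counter-free deterministic automaton. -/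
def CFRec (L : Language α) : Prop :=
  ∃ (Q : Type) (_ : Finite Q) (δ : Q → α → Q) (q0 : Q) (F : Set Q),
    CounterFree δ ∧ ∀ w, w ∈ L ↔ run δ q0 w ∈ F

/-- For a language recognized by a finite counter-free automaton, the number of initial
segments of a word that belong to the language, counted modulo `n`, is a good function. -/
theorem good_pcount [Fintype α] {K : Language α} (hK : CFRec K) (n : ℕ) [NeZero n] :
    Good (fun w => ((pcount K w : ℕ) : ZMod n)) := by
  obtain ⟨Q, hQ, δ, q0, F, hcf, hrec⟩ := hK
  have h := (Good.const (α := α) ((if q0 ∈ F then 1 else 0 : ℕ) : ZMod n)).zadd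
    (good_cnt δ hcf (fun q a => δ q a ∈ F) q0 n)
  refine h.congr (fun w => ?_)
  rw [pcount_eq δ q0 F K hrec w]
  push_cast
  rfl

end Vale.Agent.Lib.P329
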