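import Vale.Agent.Lib.P329.Main
import Mathlib.GroupTheory.Nilpotent

namespace Vale.Agent.Lib.P329

open scoped commutatorElement

section grp

variable {G : Type} [Group G]

/-- The two consequences of nilpotency class at most three that are used below: the commutator
subgroup is abelian and commutators `⁅t, y⁆` with `t` in the commutator subgroup are central. -/
structure C3 (G : Type) [Group G] : Prop where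
  comm : ∀ a ∈ _root_.commutator G, ∀ b ∈ _root_.commutator G, a * b = b * a
  cent : ∀ t ∈ _root_.commutator G, ∀ y : G, ⁅t, y⁆ ∈ Subgroup.center G

theorem c3_of_lcs (h3 : (⊤ : Subgroup G).lowerCentralSeries 3 = ⊥) : C3 G := by
  have h3' : ⁅⁅⁅(⊤ : Subgroup G), (⊤ : Subgroup G)⁆, (⊤ : Subgroup G)⁆, (⊤ : Subgroup G)⁆ = ⊥ := h3
  constructor
  · have h1 : ⁅⁅(⊤ : Subgroup G), ⁅(⊤ : Subgroup G), (⊤ : Subgroup G)⁆⁆, (⊤ : Subgroup G)⁆ = ⊥ := by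
      rw [Subgroup.commutator_comm ⊤ ⁅(⊤ : Subgroup G), (⊤ : Subgroup G)⁆]
      exact h3'
    have h := Subgroup.commutator_commutator_eq_bot_of_rotate h1 h3'
    intro a ha b hb
    rw [commutator_def] at ha hb
    have hab : ⁅a, b⁆ ∈ ⁅⁅(⊤ : Subgroup G), (⊤ : Subgroup G)⁆,
        ⁅(⊤ : Subgroup G), (⊤ : Subgroup G)⁆⁆ :=
      Subgroup.commutator_mem_commutator ha hb
    rw [h, Subgroup.mem_bot] at hab
    exact commutatorElement_eq_one_iff_mul_comm.mp hab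
  · intro t ht y
    rw [commutator_def] at ht
    rw [Subgroup.mem_center_iff]
    intro v
    have h1 : ⁅t, y⁆ ∈ ⁅⁅(⊤ : Subgroup G), (⊤ : Subgroup G)⁆, (⊤ : Subgroup G)⁆ :=
      Subgroup.commutator_mem_commutator ht (Subgroup.mem_top y)
    have h2 : ⁅⁅t, y⁆, v⁆ ∈
        ⁅⁅⁅(⊤ : Subgroup G), (⊤ : Subgroup G)⁆, (⊤ : Subgroup G)⁆, (⊤ : Subgroup G)⁆ :=
      Subgroup.commutator_mem_commutator h1 (Subgroup.mem_top v)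
    rw [h3', Subgroup.mem_bot] at h2
    exact (commutatorElement_eq_one_iff_mul_comm.mp h2).symm

theorem cm (x y : G) : ⁅x, y⁆ ∈ _root_.commutator G := by
  rw [commutator_def]
  exact Subgroup.commutator_mem_commutator (Subgroup.mem_top x) (Subgroup.mem_top y)

theorem comm_center {z : G} (hz : z ∈ Subgroup.center G) (v : G) : z * v = v * z :=
  ((Subgroup.mem_center_iff.mp hz) v).symm

theorem bracket_center {z : G} (hz : z ∈ Subgroup.center G) (y : G) : ⁅z, y⁆ = 1 :=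
  commutatorElement_eq_one_iff_mul_comm.mpr (comm_center hz y)

theorem bracket_mul_left (h : C3 G) {t1 t2 : G} (_ht1 : t1 ∈ _root_.commutator G)
    (ht2 : t2 ∈ _root_.commutator G) (y : G) : ⁅t1 * t2, y⁆ = ⁅t1, y⁆ * ⁅t2, y⁆ := by
  have hz := comm_center (h.cent t2 ht2 y)
  calc ⁅t1 * t2, y⁆ = t1 * ⁅t2, y⁆ * t1⁻¹ * ⁅t1, y⁆ := by
        simp only [commutatorElement_def]; group
    _ = ⁅t2, y⁆ * t1 * t1⁻¹ * ⁅t1, y⁆ := by rw [← hz t1]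
    _ = ⁅t1, y⁆ * ⁅t2, y⁆ := by rw [mul_inv_cancel_right, hz]

theorem bracket_mul_right (h : C3 G) {t : G} (ht : t ∈ _root_.commutator G) (y1 y2 : G) :
    ⁅t, y1 * y2⁆ = ⁅t, y1⁆ * ⁅t, y2⁆ := by
  have hz := comm_center (h.cent t ht y2)
  calc ⁅t, y1 * y2⁆ = ⁅t, y1⁆ * (y1 * ⁅t, y2⁆) * y1⁻¹ := by
        simp only [commutatorElement_def]; group
    _ = ⁅t, y1⁆ * (⁅t, y2⁆ * y1) * y1⁻¹ := by rw [hz y1]
    _ = ⁅t, y1⁆ * ⁅t, y2⁆ := by group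

theorem bracket_pow_left (h : C3 G) {t : G} (ht : t ∈ _root_.commutator G) (y : G) (k : ℕ) :
    ⁅t ^ k, y⁆ = ⁅t, y⁆ ^ k := by
  induction k with
  | zero => simp
  | succ k ih =>
    rw [pow_succ, bracket_mul_left h (pow_mem ht k) ht, ih, pow_succ]

/-- The collection formula `⁅γ ^ k, x⁆ = τ ^ k * ζ ^ (k choose 2)`. -/
theorem bracket_pow (h : C3 G) (γ x : G) (k : ℕ) :
    ⁅γ ^ k, x⁆ = ⁅γ, x⁆ ^ k * (⁅⁅γ, x⁆, γ⁆⁻¹) ^ (k.choose 2) := by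
  have hτ : ⁅γ, x⁆ ∈ _root_.commutator G := cm γ x
  have hζ : (⁅⁅γ, x⁆, γ⁆⁻¹) ∈ Subgroup.center G := inv_mem (h.cent _ hτ γ)
  have hζ2 : (⁅⁅γ, x⁆, γ⁆⁻¹) ∈ _root_.commutator G := inv_mem (cm _ _)
  induction k with
  | zero => simp
  | succ k ih =>
    have hζk : ∀ m : ℕ, (⁅⁅γ, x⁆, γ⁆⁻¹) ^ m ∈ Subgroup.center G := fun m => pow_mem hζ m
    have e1 : ⁅γ ^ (k + 1), x⁆ = ⁅⁅γ ^ k, x⁆, γ⁆⁻¹ * ⁅γ ^ k, x⁆ * ⁅γ, x⁆ := by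
      rw [pow_succ']
      simp only [commutatorElement_def]; group
    have e2 : ⁅⁅γ ^ k, x⁆, γ⁆ = ⁅⁅γ, x⁆, γ⁆ ^ k := by
      rw [ih, bracket_mul_left h (pow_mem hτ k) (pow_mem hζ2 _),
        bracket_pow_left h hτ, bracket_center (hζk _), mul_one]
    have e3 : (k + 1).choose 2 = k.choose 2 + k := by
      rw [Nat.choose_succ_succ', Nat.choose_one_right]; ring
    rw [e1, e2, ih, e3, ← inv_pow, pow_add (⁅⁅γ, x⁆, γ⁆⁻¹) (k.choose 2) k, pow_succ ⁅γ, x⁆ k]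
    have c1 := comm_center (hζk k)
    have c2 := comm_center (hζk (k.choose 2))
    calc (⁅⁅γ, x⁆, γ⁆⁻¹) ^ k * (⁅γ, x⁆ ^ k * (⁅⁅γ, x⁆, γ⁆⁻¹) ^ (k.choose 2)) * ⁅γ, x⁆
        = (⁅γ, x⁆ ^ k * (⁅⁅γ, x⁆, γ⁆⁻¹) ^ (k.choose 2)) * ((⁅⁅γ, x⁆, γ⁆⁻¹) ^ k * ⁅γ, x⁆) := by
          rw [c1, mul_assoc]
      _ = (⁅γ, x⁆ ^ k * (⁅⁅γ, x⁆, γ⁆⁻¹) ^ (k.choose 2)) * (⁅γ, x⁆ * (⁅⁅γ, x⁆, γ⁆⁻¹) ^ k) := by
          rw [c1 ⁅γ, x⁆]
      _ = ⁅γ, x⁆ ^ k * ⁅γ, x⁆ * ((⁅⁅γ, x⁆, γ⁆⁻¹) ^ (k.choose 2) * (⁅⁅γ, x⁆, γ⁆⁻¹) ^ k) := by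
          rw [mul_assoc, ← mul_assoc _ ⁅γ, x⁆, c2 ⁅γ, x⁆]; simp only [mul_assoc]

/-- Conjugating `⁅γ ^ k, x⁆` by `y`. -/
theorem conj_bracket_pow (h : C3 G) (γ x y : G) (k : ℕ) :
    y * ⁅γ ^ k, x⁆ * y⁻¹ =
      ⁅γ, x⁆ ^ k * (⁅⁅γ, x⁆, γ⁆⁻¹) ^ (k.choose 2) * (⁅⁅γ, x⁆, y⁆ ^ k)⁻¹ := by
  have hτ : ⁅γ, x⁆ ∈ _root_.commutator G := cm γ x
  have hζ : (⁅⁅γ, x⁆, γ⁆⁻¹) ∈ Subgroup.center G := inv_mem (h.cent _ hτ γ)
  have hζ2 : (⁅⁅γ, x⁆, γ⁆⁻¹) ∈ _root_.commutator G := inv_mem (cm _ _)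
  have e1 : y * ⁅γ ^ k, x⁆ * y⁻¹ = ⁅⁅γ ^ k, x⁆, y⁆⁻¹ * ⁅γ ^ k, x⁆ := by
    simp only [commutatorElement_def]; group
  have e2 : ⁅⁅γ ^ k, x⁆, y⁆ = ⁅⁅γ, x⁆, y⁆ ^ k := by
    rw [bracket_pow h, bracket_mul_left h (pow_mem hτ k) (pow_mem hζ2 _),
      bracket_pow_left h hτ, bracket_center (pow_mem hζ _), mul_one]
  rw [e1, e2, bracket_pow h]
  have hc : (⁅⁅γ, x⁆, y⁆ ^ k)⁻¹ ∈ Subgroup.center G := inv_mem (pow_mem (h.cent _ hτ y) k)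
  rw [comm_center hc]

end grp

end Vale.Agent.Lib.P329
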