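import Vale.Agent.Lib.P329.Class3

namespace Vale.Agent.Lib.P329

open scoped commutatorElement

theorem pow_congr_mod {M : Type} [Monoid M] (a : M) {N m m' : ℕ} (hN : a ^ N = 1)
    (hm : m ≡ m' [MOD N]) : a ^ m = a ^ m' := by
  have key : ∀ j : ℕ, a ^ j = a ^ (j % N) := fun j => by
    conv_lhs => rw [← Nat.div_add_mod j N, pow_add, pow_mul, hN, one_pow, one_mul]
  rw [key m, key m', show m % N = m' % N from hm]

section formula

variable {G : Type} [Group G] {A : Type} [CommGroup A] (ι : A →* G)
  (hι : Function.Injective ι) (br : G → G → A) (hbr : ∀ t y, ι (br t y) = ⁅t, y⁆)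
  {α : Type} [DecidableEq α] [Fintype α]

include hι hbr in
theorem br_one (t : G) : br t 1 = 1 := by
  apply hι
  rw [hbr, map_one, commutatorElement_one_right]

include hι hbr in
theorem br_mul (h : C3 G) {t : G} (ht : t ∈ _root_.commutator G) (y1 y2 : G) :
    br t (y1 * y2) = br t y1 * br t y2 := by
  apply hι
  rw [map_mul, hbr, hbr, hbr]
  exact bracket_mul_right h ht y1 y2

include hι hbr in
theorem br_prod (h : C3 G) {t : G} (ht : t ∈ _root_.commutator G) (g' : α → G) (w : List α) :
    br t (w.map g').prod = ∏ e, br t (g' e) ^ w.count e := by
  induction w with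
  | nil => simp [br_one ι hι br hbr]
  | cons a w ih =>
    rw [List.map_cons, List.prod_cons, br_mul ι hι br hbr h ht, ih]
    have : ∀ e, br t (g' e) ^ (a :: w).count e =
        br t (g' e) ^ w.count e * (if e = a then br t (g' e) else 1) := by
      intro e
      rw [List.count_cons]
      by_cases hea : e = a
      · subst hea; simp [pow_succ]
      · have : (a == e) = false := by simpa using fun h => hea h.symm
        simp [this, hea]
    rw [Finset.prod_congr rfl (fun e _ => this e), Finset.prod_mul_distrib,
      Finset.prod_ite_eq' Finset.univ a (fun e => br t (g' e))]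
    simp [mul_comm]

/-- The three families of elements of the abelian group used in the collection formula. -/
def tauE (g : α → G) (c d : α) : A := br (g c) (g d)

/-- Second family. -/
def zetaE (g : α → G) (c d : α) : A := (br ⁅g c, g d⁆ (g c))⁻¹

/-- Third family. -/
def betaE (g : α → G) (c d e : α) : A := (br ⁅g c, g d⁆ (g e))⁻¹

/-- The collected part: an explicit product of powers whose exponents are numbers of
occurrences of scattered subwords of length two and three. -/
def Fc (g : α → G) (c : α) (w : List α) : A :=
  ∏ d, if d = c then 1 else
    tauE br g c d ^ sub [c, d] w * zetaE br g c d ^ sub [c, c, d] w *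
      ∏ e, if e = c then 1 else betaE br g c d e ^ (sub [c, e, d] w + sub [e, c, d] w)

/-- The increment of `Fc` when a letter `x ≠ c` is appended. -/
def Dl (g : α → G) (c : α) (w : List α) (x : α) : A :=
  tauE br g c x ^ w.count c * zetaE br g c x ^ (w.count c).choose 2 *
    ∏ e, if e = c then 1 else betaE br g c x e ^ (w.count c * w.count e)

theorem Fc_nil (g : α → G) (c : α) : Fc br g c [] = 1 := by
  unfold Fc
  refine Finset.prod_eq_one (fun d _ => ?_)
  by_cases hd : d = c
  · rw [if_pos hd]
  · rw [if_neg hd, sub_nil_right _ (by simp), sub_nil_right _ (by simp), pow_zero, pow_zero,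
      one_mul, one_mul]
    refine Finset.prod_eq_one (fun e _ => ?_)
    by_cases he : e = c
    · rw [if_pos he]
    · rw [if_neg he, sub_nil_right _ (by simp), sub_nil_right _ (by simp), pow_zero]

theorem Fc_snoc_same (g : α → G) (c : α) (w : List α) :
    Fc br g c (w ++ [c]) = Fc br g c w := by
  unfold Fc
  refine Finset.prod_congr rfl (fun d _ => ?_)
  by_cases hd : d = c
  · rw [if_pos hd, if_pos hd]
  · have hcd : c ≠ d := fun h => hd h.symm
    rw [if_neg hd, if_neg hd, sub2_snoc, sub3_snoc, if_neg hcd, if_neg hcd, add_zero, add_zero]
    have inner : (∏ e, if e = c then (1 : A) else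
        betaE br g c d e ^ (sub [c, e, d] (w ++ [c]) + sub [e, c, d] (w ++ [c]))) =
        ∏ e, if e = c then (1 : A) else
          betaE br g c d e ^ (sub [c, e, d] w + sub [e, c, d] w) := by
      refine Finset.prod_congr rfl (fun e _ => ?_)
      rw [sub3_snoc, sub3_snoc, if_neg hcd, if_neg hcd, add_zero, add_zero]
    rw [inner]

theorem Fc_snoc_ne (g : α → G) (c : α) (w : List α) (x : α) (hx : x ≠ c) :
    Fc br g c (w ++ [x]) = Fc br g c w * Dl br g c w x := by
  unfold Fc
  have key : ∀ d, (if d = c then (1 : A) else
      tauE br g c d ^ sub [c, d] (w ++ [x]) * zetaE br g c d ^ sub [c, c, d] (w ++ [x]) *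
        ∏ e, if e = c then 1 else
          betaE br g c d e ^ (sub [c, e, d] (w ++ [x]) + sub [e, c, d] (w ++ [x]))) =
      (if d = c then (1 : A) else
      tauE br g c d ^ sub [c, d] w * zetaE br g c d ^ sub [c, c, d] w *
        ∏ e, if e = c then 1 else betaE br g c d e ^ (sub [c, e, d] w + sub [e, c, d] w)) *
      (if d = x then Dl br g c w x else 1) := by
    intro d
    by_cases hd : d = c
    · have hdx : d ≠ x := fun h => hx (h.symm.trans hd)
      rw [if_pos hd, if_pos hd, if_neg hdx, mul_one]
    · rw [if_neg hd, if_neg hd]
      by_cases hdx : d = x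
      · subst hdx
        rw [if_pos rfl, sub2_snoc, sub3_snoc, if_pos rfl, if_pos rfl, sub1_eq, sub2_eq]
        unfold Dl
        have inner : (∏ e, if e = c then (1 : A) else
            betaE br g c d e ^ (sub [c, e, d] (w ++ [d]) + sub [e, c, d] (w ++ [d]))) =
            (∏ e, if e = c then (1 : A) else
              betaE br g c d e ^ (sub [c, e, d] w + sub [e, c, d] w)) *
            ∏ e, if e = c then (1 : A) else betaE br g c d e ^ (w.count c * w.count e) := by
          rw [← Finset.prod_mul_distrib]
          refine Finset.prod_congr rfl (fun e _ => ?_)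
          by_cases he : e = c
          · rw [if_pos he, if_pos he, if_pos he, mul_one]
          · rw [if_neg he, if_neg he, if_neg he, sub3_snoc, sub3_snoc, if_pos rfl, if_pos rfl,
              ← pow_add]
            have hs := sub2_symm (fun h => he h.symm : c ≠ e) w
            congr 1
            omega
        rw [inner, pow_add, pow_add]
        simp only [mul_comm, mul_left_comm, mul_assoc]
      · have hxd : x ≠ d := fun h => hdx h.symm
        rw [if_neg hdx, mul_one, sub2_snoc, sub3_snoc, if_neg hxd, if_neg hxd, add_zero, add_zero]
        have inner : (∏ e, if e = c then (1 : A) else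
            betaE br g c d e ^ (sub [c, e, d] (w ++ [x]) + sub [e, c, d] (w ++ [x]))) =
            ∏ e, if e = c then (1 : A) else
              betaE br g c d e ^ (sub [c, e, d] w + sub [e, c, d] w) := by
          refine Finset.prod_congr rfl (fun e _ => ?_)
          rw [sub3_snoc, sub3_snoc, if_neg hxd, if_neg hxd, add_zero, add_zero]
        rw [inner]
  rw [Finset.prod_congr rfl (fun d _ => key d), Finset.prod_mul_distrib,
    Finset.prod_ite_eq' Finset.univ x (fun _ => Dl br g c w x)]
  simp

include hι hbr in
theorem coe_Dl (h : C3 G) (g : α → G) (c : α) (w : List α) (x : α) :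
    ι (Dl br g c w x) =
      (w.map (Function.update g c 1)).prod * ⁅g c ^ w.count c, g x⁆ *
        ((w.map (Function.update g c 1)).prod)⁻¹ := by
  have ht : ⁅g c, g x⁆ ∈ _root_.commutator G := cm _ _
  rw [conj_bracket_pow h]
  unfold Dl
  rw [map_mul, map_mul, map_pow, map_pow]
  unfold tauE zetaE
  rw [map_inv, hbr, hbr]
  congr 1
  have e1 : (⁅⁅g c, g x⁆, (w.map (Function.update g c 1)).prod⁆ ^ w.count c)⁻¹ =
      ι ((br ⁅g c, g x⁆ (w.map (Function.update g c 1)).prod ^ w.count c)⁻¹) := by
    rw [map_inv, map_pow, hbr]
  rw [e1]
  congr 1
  rw [br_prod ι hι br hbr h ht, ← Finset.prod_pow, ← Finset.prod_inv_distrib]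
  refine Finset.prod_congr rfl (fun e _ => ?_)
  by_cases he : e = c
  · subst he
    rw [if_pos rfl, Function.update_self, br_one ι hι br hbr]
    simp
  · rw [if_neg he, Function.update_of_ne he]
    unfold betaE
    rw [← pow_mul, inv_pow, mul_comm]

include hι hbr in
/-- Collection with respect to one letter `c`: the product of `w` under `g` is the collected
part times the product with the letter `c` erased times a power of `g c`. -/
theorem prod_decomp (h : C3 G) (g : α → G) (c : α) (w : List α) :
    (w.map g).prod =
      ι (Fc br g c w) * (w.map (Function.update g c 1)).prod * g c ^ w.count c := by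
  induction w using List.reverseRecOn with
  | nil => simp [Fc_nil]
  | append_singleton w x ih =>
    rw [List.map_append, List.prod_append, List.map_singleton, List.prod_singleton, ih,
      List.map_append, List.prod_append, List.map_singleton, List.prod_singleton]
    by_cases hx : x = c
    · subst hx
      rw [Fc_snoc_same, Function.update_self, mul_one, List.count_append, List.count_singleton,
        beq_self_eq_true, if_pos rfl, pow_succ, mul_assoc]
    · rw [Fc_snoc_ne br g c w x hx, map_mul, coe_Dl ι hι br hbr h, Function.update_of_ne hx,
        List.count_append, List.count_singleton]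
      have hcx : (x == c) = false := by simpa using hx
      rw [hcx]
      simp only [Bool.false_eq_true, if_false, add_zero, commutatorElement_def]
      group

theorem Fc_congr (g : α → G) (c : α) (N : ℕ) (hN : ∀ a : A, a ^ N = 1) (w w' : List α)
    (hw : ∀ u : List α, u.length ≤ 3 → sub u w ≡ sub u w' [MOD N]) :
    Fc br g c w = Fc br g c w' := by
  unfold Fc
  refine Finset.prod_congr rfl (fun d _ => ?_)
  by_cases hd : d = c
  · rw [if_pos hd, if_pos hd]
  · rw [if_neg hd, if_neg hd, pow_congr_mod _ (hN _) (hw [c, d] (by simp)),
      pow_congr_mod _ (hN _) (hw [c, c, d] (by simp))]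
    congr 1
    refine Finset.prod_congr rfl (fun e _ => ?_)
    by_cases he : e = c
    · rw [if_pos he, if_pos he]
    · rw [if_neg he, if_neg he]
      exact pow_congr_mod _ (hN _) ((hw [c, e, d] (by simp)).add (hw [e, c, d] (by simp)))

include hι hbr in
/-- In a finite group of class at most three the product of a word depends only on the numbers
of occurrences, modulo the order of the group, of the scattered subwords of length at most
three. -/
theorem prod_invariant (h : C3 G) [Finite G] (g : α → G) (w w' : List α)
    (hw : ∀ u : List α, u.length ≤ 3 → sub u w ≡ sub u w' [MOD Nat.card G]) :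
    (w.map g).prod = (w'.map g).prod := by
  have hN : ∀ a : A, a ^ Nat.card G = 1 := by
    intro a
    apply hι
    rw [map_pow, map_one]
    exact pow_card_eq_one'
  have key : ∀ S : Finset α, (w.map (fun a => if a ∈ S then g a else 1)).prod =
      (w'.map (fun a => if a ∈ S then g a else 1)).prod := by
    intro S
    induction S using Finset.induction_on with
    | empty => simp
    | insert c S hc ih =>
      have hu : Function.update (fun a => if a ∈ insert c S then g a else 1) c 1 =
          fun a => if a ∈ S then g a else 1 := by
        funext a
        by_cases hac : a = c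
        · subst hac
          rw [Function.update_self, if_neg hc]
        · rw [Function.update_of_ne hac]
          simp [Finset.mem_insert, hac]
      rw [prod_decomp ι hι br hbr h _ c w, prod_decomp ι hι br hbr h _ c w', hu, ih,
        Fc_congr br _ c (Nat.card G) hN w w' hw]
      congr 1
      have hc1 := hw [c] (by simp)
      rw [sub1_eq, sub1_eq] at hc1
      exact pow_congr_mod _ pow_card_eq_one' hc1
  have := key Finset.univ
  simpa using this

end formula

end Vale.Agent.Lib.P329

namespace Vale.Agent.Lib.P329

open scoped commutatorElement

/-- The commutative group structure on the commutator subgroup of a group of class at most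
three. -/
@[reducible] noncomputable def cgA {G : Type} [Group G] (h : C3 G) :
    CommGroup (_root_.commutator G) :=
  { (inferInstance : Group (_root_.commutator G)) with
    mul_comm := fun a b => Subtype.ext (h.comm a a.2 b b.2) }

/-- In a finite nilpotent group of class at most three, the value of the product of a word
depends only on the numbers of occurrences, modulo the order of the group, of the scattered
subwords of length at most three. -/
theorem nil3_prod_invariant {G : Type} [Group G] [Finite G] [Group.IsNilpotent G]
    (hG : Group.nilpotencyClass G ≤ 3) {α : Type} [DecidableEq α] [Fintype α]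
    (g : α → G) (w w' : List α)
    (hw : ∀ u : List α, u.length ≤ 3 → sub u w ≡ sub u w' [MOD Nat.card G]) :
    (w.map g).prod = (w'.map g).prod := by
  have h3 : C3 G := c3_of_lcs (Subgroup.lowerCentralSeries_eq_bot_iff_nilpotencyClass_le.mpr hG)
  let _ := cgA h3
  exact prod_invariant (A := _root_.commutator G) (_root_.commutator G).subtype
    Subtype.val_injective (fun t y => ⟨⁅t, y⁆, cm t y⟩) (fun _ _ => rfl) h3 g w w' hw

/-- Every language recognized by a finite nilpotent group of class at most three has
generalized star height at most one. -/
theorem gsh_nil3 {G : Type} [Group G] [Finite G] [Group.IsNilpotent G]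
    (hG : Group.nilpotencyClass G ≤ 3) {α : Type} [DecidableEq α] [Fintype α]
    (g : α → G) (P : Set G) :
    ∃ e : GRegex α, e.starHeight ≤ 1 ∧ e.lang = {w : List α | (w.map g).prod ∈ P} := by
  refine gsh_of_saturated' (Nat.card G) Nat.card_pos _ (fun w w' hw => ?_)
  have := nil3_prod_invariant hG g w w' hw
  show (w.map g).prod ∈ P ↔ (w'.map g).prod ∈ P
  rw [this]

end Vale.Agent.Lib.P329
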