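import Vale.Agent.Lib.P329.Descent
import Vale.Agent.Lib.P329.AbByPrime

namespace Vale.Agent.Lib.P329

open Classical

variable {α : Type}

/-- The weighted zone sum of an indicator function is a positional count. -/
theorem ws_ind_eq (S : Finset α) (b : α) (M s : ℕ) (w : List α) :
    ws S b (ind M s) 0 w = cntP (fun v a => a = b ∧ sc S v % M = s) w := by
  induction w using List.reverseRecOn with
  | nil => rfl
  | append_singleton w a ih =>
    rw [ws_append, cntP_snoc, ih, Nat.zero_add, ws_cons, ws_nil, Nat.add_zero]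
    congr 1
    by_cases hab : a = b
    · by_cases hs : sc S w % M = s
      · rw [if_pos hab, if_pos ⟨hab, hs⟩]
        unfold ind
        rw [if_pos hs]
      · rw [if_pos hab, if_neg (fun h => hs h.2)]
        unfold ind
        rw [if_neg hs]
    · rw [if_neg hab, if_neg (fun h => hab h.1)]

theorem natCast_eq_iff_mod_val (M : ℕ) [NeZero M] (m : ℕ) (o : ZMod M) :
    ((m : ℕ) : ZMod M) = o ↔ m % M = o.val := by
  constructor
  · intro h
    rw [← h, ZMod.val_natCast]
  · intro h
    rw [← ZMod.natCast_mod, h, ZMod.natCast_zmod_val]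

/-- Positional statistics of an arbitrary letter: counting modulo `n` the occurrences of `x`
preceded by a number of letters of `S` in a given class modulo `M` is good. -/
theorem good_pos [Fintype α] (S : Finset α) (M : ℕ) [NeZero M] (x : α) (o : ZMod M)
    (n : ℕ) [NeZero n] :
    Good (fun w : List α =>
      ((cntP (fun v a => a = x ∧ ((sc S v : ℕ) : ZMod M) = o) w : ℕ) : ZMod n)) := by
  by_cases hx : x ∈ S
  · exact (gg_pos S x hx M o n).congr (fun w => by
      unfold Nf
      exact (Int.cast_natCast _).symm)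
  · have hM : 0 < M := Nat.pos_of_ne_zero (NeZero.ne M)
    refine (good_zone (S := S) (b := x) (M := M) hx hM (ZMod.val_lt o) n).congr (fun w => ?_)
    rw [ws_ind_eq]
    congr 1
    apply cntP_congr
    intro v a
    rw [natCast_eq_iff_mod_val]

/-- Forward cyclic generators: if `A` is a commutative normal subgroup of the finite group `G`
and every generator lies in `A` or in the single coset `t A`, then every language recognized
through these generators has generalized star height at most one. -/
theorem gsh_cyclic_forward (α : Type) [Fintype α] (G : Type) [Group G] [Finite G]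
    (A : Subgroup G) [A.Normal] (hA : ∀ a ∈ A, ∀ b ∈ A, a * b = b * a) (t : G)
    (g : α → G) (hg : ∀ a, g a ∈ A ∨ t⁻¹ * g a ∈ A) (P : Set G) :
    ∃ e : GRegex α, e.starHeight ≤ 1 ∧ e.lang = {w : List α | (w.map g).prod ∈ P} := by
  have instN : NeZero (Nat.card G) := ⟨Nat.card_pos.ne'⟩
  obtain ⟨τ, hτ⟩ : ∃ τ : G ⧸ A, τ = QuotientGroup.mk t := ⟨_, rfl⟩
  obtain ⟨S, hS⟩ : ∃ S : Finset α, S = Finset.univ.filter (fun a => g a ∉ A) := ⟨_, rfl⟩
  have hmemS : ∀ a, a ∈ S ↔ g a ∉ A := by
    intro a
    rw [hS, Finset.mem_filter]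
    exact ⟨fun h => h.2, fun h => ⟨Finset.mem_univ a, h⟩⟩
  have hwt1 : ∀ a, a ∉ S → (QuotientGroup.mk (g a) : G ⧸ A) = 1 := by
    intro a ha
    rw [hmemS, not_not] at ha
    exact (QuotientGroup.eq_one_iff _).mpr ha
  have hwt2 : ∀ a, a ∈ S → (QuotientGroup.mk (g a) : G ⧸ A) = τ := by
    intro a ha
    rw [hmemS] at ha
    rcases hg a with h | h
    · exact absurd h ha
    · rw [hτ]
      exact (QuotientGroup.eq.mpr h).symm
  have hzone : ∀ w : List α,
      zone (fun a => (QuotientGroup.mk (g a) : G ⧸ A)) w = τ ^ sc S w := by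
    intro w
    induction w using List.reverseRecOn with
    | nil => rw [zone_nil, sc_nil, pow_zero]
    | append_singleton w a ih =>
      rw [zone_snoc, ih, sc_append]
      by_cases ha : a ∈ S
      · rw [hwt2 a ha, sc_singleton_mem S ha, pow_succ]
      · rw [hwt1 a ha, sc_singleton_not_mem S ha, mul_one, Nat.add_zero]
  obtain ⟨M, hMdef⟩ : ∃ M, M = orderOf τ := ⟨_, rfl⟩
  have hMpos : 0 < M := by
    rw [hMdef]
    exact orderOf_pos τ
  have instM : NeZero M := ⟨hMpos.ne'⟩
  have hpow : ∀ m k : ℕ, τ ^ m = τ ^ k ↔ ((m : ℕ) : ZMod M) = ((k : ℕ) : ZMod M) := by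
    intro m k
    rw [pow_eq_pow_iff_modEq, ← hMdef, ZMod.natCast_eq_natCast_iff]
  have hz : Good (zone (fun a => (QuotientGroup.mk (g a) : G ⧸ A))) := by
    refine ((good_sc S M).comp (fun z => τ ^ z.val)).congr (fun w => ?_)
    rw [hzone, ZMod.val_natCast, hMdef, pow_mod_orderOf]
  have hN : ∀ (x : α) (b : G ⧸ A), Good (fun w =>
      ((cntP (fun v a => a = x ∧ zone (fun a => (QuotientGroup.mk (g a) : G ⧸ A)) v = b) w : ℕ) :
        ZMod (Nat.card G))) := by
    intro x b
    by_cases hb : ∃ r : ℕ, τ ^ r = b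
    · obtain ⟨r, rfl⟩ := hb
      refine (good_pos S M x ((r : ℕ) : ZMod M) (Nat.card G)).congr (fun w => ?_)
      congr 1
      apply cntP_congr
      intro v a
      rw [hzone, hpow]
    · refine (Good.const (0 : ZMod (Nat.card G))).congr (fun w => ?_)
      rw [cntP_false, Nat.cast_zero]
      rintro v a ⟨_, h2⟩
      exact hb ⟨sc S v, by rw [← hzone]; exact h2⟩
  exact gsh_of_walk A hA g hz hN P

end Vale.Agent.Lib.P329
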