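import Vale.Agent.Lib.P329.Subst

namespace Vale.Agent.Lib.P329

variable {Q α : Type}

/-- The state reached from `q` by reading the word `w` with the transition function `δ`. -/
def run (δ : Q → α → Q) (q : Q) (w : List α) : Q := w.foldl δ q

theorem run_nil (δ : Q → α → Q) (q : Q) : run δ q [] = q := rfl

theorem run_cons (δ : Q → α → Q) (q : Q) (a : α) (w : List α) :
    run δ q (a :: w) = run δ (δ q a) w := rfl

theorem run_singleton (δ : Q → α → Q) (q : Q) (a : α) : run δ q [a] = δ q a := rfl

theorem run_append (δ : Q → α → Q) (q : Q) (u v : List α) :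
    run δ q (u ++ v) = run δ (run δ q u) v := by
  unfold run
  rw [List.foldl_append]

theorem run_snoc (δ : Q → α → Q) (q : Q) (u : List α) (a : α) :
    run δ q (u ++ [a]) = δ (run δ q u) a := by
  rw [run_append, run_singleton]

/-- The `m`-th power of the word `u`. -/
def pw (u : List α) (m : ℕ) : List α := (List.replicate m u).flatten

theorem pw_zero (u : List α) : pw u 0 = [] := rfl

theorem pw_succ (u : List α) (m : ℕ) : pw u (m + 1) = u ++ pw u m := by
  unfold pw
  rw [List.replicate_succ, List.flatten_cons]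

theorem pw_add (u : List α) (m n : ℕ) : pw u (m + n) = pw u m ++ pw u n := by
  induction m with
  | zero => rw [Nat.zero_add, pw_zero, List.nil_append]
  | succ m ih => rw [Nat.succ_add, pw_succ, pw_succ, ih, List.append_assoc]

theorem pw_one (u : List α) : pw u 1 = u := by
  rw [pw_succ, pw_zero, List.append_nil]

theorem pw_succ' (u : List α) (m : ℕ) : pw u (m + 1) = pw u m ++ u := by
  rw [pw_add, pw_one]

/-- A deterministic automaton is counter-free if no word induces a nontrivial cycle. -/
def CounterFree (δ : Q → α → Q) : Prop :=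
  ∀ (q : Q) (u : List α) (m : ℕ), 0 < m → run δ q (pw u m) = q → run δ q u = q

theorem CounterFree.fix_of_injective [Finite Q] {δ : Q → α → Q} (hcf : CounterFree δ) (c : α)
    (hinj : Function.Injective (fun q => δ q c)) (q : Q) : δ q c = q := by
  have hiter : ∀ (m : ℕ) (q : Q), run δ q (pw [c] m) = (fun q => δ q c)^[m] q := by
    intro m
    induction m with
    | zero => intro q; rfl
    | succ m ih =>
      intro q
      rw [pw_succ, run_append, run_singleton, ih, Function.iterate_succ_apply]
  have hbij : Function.Bijective (fun q => δ q c) :=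
    ⟨hinj, Finite.injective_iff_surjective.mp hinj⟩
  let e : Equiv.Perm Q := Equiv.ofBijective _ hbij
  have h1 : e ^ orderOf e = 1 := pow_orderOf_eq_one e
  have h2 : (⇑e)^[orderOf e] q = q := by
    rw [← Equiv.Perm.coe_pow, h1]
    rfl
  have h3 : run δ q (pw [c] (orderOf e)) = q := by
    rw [hiter]
    exact h2
  exact hcf q [c] (orderOf e) (orderOf_pos e) h3

theorem append_cons_inj_first {c : α} : ∀ (x₁ x₂ z₁ z₂ : List α), c ∉ x₁ → c ∉ x₂ →
    x₁ ++ c :: z₁ = x₂ ++ c :: z₂ → x₁ = x₂ ∧ z₁ = z₂ := by
  intro x₁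
  induction x₁ with
  | nil =>
    intro x₂ z₁ z₂ _ h2 h
    cases x₂ with
    | nil =>
      simp only [List.nil_append, List.cons.injEq, true_and] at h
      exact ⟨rfl, h⟩
    | cons b x₂ =>
      simp only [List.nil_append, List.cons_append, List.cons.injEq] at h
      exact absurd (by rw [h.1]; exact List.mem_cons_self) h2
  | cons a x₁ ih =>
    intro x₂ z₁ z₂ h1 h2 h
    cases x₂ with
    | nil =>
      simp only [List.nil_append, List.cons_append, List.cons.injEq] at h
      exact absurd (by rw [h.1]; exact List.mem_cons_self) h1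
    | cons b x₂ =>
      simp only [List.cons_append, List.cons.injEq] at h
      obtain ⟨h3, h4⟩ := ih x₂ z₁ z₂ (fun hc => h1 (List.mem_cons_of_mem _ hc))
        (fun hc => h2 (List.mem_cons_of_mem _ hc)) h.2
      exact ⟨by rw [h.1, h3], h4⟩

section Step

variable (δ : Q → α → Q) (c : α) (S' : Finset α)

/-- The image of the letter `c`. -/
abbrev Qc : Type := {q : Q // ∃ p, δ p c = q}

/-- The map on the image of `c` induced by the word `u` followed by the letter `c`. -/
def bmap (u : List α) (p : Qc δ c) : Qc δ c := ⟨δ (run δ p.val u) c, ⟨_, rfl⟩⟩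

/-- The maps on the image of `c` realised by the words over `S'` followed by `c`. -/
abbrev BT : Type :=
  {τ : Qc δ c → Qc δ c // ∃ u : List α, (∀ a ∈ u, a ∈ S') ∧ bmap δ c u = τ}

/-- The automaton on the image of `c` whose letters are the realised maps. -/
def δT (p : Qc δ c) (τ : BT δ c S') : Qc δ c := τ.val p

/-- The language of the words `u ++ [c]`, with `u` over `S'`, realising the map `τ`. -/
def σT (τ : BT δ c S') : Language α :=
  langOf (fun w => ∃ u : List α, (∀ a ∈ u, a ∈ S') ∧ bmap δ c u = τ.val ∧ w = u ++ [c])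

theorem sprod_run (V : List (BT δ c S')) : ∀ (w : List α), w ∈ sprod (σT δ c S') V →
    ∀ p : Qc δ c, run δ p.val w = (run (δT δ c S') p V).val := by
  induction V with
  | nil =>
    intro w hw p
    rw [sprod_nil, Language.mem_one] at hw
    subst hw
    rfl
  | cons τ V ih =>
    intro w hw p
    rw [sprod_cons] at hw
    obtain ⟨w1, hw1, w2, hw2, rfl⟩ := Language.mem_mul.mp hw
    obtain ⟨u, hu, hb, rfl⟩ := hw1
    rw [run_append, run_snoc, run_cons, ← ih w2 hw2]
    have h : δT δ c S' p τ = bmap δ c u p := by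
      unfold δT
      rw [← hb]
    rw [h]
    rfl

theorem sprod_unamb (hc : c ∉ S') (V : List (BT δ c S')) :
    ∀ (V' : List (BT δ c S')) (w : List α),
    w ∈ sprod (σT δ c S') V → w ∈ sprod (σT δ c S') V' → V = V' := by
  induction V with
  | nil =>
    intro V' w hw hw'
    rw [sprod_nil, Language.mem_one] at hw
    subst hw
    cases V' with
    | nil => rfl
    | cons τ' V' =>
      rw [sprod_cons] at hw'
      obtain ⟨w1, hw1, w2, hw2, h⟩ := Language.mem_mul.mp hw'
      obtain ⟨u, hu, hb, rfl⟩ := hw1
      simp at h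
  | cons τ V ih =>
    intro V' w hw hw'
    rw [sprod_cons] at hw
    obtain ⟨w1, hw1, w2, hw2, rfl⟩ := Language.mem_mul.mp hw
    obtain ⟨u, hu, hb, rfl⟩ := hw1
    cases V' with
    | nil =>
      rw [sprod_nil, Language.mem_one] at hw'
      simp at hw'
    | cons τ' V' =>
      rw [sprod_cons] at hw'
      obtain ⟨w1', hw1', w2', hw2', h⟩ := Language.mem_mul.mp hw'
      obtain ⟨u', hu', hb', rfl⟩ := hw1'
      have hcu : c ∉ u := fun h => hc (hu c h)
      have hcu' : c ∉ u' := fun h => hc (hu' c h)
      have h' : u' ++ c :: w2' = u ++ c :: w2 := by simpa using h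
      obtain ⟨h1, h2⟩ := append_cons_inj_first u' u w2' w2 hcu' hcu h'
      subst h1
      subst h2
      have hτ : τ = τ' := Subtype.ext (hb.symm.trans hb')
      subst hτ
      rw [ih V' w2' hw2 hw2']

theorem decomp (w : List α) (hw : ∀ a ∈ w, a = c ∨ a ∈ S') :
    ∃ (V : List (BT δ c S')) (w0 t : List α), w0 ∈ sprod (σT δ c S') V ∧
      (∀ a ∈ t, a ∈ S') ∧ w = w0 ++ t := by
  induction w using List.reverseRecOn with
  | nil => exact ⟨[], [], [], by rw [sprod_nil]; rfl, by simp, rfl⟩
  | append_singleton w a ih =>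
    obtain ⟨V, w0, t, h0, ht, rfl⟩ := ih (fun b hb => hw b (by simp [hb]))
    by_cases hac : a = c
    · refine ⟨V ++ [⟨bmap δ c t, t, ht, rfl⟩], w0 ++ (t ++ [c]), [], ?_, by simp, by simp [hac]⟩
      rw [sprod_append, sprod_singleton]
      exact Language.append_mem_mul h0 ⟨t, ht, rfl, rfl⟩
    · have haS : a ∈ S' := (hw a (by simp)).resolve_left hac
      refine ⟨V, w0, t ++ [a], h0, ?_, by simp⟩
      intro b hb
      rcases List.mem_append.mp hb with hb | hb
      · exact ht b hb
      · rw [List.mem_singleton] at hb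
        rw [hb]
        exact haS

theorem sprod_shape (V : List (BT δ c S')) : ∀ w, w ∈ sprod (σT δ c S') V →
    (∀ a ∈ w, a = c ∨ a ∈ S') ∧ (w = [] ∨ ∃ w', w = w' ++ [c]) := by
  induction V using List.reverseRecOn with
  | nil =>
    intro w hw
    rw [sprod_nil, Language.mem_one] at hw
    subst hw
    exact ⟨by simp, Or.inl rfl⟩
  | append_singleton V τ ih =>
    intro w hw
    rw [sprod_append, sprod_singleton] at hw
    obtain ⟨w1, hw1, w2, hw2, rfl⟩ := Language.mem_mul.mp hw
    obtain ⟨u, hu, hb, rfl⟩ := hw2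
    refine ⟨?_, Or.inr ⟨w1 ++ u, by simp⟩⟩
    intro a ha
    rcases List.mem_append.mp ha with ha | ha
    · exact (ih w1 hw1).1 a ha
    · rcases List.mem_append.mp ha with ha | ha
      · exact Or.inr (hu a ha)
      · exact Or.inl (List.mem_singleton.mp ha)

theorem subst_top_eq (hc : c ∉ S') : subst (σT δ c S') ⊤ =
    langOf (fun w => ∀ a ∈ w, a = c ∨ a ∈ S') ⊓ (1 + ⊤ * {[c]}) := by
  ext w
  rw [mem_subst, Language.mem_inf, mem_langOf, Language.mem_add, Language.mem_one]
  constructor
  · rintro ⟨V, _, hw⟩
    obtain ⟨h1, h2⟩ := sprod_shape δ c S' V w hw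
    refine ⟨h1, ?_⟩
    rcases h2 with h2 | ⟨w', rfl⟩
    · exact Or.inl h2
    · exact Or.inr (Language.append_mem_mul (mem_top_lang w') rfl)
  · rintro ⟨h1, h2⟩
    obtain ⟨V, w0, t, h0, ht, rfl⟩ := decomp δ c S' w h1
    have ht0 : t = [] := by
      rcases List.eq_nil_or_concat t with ht' | ⟨t', b, rfl⟩
      · exact ht'
      · exfalso
        have hb : b ∈ S' := ht b (by simp)
        rcases h2 with h2 | h2
        · simp at h2
        · obtain ⟨x, _, y, hy, hxy⟩ := Language.mem_mul.mp h2
          rw [mem_singleton_lang] at hy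
          subst hy
          have h3 := congrArg List.getLast? hxy
          simp at h3
          rw [h3] at hc
          exact hc hb
    subst ht0
    exact ⟨V, mem_top_lang V, by simpa using h0⟩

theorem δT_counterFree (hcf : CounterFree δ) : CounterFree (δT δ c S') := by
  classical
  have hrep : ∀ τ : BT δ c S', ∃ x : List α, x ∈ σT δ c S' τ := by
    intro τ
    obtain ⟨u, hu, hb⟩ := τ.property
    exact ⟨u ++ [c], u, hu, hb, rfl⟩
  choose rep hrep using hrep
  have hW : ∀ V : List (BT δ c S'), (V.map rep).flatten ∈ sprod (σT δ c S') V := by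
    intro V
    induction V with
    | nil => rw [sprod_nil]; rfl
    | cons τ V ih =>
      rw [sprod_cons, List.map_cons, List.flatten_cons]
      exact Language.append_mem_mul (hrep τ) ih
  have h1 : ∀ (V : List (BT δ c S')) (m : ℕ),
      ((pw V m).map rep).flatten = pw ((V.map rep).flatten) m := by
    intro V m
    induction m with
    | zero => rfl
    | succ m ih => rw [pw_succ, pw_succ, List.map_append, List.flatten_append, ih]
  intro p V m hm hrun
  have h2 := sprod_run δ c S' (pw V m) _ (hW (pw V m)) p
  rw [hrun, h1] at h2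
  have h3 := hcf p.val _ m hm h2
  have h4 := sprod_run δ c S' V _ (hW V) p
  rw [h3] at h4
  exact (Subtype.ext h4).symm

theorem σT_gsh [Fintype Q] [Fintype α]
    (hinner : ∀ q q', GSH 0 (langOf (fun w => (∀ a ∈ w, a ∈ S') ∧ run δ q w = q')))
    (τ : BT δ c S') : GSH 0 (σT δ c S' τ) := by
  classical
  haveI : Fintype (Qc δ c) := Fintype.ofFinite _
  have hE := GSH.finsetInter (k := 0) (Finset.univ : Finset (Qc δ c))
    (fun p => langOf (fun u : List α =>
      ∃ q1 ∈ (Finset.univ.filter (fun q1 : Q => δ q1 c = (τ.val p).val)),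
        u ∈ langOf (fun w : List α => (∀ a ∈ w, a ∈ S') ∧ run δ p.val w = q1)))
    (fun p _ => GSH.finsetUnion _
      (fun q1 => langOf (fun w : List α => (∀ a ∈ w, a ∈ S') ∧ run δ p.val w = q1))
      (fun q1 _ => hinner p.val q1))
  have hS : GSH 0 (langOf (fun w : List α => ∀ a ∈ w, a ∈ S')) := GSH.lettersStar 0 _
  exact ((hS.inf hE).mul (GSH.letter 0 c)).congr (fun w => by
    constructor
    · rintro ⟨u, hu, hb, rfl⟩
      refine Language.append_mem_mul ⟨hu, ?_⟩ rfl
      intro p _
      refine ⟨run δ p.val u, ?_, hu, rfl⟩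
      rw [Finset.mem_filter]
      refine ⟨Finset.mem_univ _, ?_⟩
      have := congrFun hb p
      exact congrArg Subtype.val this
    · intro hw
      obtain ⟨u, ⟨hu, hE'⟩, y, hy, rfl⟩ := Language.mem_mul.mp hw
      rw [mem_singleton_lang] at hy
      subst hy
      refine ⟨u, hu, ?_, rfl⟩
      funext p
      obtain ⟨q1, hq1, _, hrun⟩ := hE' p (Finset.mem_univ p)
      rw [Finset.mem_filter] at hq1
      apply Subtype.ext
      show δ (run δ p.val u) c = (τ.val p).val
      rw [hrun]
      exact hq1.2)

theorem step [Fintype Q] [Fintype α] (hc : c ∉ S')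
    (hinner : ∀ q q', GSH 0 (langOf (fun w => (∀ a ∈ w, a ∈ S') ∧ run δ q w = q')))
    (houter : ∀ p p' : Qc δ c,
      GSH 0 (langOf (fun V : List (BT δ c S') => run (δT δ c S') p V = p')))
    (q q' : Q) : GSH 0 (langOf (fun w => (∀ a ∈ w, a = c ∨ a ∈ S') ∧ run δ q w = q')) := by
  classical
  haveI : Fintype (Qc δ c) := Fintype.ofFinite _
  have hσ := σT_gsh δ c S' hinner
  have htop : GSH 0 (subst (σT δ c S') ⊤) := by
    rw [subst_top_eq δ c S' hc]
    exact (GSH.lettersStar 0 _).inf ((GSH.one 0).add ((GSH.top 0).mul (GSH.letter 0 c)))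
  have hun := fun v v' w => sprod_unamb δ c S' hc v v' w
  have hsub : ∀ p p', GSH 0 (subst (σT δ c S')
      (langOf (fun V : List (BT δ c S') => run (δT δ c S') p V = p'))) :=
    fun p p' => GSH.subst _ hσ htop hun (houter p p')
  let MB : Q → Q → Language α :=
    fun q q' => langOf (fun w => (∀ a ∈ w, a ∈ S') ∧ run δ q w = q')
  let piece : Q → Qc δ c → Language α := fun q1 p' =>
    MB q q1 * {[c]} * subst (σT δ c S')
      (langOf (fun V : List (BT δ c S') => run (δT δ c S') ⟨δ q1 c, ⟨q1, rfl⟩⟩ V = p'))
      * MB p'.val q'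
  have hpiece : ∀ q1 p', GSH 0 (piece q1 p') := fun q1 p' =>
    (((hinner q q1).mul (GSH.letter 0 c)).mul (hsub _ p')).mul (hinner p'.val q')
  have hU := GSH.finsetUnion (k := 0) (Finset.univ : Finset Q)
    (fun q1 => langOf (fun w => ∃ p' ∈ (Finset.univ : Finset (Qc δ c)), w ∈ piece q1 p'))
    (fun q1 _ => GSH.finsetUnion _ (piece q1) (fun p' _ => hpiece q1 p'))
  refine ((hinner q q').add hU).congr (fun w => ?_)
  rw [Language.mem_add]
  constructor
  · rintro ⟨hwS, hrun⟩
    obtain ⟨V, w0, t, h0, ht, rfl⟩ := decomp δ c S' w hwS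
    cases V with
    | nil =>
      rw [sprod_nil, Language.mem_one] at h0
      subst h0
      exact Or.inl ⟨by simpa using ht, hrun⟩
    | cons τ V =>
      right
      rw [sprod_cons] at h0
      obtain ⟨w1, hw1, w2, hw2, rfl⟩ := Language.mem_mul.mp h0
      obtain ⟨u, hu, hb, rfl⟩ := hw1
      refine ⟨run δ q u, Finset.mem_univ _,
        run (δT δ c S') ⟨δ (run δ q u) c, ⟨_, rfl⟩⟩ V, Finset.mem_univ _, ?_⟩
      refine Language.append_mem_mul (Language.append_mem_mul
        (Language.append_mem_mul ⟨hu, rfl⟩ rfl) ⟨V, rfl, hw2⟩) ⟨ht, ?_⟩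
      rw [← sprod_run δ c S' V w2 hw2]
      rw [← hrun, run_append, run_append, run_snoc]
  · rintro (hw | ⟨q1, _, p', _, hw⟩)
    · exact ⟨fun a ha => Or.inr (hw.1 a ha), hw.2⟩
    · obtain ⟨x, hx, t, ht, rfl⟩ := Language.mem_mul.mp hw
      obtain ⟨y, hy, w2, hw2, rfl⟩ := Language.mem_mul.mp hx
      obtain ⟨u, hu, z, hz, rfl⟩ := Language.mem_mul.mp hy
      rw [mem_singleton_lang] at hz
      subst hz
      obtain ⟨V, hV, hw2'⟩ := hw2
      have hshape := (sprod_shape δ c S' V w2 hw2').1
      have hr := sprod_run δ c S' V w2 hw2' ⟨δ q1 c, ⟨q1, rfl⟩⟩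
      have hV' : run (δT δ c S') ⟨δ q1 c, ⟨q1, rfl⟩⟩ V = p' := hV
      rw [hV'] at hr
      constructor
      · intro a ha
        simp only [List.mem_append, List.mem_singleton] at ha
        rcases ha with ((ha | ha) | ha) | ha
        · exact Or.inr (hu.1 a ha)
        · exact Or.inl ha
        · exact hshape a ha
        · exact Or.inr (ht.1 a ha)
      · rw [run_append, run_append, run_snoc, hu.2]
        have hr' : run δ (δ q1 c) w2 = p'.val := hr
        rw [hr']
        exact ht.2

end Step

/-- Schutzenberger's theorem, automaton form: the languages accepted by a counter-free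
deterministic automaton are star-free. -/
theorem starfree_aux : ∀ (n : ℕ) (Q : Type) [Finite Q], Nat.card Q = n →
    ∀ (α : Type) [Fintype α] (δ : Q → α → Q), CounterFree δ → ∀ (S : Finset α) (q q' : Q),
    GSH 0 (langOf (fun w => (∀ a ∈ w, a ∈ S) ∧ run δ q w = q')) := by
  intro n
  induction n using Nat.strong_induction_on with
  | _ n ihn =>
    intro Q _ hQ α _ δ hcf S
    induction S using Finset.strongInduction with
    | H S ihS =>
      intro q q'
      classical
      haveI : Fintype Q := Fintype.ofFinite Q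
      by_cases hid : ∀ a ∈ S, ∀ q, δ q a = q
      · have hrun : ∀ (w : List α), (∀ a ∈ w, a ∈ S) → ∀ q, run δ q w = q := by
          intro w
          induction w with
          | nil => intro _ q; rfl
          | cons a w ih =>
            intro hw q
            rw [run_cons, hid a (hw a (by simp)) q]
            exact ih (fun b hb => hw b (by simp [hb])) q
        by_cases hqq : q = q'
        · exact (GSH.lettersStar 0 (fun a => a ∈ S)).congr (fun w =>
            ⟨fun h => h.1, fun h => ⟨h, by rw [hrun w h q]; exact hqq⟩⟩)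
        · exact (GSH.zero 0).congr (fun w =>
            ⟨fun h => absurd ((hrun w h.1 q).symm.trans h.2) hqq,
              fun h => absurd h (Language.notMem_zero w)⟩)
      · push Not at hid
        obtain ⟨c, hcS, q0, hq0⟩ := hid
        have hninj : ¬ Function.Injective (fun q => δ q c) :=
          fun hinj => hq0 (hcf.fix_of_injective c hinj q0)
        have hnsurj : ¬ Function.Surjective (fun q => δ q c) :=
          fun hs => hninj (Finite.injective_iff_surjective.mpr hs)
        unfold Function.Surjective at hnsurj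
        push Not at hnsurj
        obtain ⟨qx, hqx⟩ := hnsurj
        have hcard : Nat.card (Qc δ c) < Nat.card Q :=
          Finite.card_subtype_lt (x := qx) (by rintro ⟨p, hp⟩; exact hqx p hp)
        have hinner := ihS (S.erase c) (Finset.erase_ssubset hcS)
        haveI : Fintype (BT δ c (S.erase c)) := Fintype.ofFinite _
        have houter : ∀ p p' : Qc δ c, GSH 0 (langOf (fun V : List (BT δ c (S.erase c)) =>
            run (δT δ c (S.erase c)) p V = p')) := by
          intro p p'
          have h := ihn _ (hQ ▸ hcard) (Qc δ c) rfl (BT δ c (S.erase c)) (δT δ c (S.erase c))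
            (δT_counterFree δ c _ hcf) Finset.univ p p'
          exact h.congr (fun V => ⟨fun h => ⟨fun _ _ => Finset.mem_univ _, h⟩, fun h => h.2⟩)
        have h := step δ c (S.erase c) (Finset.notMem_erase c S) hinner houter q q'
        exact h.congr (fun w => by
          rw [mem_langOf, mem_langOf]
          constructor
          · rintro ⟨h1, h2⟩
            refine ⟨fun a ha => ?_, h2⟩
            by_cases hac : a = c
            · exact Or.inl hac
            · exact Or.inr (Finset.mem_erase.mpr ⟨hac, h1 a ha⟩)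
          · rintro ⟨h1, h2⟩
            refine ⟨fun a ha => ?_, h2⟩
            rcases h1 a ha with h3 | h3
            · rw [h3]; exact hcS
            · exact Finset.mem_of_mem_erase h3)

theorem starfree_of_counterFree {Q α : Type} [Finite Q] [Fintype α] (δ : Q → α → Q)
    (hcf : CounterFree δ) (q q' : Q) : GSH 0 (langOf (fun w => run δ q w = q')) := by
  have h := starfree_aux (Nat.card Q) Q rfl α δ hcf Finset.univ q q'
  exact h.congr (fun w => ⟨fun h => ⟨fun _ _ => Finset.mem_univ _, h⟩, fun h => h.2⟩)

end Vale.Agent.Lib.P329
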