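import Mathlib

namespace Vale.Agent.Lib.P329

/-- Generalized regular expressions over the alphabet `α`: the constants `0`, `1`, the letters,
union, concatenation, complement and Kleene star. -/
inductive GRegex (α : Type) : Type
  | zero : GRegex α
  | one : GRegex α
  | letter : α → GRegex α
  | plus : GRegex α → GRegex α → GRegex α
  | times : GRegex α → GRegex α → GRegex α
  | compl : GRegex α → GRegex α
  | star : GRegex α → GRegex α

/-- The language denoted by a generalized regular expression.  The complement is taken in the
set `List α` of all words over `α`. -/
def GRegex.lang {α : Type} : GRegex α → Language α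
  | GRegex.zero => 0
  | GRegex.one => 1
  | GRegex.letter a => {[a]}
  | GRegex.plus P Q => P.lang + Q.lang
  | GRegex.times P Q => P.lang * Q.lang
  | GRegex.compl P => (P.lang)ᶜ
  | GRegex.star P => KStar.kstar P.lang

/-- The star height of a generalized regular expression. -/
def GRegex.starHeight {α : Type} : GRegex α → ℕ
  | GRegex.zero => 0
  | GRegex.one => 0
  | GRegex.letter _ => 0
  | GRegex.plus P Q => max P.starHeight Q.starHeight
  | GRegex.times P Q => max P.starHeight Q.starHeight
  | GRegex.compl P => P.starHeight
  | GRegex.star P => P.starHeight + 1

end Vale.Agent.Lib.P329
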