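import Vale.Agent.Lib.P329.BlockIdent

namespace Vale.Agent.Lib.P329

open Classical

variable {α : Type}

section operators

variable {M : ℕ}

/-- The difference operator in the direction `d`. -/
def ddl (d : ZMod M) (F : ZMod M → List α → ℤ) : ZMod M → List α → ℤ :=
  fun o w => F o w - F (o + d) w

/-- The composition of the difference operators in the directions listed in `ds`. -/
def DDl : List (ZMod M × ℕ) → (ZMod M → List α → ℤ) → ZMod M → List α → ℤ
  | [], F => F
  | p :: ds, F => DDl ds (ddl p.1 F)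

/-- The sum over the first `p.2` translates in the direction `p.1`. -/
def csum (p : ZMod M × ℕ) (F : ZMod M → List α → ℤ) : ZMod M → List α → ℤ :=
  fun o w => ∑ t ∈ Finset.range p.2, F (o + (t : ZMod M) * p.1) w

/-- Every component of the family, reduced modulo any positive integer, is a good function. -/
def GG (F : ZMod M → List α → ℤ) : Prop :=
  ∀ (o : ZMod M) (n : ℕ) [NeZero n], Good (fun w => ((F o w : ℤ) : ZMod n))

theorem GG.congr {F G : ZMod M → List α → ℤ} (h : GG F) (e : ∀ o w, G o w = F o w) : GG G := by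
  intro o n _
  exact (h o n).congr (fun w => by rw [e])

theorem GG.zero : GG (fun (_ : ZMod M) (_ : List α) => (0 : ℤ)) := by
  intro o n _
  exact (Good.const (0 : ZMod n)).congr (fun w => Int.cast_zero)

theorem GG.add {F G : ZMod M → List α → ℤ} (hF : GG F) (hG : GG G) :
    GG (fun o w => F o w + G o w) := by
  intro o n _
  exact ((hF o n).zadd (hG o n)).congr (fun w => Int.cast_add _ _)

theorem GG.sub {F G : ZMod M → List α → ℤ} (hF : GG F) (hG : GG G) :
    GG (fun o w => F o w - G o w) := by
  intro o n _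
  exact ((hF o n).zsub (hG o n)).congr (fun w => Int.cast_sub _ _)

theorem GG.shift {F : ZMod M → List α → ℤ} (hF : GG F) (d : ZMod M) :
    GG (fun o w => F (o + d) w) := fun o n _ => hF (o + d) n

theorem GG.diff {F : ZMod M → List α → ℤ} (hF : GG F) (d : ZMod M) : GG (ddl d F) :=
  hF.sub (hF.shift d)

theorem GG.diffs : ∀ (ds : List (ZMod M × ℕ)) {F : ZMod M → List α → ℤ}, GG F → GG (DDl ds F)
  | [], _, h => h
  | p :: ds, _, h => GG.diffs ds (h.diff p.1)

theorem GG.rangeSum (c : ℕ) (G : ℕ → ZMod M → List α → ℤ) (h : ∀ t, GG (G t)) :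
    GG (fun o w => ∑ t ∈ Finset.range c, G t o w) := by
  induction c with
  | zero => exact GG.zero.congr (fun o w => Finset.sum_range_zero _)
  | succ c ih => exact (ih.add (h c)).congr (fun o w => Finset.sum_range_succ _ c)

theorem GG.fintypeSum {ι : Type} [Fintype ι] (G : ι → ZMod M → List α → ℤ)
    (h : ∀ i, GG (G i)) : GG (fun o w => ∑ i, G i o w) := by
  intro o n _
  have h1 := (Good.pi (fun i => h i o n)).comp (fun v => ∑ i, v i)
  exact h1.congr (fun w => Int.cast_sum _ _)

theorem ddl_comm (d d' : ZMod M) (F : ZMod M → List α → ℤ) :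
    ddl d (ddl d' F) = ddl d' (ddl d F) := by
  funext o w
  unfold ddl
  rw [add_right_comm o d' d]
  ring

theorem DDl_zero_fn : ∀ (ds : List (ZMod M × ℕ)) (F : ZMod M → List α → ℤ),
    (∀ o w, F o w = 0) → ∀ o w, DDl ds F o w = 0
  | [], _, h => h
  | p :: ds, F, h => DDl_zero_fn ds (ddl p.1 F) (fun o w => by
      unfold ddl
      rw [h, h, sub_zero])

theorem DDl_kill : ∀ (ds : List (ZMod M × ℕ)) (F : ZMod M → List α → ℤ) (p : ZMod M × ℕ),
    p ∈ ds → (∀ o w, ddl p.1 F o w = 0) → ∀ o w, DDl ds F o w = 0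
  | [], _, _, hp, _ => absurd hp List.not_mem_nil
  | q :: ds, F, p, hp, h => by
    rcases List.mem_cons.mp hp with rfl | hp'
    · exact DDl_zero_fn ds _ h
    · apply DDl_kill ds (ddl q.1 F) p hp'
      intro o w
      rw [ddl_comm]
      show ddl p.1 F o w - ddl p.1 F (o + q.1) w = 0
      rw [h, h, sub_zero]

theorem DDl_add : ∀ (ds : List (ZMod M × ℕ)) (F G : ZMod M → List α → ℤ),
    DDl ds (fun o w => F o w + G o w) = fun o w => DDl ds F o w + DDl ds G o w
  | [], _, _ => rfl
  | p :: ds, F, G => by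
    have e : ddl p.1 (fun o w => F o w + G o w) = fun o w => ddl p.1 F o w + ddl p.1 G o w := by
      funext o w
      unfold ddl
      ring
    show DDl ds (ddl p.1 (fun o w => F o w + G o w)) = _
    rw [e, DDl_add ds]
    rfl

theorem DDl_sum {ι : Type} [Fintype ι] : ∀ (ds : List (ZMod M × ℕ))
    (G : ι → ZMod M → List α → ℤ),
    DDl ds (fun o w => ∑ i, G i o w) = fun o w => ∑ i, DDl ds (G i) o w
  | [], _ => rfl
  | p :: ds, G => by
    have e : ddl p.1 (fun o w => ∑ i, G i o w) = fun o w => ∑ i, ddl p.1 (G i) o w := by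
      funext o w
      unfold ddl
      rw [Finset.sum_sub_distrib]
    show DDl ds (ddl p.1 (fun o w => ∑ i, G i o w)) = _
    rw [e, DDl_sum ds]
    rfl

/-- A family is recovered from its difference in a direction and its sums over the translates
in this direction. -/
theorem GG.of_ddl (d : ZMod M) (c : ℕ) (hc : 0 < c) (F : ZMod M → List α → ℤ)
    (h1 : GG (ddl d F)) (h2 : GG (csum (d, c) F)) : GG F := by
  have hdiff : ∀ t : ℕ, GG (fun o w => F o w - F (o + (t : ZMod M) * d) w) := by
    intro t
    induction t with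
    | zero =>
      exact GG.zero.congr (fun o w => by rw [Nat.cast_zero, zero_mul, add_zero, sub_self])
    | succ t ih =>
      refine (ih.add (h1.shift ((t : ZMod M) * d))).congr (fun o w => ?_)
      show F o w - F (o + ((t + 1 : ℕ) : ZMod M) * d) w =
        (F o w - F (o + (t : ZMod M) * d) w) +
          (F (o + (t : ZMod M) * d) w - F (o + (t : ZMod M) * d + d) w)
      rw [show o + ((t + 1 : ℕ) : ZMod M) * d = o + (t : ZMod M) * d + d by
        push_cast
        ring]
      ring
  have hH : GG (fun o w => (c : ℤ) * F o w) := by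
    refine (h2.add (GG.rangeSum c _ hdiff)).congr (fun o w => ?_)
    show (c : ℤ) * F o w = (∑ t ∈ Finset.range c, F (o + (t : ZMod M) * d) w) +
      ∑ t ∈ Finset.range c, (F o w - F (o + (t : ZMod M) * d) w)
    rw [← Finset.sum_add_distrib]
    have e : ∀ t ∈ Finset.range c,
        F (o + (t : ZMod M) * d) w + (F o w - F (o + (t : ZMod M) * d) w) = F o w :=
      fun t _ => by ring
    rw [Finset.sum_congr rfl e, Finset.sum_const, Finset.card_range, nsmul_eq_mul]
  intro o n _
  have hc0 : c ≠ 0 := by omega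
  have inst : NeZero (c * n) := ⟨Nat.mul_ne_zero hc0 (NeZero.ne n)⟩
  refine Good.of_determined (hH o (c * n)) (fun w w' h => ?_)
  rw [ZMod.intCast_eq_intCast_iff_dvd_sub] at h ⊢
  have h3 : ((c : ℤ) * (n : ℤ)) ∣ (c : ℤ) * (F o w' - F o w) := by
    have e : ((c * n : ℕ) : ℤ) = (c : ℤ) * (n : ℤ) := by push_cast; ring
    rw [← e, mul_sub]
    exact h
  exact Int.dvd_of_mul_dvd_mul_left (by exact_mod_cast hc0) h3

theorem csum_ddl (p q : ZMod M × ℕ) (F : ZMod M → List α → ℤ) :
    csum q (ddl p.1 F) = ddl p.1 (csum q F) := by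
  funext o w
  unfold csum ddl
  rw [Finset.sum_sub_distrib]
  congr 1
  apply Finset.sum_congr rfl
  intro t _
  rw [add_right_comm]

/-- Descent along a list of directions. -/
theorem GG.descend : ∀ (ds : List (ZMod M × ℕ)) (F : ZMod M → List α → ℤ),
    (∀ p ∈ ds, 0 < p.2) → (∀ p ∈ ds, GG (csum p F)) → GG (DDl ds F) → GG F
  | [], _, _, _, h => h
  | p :: ds, F, hpos, hcs, h => by
    have h' : GG (ddl p.1 F) := by
      apply GG.descend ds (ddl p.1 F) (fun q hq => hpos q (List.mem_cons_of_mem _ hq))
      · intro q hq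
        rw [csum_ddl]
        exact (hcs q (List.mem_cons_of_mem _ hq)).diff p.1
      · exact h
    exact GG.of_ddl p.1 p.2 (hpos p List.mem_cons_self) F h' (hcs p List.mem_cons_self)

end operators

theorem cntP_sum_range (c : ℕ) (ev : ℕ → List α → α → Prop) (ev' : List α → α → Prop)
    (hex : ∀ v a, ev' v a → ∃ t, t < c ∧ ev t v a ∧ ∀ t', t' < c → ev t' v a → t' = t)
    (hno : ∀ v a, ¬ ev' v a → ∀ t, t < c → ¬ ev t v a) (w : List α) :
    ∑ t ∈ Finset.range c, cntP (ev t) w = cntP ev' w := by
  induction w using List.reverseRecOn with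
  | nil =>
    rw [cntP_nil]
    exact Finset.sum_eq_zero (fun t _ => cntP_nil _)
  | append_singleton w a ih =>
    rw [cntP_snoc, ← ih]
    have e : ∀ t ∈ Finset.range c,
        cntP (ev t) (w ++ [a]) = cntP (ev t) w + (if ev t w a then 1 else 0) :=
      fun t _ => cntP_snoc _ w a
    rw [Finset.sum_congr rfl e, Finset.sum_add_distrib]
    congr 1
    by_cases h : ev' w a
    · obtain ⟨t, ht, h1, h2⟩ := hex w a h
      rw [if_pos h, Finset.sum_eq_single t]
      · rw [if_pos h1]
      · intro t' ht' hne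
        rw [if_neg]
        intro h3
        exact hne (h2 t' (Finset.mem_range.mp ht') h3)
      · intro h3
        exact absurd (Finset.mem_range.mpr ht) h3
    · rw [if_neg h]
      apply Finset.sum_eq_zero
      intro t ht
      rw [if_neg (hno w a h t (Finset.mem_range.mp ht))]

section level

variable (M : ℕ) [NeZero M]

theorem pl_no (d' : ℕ) (hdvd : d' ∣ M) (m t : ℕ) (o : ZMod M)
    (h : ((m : ℕ) : ZMod M) = o + (t : ZMod M) * ((d' : ℕ) : ZMod M)) :
    ((m : ℕ) : ZMod d') = ((o.val : ℕ) : ZMod d') := by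
  have h1 : ((m : ℕ) : ZMod M) = ((o.val + t * d' : ℕ) : ZMod M) := by
    rw [h]
    push_cast
    rw [ZMod.natCast_zmod_val]
  rw [ZMod.natCast_eq_natCast_iff] at h1 ⊢
  have h2 : m ≡ o.val + t * d' [MOD d'] := Nat.ModEq.of_dvd hdvd h1
  refine h2.trans ?_
  show (o.val + t * d') % d' = o.val % d'
  rw [Nat.add_mul_mod_self_right]

theorem pl_ex (d' c : ℕ) (hM : M = c * d') (hd : 0 < d') (m : ℕ) (o : ZMod M)
    (h : ((m : ℕ) : ZMod d') = ((o.val : ℕ) : ZMod d')) :
    ∃ t, t < c ∧ ((m : ℕ) : ZMod M) = o + (t : ZMod M) * ((d' : ℕ) : ZMod M) ∧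
      ∀ t', t' < c → ((m : ℕ) : ZMod M) = o + (t' : ZMod M) * ((d' : ℕ) : ZMod M) → t' = t := by
  have hdvd : d' ∣ M := ⟨c, by rw [hM, Nat.mul_comm]⟩
  obtain ⟨y, hy⟩ : ∃ y : ZMod M, y = ((m : ℕ) : ZMod M) - o := ⟨_, rfl⟩
  have hylt : y.val < M := ZMod.val_lt y
  have h1 : ((y.val + o.val : ℕ) : ZMod M) = ((m : ℕ) : ZMod M) := by
    push_cast
    rw [ZMod.natCast_zmod_val, ZMod.natCast_zmod_val, hy]
    ring
  rw [ZMod.natCast_eq_natCast_iff] at h1 h
  have h2 : y.val + o.val ≡ m [MOD d'] := Nat.ModEq.of_dvd hdvd h1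
  have h3 : y.val + o.val ≡ 0 + o.val [MOD d'] := by
    rw [Nat.zero_add]
    exact h2.trans h
  have h4 : d' ∣ y.val := (Nat.modEq_zero_iff_dvd).mp (Nat.ModEq.add_right_cancel' o.val h3)
  obtain ⟨q, hq⟩ := h4
  have hqc : q < c := by
    have h5 : d' * q < d' * c := by
      rw [← hq, Nat.mul_comm d' c, ← hM]
      exact hylt
    exact Nat.lt_of_mul_lt_mul_left h5
  have hyq : y = (q : ZMod M) * ((d' : ℕ) : ZMod M) := by
    rw [← ZMod.natCast_zmod_val y, hq]
    push_cast
    ring
  refine ⟨q, hqc, ?_, ?_⟩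
  · rw [← hyq, hy]
    ring
  · intro t' ht' h6
    have h7 : ((t' * d' : ℕ) : ZMod M) = ((q * d' : ℕ) : ZMod M) := by
      push_cast
      rw [← hyq, hy, h6]
      ring
    rw [ZMod.natCast_eq_natCast_iff] at h7
    have h8 : t' * d' < M := by
      rw [hM]
      exact Nat.mul_lt_mul_of_pos_right ht' hd
    have h9 : q * d' < M := by
      rw [hM]
      exact Nat.mul_lt_mul_of_pos_right hqc hd
    have h10 : t' * d' = q * d' := by
      have h11 := h7
      unfold Nat.ModEq at h11
      rw [Nat.mod_eq_of_lt h8, Nat.mod_eq_of_lt h9] at h11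
      exact h11
    exact Nat.eq_of_mul_eq_mul_right hd h10

/-- The positional statistics of the letter `x`, as a family of integer-valued functions. -/
noncomputable def Nf (S : Finset α) (x : α) : ZMod M → List α → ℤ :=
  fun o w => ((cntP (fun v a => a = x ∧ ((sc S v : ℕ) : ZMod M) = o) w : ℕ) : ℤ)

/-- Summing the positional statistics over the translates in the direction of a divisor `d'`
of `M` gives the positional statistics with respect to `d'`. -/
theorem level_sum (S : Finset α) (d' c : ℕ) [NeZero d'] (hM : M = c * d') (hd : 0 < d')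
    (x : α) (o : ZMod M) (w : List α) :
    csum (((d' : ℕ) : ZMod M), c) (Nf M S x) o w =
      Nf d' S x ((o.val : ℕ) : ZMod d') w := by
  have hdvd : d' ∣ M := ⟨c, by rw [hM, Nat.mul_comm]⟩
  show ∑ t ∈ Finset.range c, ((cntP (fun v a => a = x ∧
      ((sc S v : ℕ) : ZMod M) = o + (t : ZMod M) * ((d' : ℕ) : ZMod M)) w : ℕ) : ℤ) =
    ((cntP (fun v a => a = x ∧ ((sc S v : ℕ) : ZMod d') = ((o.val : ℕ) : ZMod d')) w : ℕ) : ℤ)
  rw [← Nat.cast_sum]
  congr 1
  apply cntP_sum_range c
    (fun t v a => a = x ∧ ((sc S v : ℕ) : ZMod M) = o + (t : ZMod M) * ((d' : ℕ) : ZMod M))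
  · rintro v a ⟨h1, h2⟩
    obtain ⟨t, ht, h3, h4⟩ := pl_ex M d' c hM hd (sc S v) o h2
    exact ⟨t, ht, ⟨h1, h3⟩, fun t' ht' h5 => h4 t' ht' h5.2⟩
  · intro v a h t _ h5
    exact h ⟨h5.1, pl_no M d' hdvd (sc S v) t o h5.2⟩

theorem period_divisor (β : ZMod M → α) (e : ZMod M) (he : e ≠ 0)
    (hper : ∀ o, β (o + e) = β o) :
    ∃ d' ∈ M.properDivisors, ∀ o, β (o + ((d' : ℕ) : ZMod M)) = β o := by
  have hmul : ∀ (k : ℕ) (o : ZMod M), β (o + (k : ZMod M) * e) = β o := by
    intro k
    induction k with
    | zero =>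
      intro o
      rw [Nat.cast_zero, zero_mul, add_zero]
    | succ k ih =>
      intro o
      rw [show o + ((k + 1 : ℕ) : ZMod M) * e = (o + (k : ZMod M) * e) + e by
        push_cast
        ring, hper, ih]
  have hev : e.val ≠ 0 := fun h => he ((ZMod.val_eq_zero e).mp h)
  have hlt : e.val < M := ZMod.val_lt e
  have hg : Nat.gcd e.val M < M :=
    lt_of_le_of_lt (Nat.gcd_le_left _ (Nat.pos_of_ne_zero hev)) hlt
  obtain ⟨m, _, hm⟩ := Nat.exists_mul_mod_eq_gcd hg
  refine ⟨Nat.gcd e.val M, Nat.mem_properDivisors.mpr ⟨Nat.gcd_dvd_right _ _, hg⟩,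
    fun o => ?_⟩
  have e1 : ((Nat.gcd e.val M : ℕ) : ZMod M) = (m : ZMod M) * e := by
    rw [← hm, ZMod.natCast_mod]
    push_cast
    rw [ZMod.natCast_zmod_val]
    ring
  rw [e1]
  exact hmul m o

end level

/-- The positional statistics of a letter of `S`: for every `M`, counting modulo `n` the
occurrences of `x` preceded by a number of letters of `S` in a given class modulo `M` is
good. -/
theorem gg_pos [Fintype α] (S : Finset α) (x : α) (hx : x ∈ S) :
    ∀ (M : ℕ) [NeZero M], GG (Nf M S x) := by
  intro M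
  induction M using Nat.strong_induction_on with
  | _ M IH =>
    intro instM
    have hMpos : 0 < M := Nat.pos_of_ne_zero (NeZero.ne M)
    obtain ⟨ds, hds⟩ : ∃ ds : List (ZMod M × ℕ), ds =
        M.properDivisors.toList.map (fun d' => (((d' : ℕ) : ZMod M), M / d')) := ⟨_, rfl⟩
    have hmem : ∀ p ∈ ds, ∃ d' ∈ M.properDivisors, p = (((d' : ℕ) : ZMod M), M / d') := by
      intro p hp
      rw [hds, List.mem_map] at hp
      obtain ⟨d', hd', rfl⟩ := hp
      exact ⟨d', Finset.mem_toList.mp hd', rfl⟩
    apply GG.descend ds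
    · intro p hp
      obtain ⟨d', hd', rfl⟩ := hmem p hp
      obtain ⟨hdvd, _⟩ := Nat.mem_properDivisors.mp hd'
      exact Nat.div_pos (Nat.le_of_dvd hMpos hdvd) (Nat.pos_of_dvd_of_pos hdvd hMpos)
    · intro p hp
      obtain ⟨d', hd', rfl⟩ := hmem p hp
      obtain ⟨hdvd, hlt⟩ := Nat.mem_properDivisors.mp hd'
      have hdpos : 0 < d' := Nat.pos_of_dvd_of_pos hdvd hMpos
      have instd : NeZero d' := ⟨by omega⟩
      have hMc : M = (M / d') * d' := (Nat.div_mul_cancel hdvd).symm
      intro o n _
      exact (IH d' hlt ((o.val : ℕ) : ZMod d') n).congr (fun w => by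
        rw [level_sum M S d' (M / d') hMc hdpos x o w])
    · have hdecomp : Nf M S x = fun o w =>
          (∑ β : ZMod M → α, (if β o = x then (mc S M β w : ℤ) else 0)) +
            (if (buf S M w)[o.val]? = some x then 1 else 0) := by
        funext o w
        unfold Nf
        rw [pos_ident S M x hx o w]
        push_cast
        rfl
      rw [hdecomp, DDl_add, DDl_sum]
      apply GG.add
      · apply GG.fintypeSum
        intro β
        by_cases hβ : Prim M β
        · apply GG.diffs
          intro o n _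
          by_cases hox : β o = x
          · exact (good_mc S M β hβ n).congr (fun w => by
              simp only [if_pos hox]
              exact Int.cast_natCast _)
          · exact (Good.const (0 : ZMod n)).congr (fun w => by
              simp only [if_neg hox]
              exact Int.cast_zero)
        · have hβ' : ∃ e : ZMod M, e ≠ 0 ∧ ∀ o, β (o + e) = β o := by
            by_contra hcon
            apply hβ
            intro e he
            by_contra hcon2
            exact hcon ⟨e, he, fun o => by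
              by_contra h3
              exact hcon2 ⟨o, h3⟩⟩
          obtain ⟨e, he, hper⟩ := hβ'
          obtain ⟨d', hd', hper'⟩ := period_divisor M β e he hper
          have hp : (((d' : ℕ) : ZMod M), M / d') ∈ ds := by
            rw [hds]
            exact List.mem_map.mpr ⟨d', Finset.mem_toList.mpr hd', rfl⟩
          have hk := DDl_kill ds (fun o w => if β o = x then (mc S M β w : ℤ) else 0) _ hp
            (fun o w => by
              show (if β o = x then (mc S M β w : ℤ) else 0) -
                (if β (o + ((d' : ℕ) : ZMod M)) = x then (mc S M β w : ℤ) else 0) = 0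
              rw [hper' o, sub_self])
          exact GG.zero.congr hk
      · apply GG.diffs
        intro o n _
        exact (good_tail S M x hx o n).congr (fun w => by
          by_cases h : (buf S M w)[o.val]? = some x
          · simp only [if_pos h]
            exact Int.cast_one
          · simp only [if_neg h]
            exact Int.cast_zero)

end Vale.Agent.Lib.P329
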