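import Vale.Agent.Lib.P329.ElemTwoCyc4
import Vale.Agent.Lib.P329.Class3Formula

namespace Vale.Agent.Lib.P329

open Classical

/-- The product of a list of elements of a subgroup of a product group, read in a coordinate. -/
theorem coord_list_prod {ι : Type} {H : ι → Type} [∀ i, Group (H i)] (K : Subgroup (∀ i, H i))
    (i : ι) (l : List K) :
    ((l.prod : K) : ∀ i, H i) i = (l.map (fun y : K => (y : ∀ i, H i) i)).prod := by
  induction l with
  | nil => rfl
  | cons y l ih =>
    rw [List.prod_cons, List.map_cons, List.prod_cons, ← ih]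
    rfl

/-- Divisors of finite direct products: if the group `G` is a homomorphic image of a subgroup
`K` of a finite direct product of finite groups `H i`, each of which is nilpotent of class at
most three, or abelian-by-(elementary abelian), or has a normal elementary abelian 2-subgroup
of index dividing four, then every language recognized by `G` has generalized star height at
most one. -/
theorem gsh_divisor (α : Type) [Fintype α] (G : Type) [Group G]
    (ι : Type) [Fintype ι] (H : ι → Type) [∀ i, Group (H i)] [∀ i, Finite (H i)]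
    (hH : ∀ i,
      (∃ _ : Group.IsNilpotent (H i), Group.nilpotencyClass (H i) ≤ 3) ∨
      (∃ (p : ℕ) (A : Subgroup (H i)), p.Prime ∧ A.Normal ∧ (∀ a ∈ A, ∀ b ∈ A, a * b = b * a) ∧
        (∀ x y : H i, x * y * x⁻¹ * y⁻¹ ∈ A) ∧ (∀ x : H i, x ^ p ∈ A)) ∨
      (∃ A : Subgroup (H i), A.Normal ∧ (∀ a ∈ A, a * a = 1) ∧ A.index ∣ 4))
    (K : Subgroup (∀ i, H i)) (f : K →* G) (hf : Function.Surjective f)
    (g : α → G) (P : Set G) :
    ∃ e : GRegex α, e.starHeight ≤ 1 ∧ e.lang = {w : List α | (w.map g).prod ∈ P} := by
  have instH : ∀ i, Fintype (H i) := fun i => Fintype.ofFinite (H i)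
  choose k hk using fun a => hf (g a)
  have hcomp : ∀ i, Good (fun w : List α => (w.map (fun a => (k a : ∀ i, H i) i)).prod) := by
    intro i v
    rcases hH i with ⟨hn, hc⟩ | ⟨p, A, hp, hAn, hA, hcomm, hexp⟩ | ⟨A, hAn, hA2, hidx⟩
    · exact gsh_nil3 hc (fun a => (k a : ∀ i, H i) i) {v}
    · exact gsh_abelian_by_elementary α (H i) A hA p hp hcomm hexp
        (fun a => (k a : ∀ i, H i) i) {v}
    · exact gsh_elem2_index4 α (H i) A hA2 hidx (fun a => (k a : ∀ i, H i) i) {v}
  have hΨ : Good (fun w : List α => fun i => (w.map (fun a => (k a : ∀ i, H i) i)).prod) :=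
    Good.pi hcomp
  have hkey : ∀ w : List α, (w.map g).prod = f (w.map k).prod := by
    intro w
    rw [map_list_prod, List.map_map]
    congr 1
    apply List.map_congr_left
    intro a _
    exact (hk a).symm
  have hdet : Good (fun w : List α => decide ((w.map g).prod ∈ P)) := by
    refine Good.of_determined hΨ (fun w w' hww => ?_)
    have e : (w.map k).prod = (w'.map k).prod := by
      apply Subtype.ext
      funext i
      rw [coord_list_prod, coord_list_prod, List.map_map, List.map_map]
      exact congrFun hww i
    rw [hkey w, hkey w', e]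
  obtain ⟨e, he1, he2⟩ := hdet true
  refine ⟨e, he1, ?_⟩
  rw [he2]
  ext w
  show decide ((w.map g).prod ∈ P) = true ↔ (w.map g).prod ∈ P
  exact decide_eq_true_iff
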