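import Vale.Agent.Lib.P329.CyclicFwd
import Vale.Agent.Lib.P329.AbByElem

namespace Vale.Agent.Lib.P329

open Classical

variable {α : Type}

/-- A linear identity between four positional counts follows from the pointwise identity. -/
theorem cntP_lin2 (e1 e2 e3 e4 : List α → α → Prop)
    (h : ∀ v a, (if e1 v a then 1 else 0) + 2 * (if e2 v a then 1 else 0) =
      (if e3 v a then 1 else 0) + (if e4 v a then 1 else 0 : ℕ)) (w : List α) :
    cntP e1 w + 2 * cntP e2 w = cntP e3 w + cntP e4 w := by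
  induction w using List.reverseRecOn with
  | nil => simp [cntP_nil]
  | append_singleton w a ih =>
    rw [cntP_snoc, cntP_snoc, cntP_snoc, cntP_snoc]
    have := h w a
    omega

section walkexp

variable [Fintype α]

/-- In a finite group with a commutative normal subgroup `A` of exponent dividing `N`, the
product of a word is determined by its zone in the quotient and by the numbers, modulo `N`,
of occurrences of each letter in each zone. -/
theorem prod_determined_exp {G : Type} [Group G] [Finite G] (A : Subgroup G) [A.Normal]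
    (hA : ∀ a ∈ A, ∀ b ∈ A, a * b = b * a) (N : ℕ) (hN : ∀ a ∈ A, a ^ N = 1)
    (g : α → G) (w w' : List α)
    (hz : zone (fun a => (QuotientGroup.mk (g a) : G ⧸ A)) w =
      zone (fun a => (QuotientGroup.mk (g a) : G ⧸ A)) w')
    (hcnt : ∀ (x : α) (b : G ⧸ A),
      cntP (fun v a => a = x ∧ zone (fun a => (QuotientGroup.mk (g a) : G ⧸ A)) v = b) w ≡
      cntP (fun v a => a = x ∧ zone (fun a => (QuotientGroup.mk (g a) : G ⧸ A)) v = b) w'
        [MOD N]) :
    (w.map g).prod = (w'.map g).prod := by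
  have instB : Fintype (G ⧸ A) := Fintype.ofFinite _
  let cg : CommGroup A :=
    { (inferInstance : Group A) with
      mul_comm := fun a b => Subtype.ext (hA a a.2 b b.2) }
  have hmem : ∀ (b : G ⧸ A) (x : α),
      Quotient.out b * g x * (Quotient.out (b * (QuotientGroup.mk (g x) : G ⧸ A)))⁻¹ ∈ A := by
    intro b x
    rw [← QuotientGroup.eq_one_iff, QuotientGroup.mk_mul, QuotientGroup.mk_mul,
      QuotientGroup.mk_inv, QuotientGroup.out_eq', QuotientGroup.out_eq', mul_inv_cancel]
  exact wreath_invariant (A' := A) (B := G ⧸ A) A.subtype (fun b : G ⧸ A => Quotient.out b)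
    (fun a => (QuotientGroup.mk (g a) : G ⧸ A))
    (fun p : (G ⧸ A) × α => ⟨_, hmem p.1 p.2⟩) g
    (fun (b : G ⧸ A) (x : α) => by
      show Quotient.out b * g x * (Quotient.out (b * (QuotientGroup.mk (g x) : G ⧸ A)))⁻¹ *
        Quotient.out (b * (QuotientGroup.mk (g x) : G ⧸ A)) = Quotient.out b * g x
      rw [inv_mul_cancel_right])
    N (fun a => Subtype.ext (hN a.1 a.2)) w w' hz hcnt

/-- If the zone function and the (zone, letter) statistics modulo an exponent `N` of the
commutative normal subgroup are good, then every language recognized through `g` has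
generalized star height at most one. -/
theorem gsh_of_walk_exp {G : Type} [Group G] [Finite G] (A : Subgroup G) [A.Normal]
    (hA : ∀ a ∈ A, ∀ b ∈ A, a * b = b * a) (N : ℕ) [NeZero N] (hN : ∀ a ∈ A, a ^ N = 1)
    (g : α → G)
    (hz : Good (zone (fun a => (QuotientGroup.mk (g a) : G ⧸ A))))
    (hcnt : ∀ (x : α) (b : G ⧸ A), Good (fun w =>
      ((cntP (fun v a => a = x ∧ zone (fun a => (QuotientGroup.mk (g a) : G ⧸ A)) v = b) w : ℕ) :
        ZMod N)))
    (P : Set G) : GSH 1 (langOf (fun w => (w.map g).prod ∈ P)) := by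
  have instB : Fintype (G ⧸ A) := Fintype.ofFinite _
  have instG : Fintype G := Fintype.ofFinite _
  have hΨ : Good (fun w => (zone (fun a => (QuotientGroup.mk (g a) : G ⧸ A)) w,
      fun p : α × (G ⧸ A) =>
        ((cntP (fun v a => a = p.1 ∧ zone (fun a => (QuotientGroup.mk (g a) : G ⧸ A)) v = p.2) w :
          ℕ) : ZMod N))) :=
    hz.prod (Good.pi (fun p => hcnt p.1 p.2))
  have hprod : Good (fun w : List α => (w.map g).prod) :=
    Good.of_determined hΨ (fun w w' h => prod_determined_exp A hA N hN g w w'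
      (congrArg Prod.fst h)
      (fun x b => (ZMod.natCast_eq_natCast_iff _ _ _).mp
        (congrFun (congrArg Prod.snd h) (x, b))))
  have h := (hprod.comp (fun y => decide (y ∈ P))) true
  exact h.congr (fun w => by rw [mem_langOf, mem_langOf, decide_eq_true_eq])

end walkexp

section cyc4

variable [Fintype α]

/-- Joint parity statistics: counting modulo `2` the occurrences of `x` preceded by a number
of letters of `S1` of parity `j` and an odd number of letters of `S2` is good, provided `S3`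
is a set whose counting function is congruent modulo `2` to the sum of those of `S1`, `S2`. -/
theorem good_joint_parity (S1 S2 S3 : Finset α)
    (hpar : ∀ v : List α, (sc S3 v + sc S1 v + sc S2 v) % 2 = 0) (x : α) (j : ℕ) :
    Good (fun w : List α =>
      ((cntP (fun v a => a = x ∧ sc S1 v % 2 = j % 2 ∧ sc S2 v % 2 = 1) w : ℕ) : ZMod 2)) := by
  have gX := good_pos S1 2 x ((j : ℕ) : ZMod 2) 4
  have gY := good_pos S2 2 x ((1 : ℕ) : ZMod 2) 4
  have gZ := good_pos S3 2 x ((j : ℕ) : ZMod 2) 4
  have ident : ∀ w : List α,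
      cntP (fun v a => a = x ∧ ((sc S3 v : ℕ) : ZMod 2) = ((j : ℕ) : ZMod 2)) w +
        2 * cntP (fun v a => a = x ∧ sc S1 v % 2 = j % 2 ∧ sc S2 v % 2 = 1) w =
      cntP (fun v a => a = x ∧ ((sc S1 v : ℕ) : ZMod 2) = ((j : ℕ) : ZMod 2)) w +
        cntP (fun v a => a = x ∧ ((sc S2 v : ℕ) : ZMod 2) = ((1 : ℕ) : ZMod 2)) w := by
    intro w
    apply cntP_lin2
    intro v a
    have hp := hpar v
    simp only [ZMod.natCast_eq_natCast_iff']
    by_cases hax : a = x
    · simp only [hax, true_and]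
      split_ifs <;> omega
    · simp only [hax, false_and, if_false]
  refine Good.of_determined (gX.prod (gY.prod gZ)) (fun w w' h => ?_)
  have h1 := (ZMod.natCast_eq_natCast_iff' _ _ _).mp (congrArg Prod.fst h)
  have h2 := (ZMod.natCast_eq_natCast_iff' _ _ _).mp (congrArg Prod.fst (congrArg Prod.snd h))
  have h3 := (ZMod.natCast_eq_natCast_iff' _ _ _).mp (congrArg Prod.snd (congrArg Prod.snd h))
  have i1 := ident w
  have i2 := ident w'
  rw [ZMod.natCast_eq_natCast_iff']
  omega

/-- Walks on a cyclic group of order dividing four, counted modulo two: if the zone of a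
prefix `v` is `τ ^ (sc S1 v + 2 * sc S2 v)` with `τ ^ 4 = 1`, then counting modulo `2` the
occurrences of `x` read in a given zone is good. -/
theorem good_N_cyc4 {B : Type} [Group B] (τ : B) (hτ4 : τ ^ 4 = 1) (wt : α → B)
    (S1 S2 S3 : Finset α)
    (hpar : ∀ v : List α, (sc S3 v + sc S1 v + sc S2 v) % 2 = 0)
    (hzone : ∀ v : List α, zone wt v = τ ^ (sc S1 v + 2 * sc S2 v)) (x : α) (b : B) :
    Good (fun w : List α =>
      ((cntP (fun v a => a = x ∧ zone wt v = b) w : ℕ) : ZMod 2)) := by
  -- the statistics for a fixed residue of the exponent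
  have gT : ∀ j : Fin 4, Good (fun w : List α =>
      ((cntP (fun v a => a = x ∧ (sc S1 v + 2 * sc S2 v) % 4 = j.val) w : ℕ) : ZMod 2)) := by
    intro j
    have gF := good_pos S1 4 x ((j.val : ℕ) : ZMod 4) 2
    have gE := good_joint_parity S1 S2 S3 hpar x j.val
    have ident : ∀ w : List α,
        cntP (fun v a => a = x ∧ (sc S1 v + 2 * sc S2 v) % 4 = j.val) w +
          2 * cntP (fun v a => a = x ∧ sc S1 v % 4 = j.val ∧ sc S2 v % 2 = 1) w =
        cntP (fun v a => a = x ∧ ((sc S1 v : ℕ) : ZMod 4) = ((j.val : ℕ) : ZMod 4)) w +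
          cntP (fun v a => a = x ∧ sc S1 v % 2 = j.val % 2 ∧ sc S2 v % 2 = 1) w := by
      intro w
      apply cntP_lin2
      intro v a
      have hj := j.isLt
      simp only [ZMod.natCast_eq_natCast_iff']
      by_cases hax : a = x
      · simp only [hax, true_and]
        split_ifs <;> omega
      · simp only [hax, false_and, if_false]
    refine (gF.zadd gE).congr (fun w => ?_)
    have e := congrArg (Nat.cast : ℕ → ZMod 2) (ident w)
    push_cast at e
    have h2 : (2 : ZMod 2) = 0 := rfl
    rw [h2, zero_mul, add_zero] at e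
    exact e
  refine Good.of_determined (Good.pi gT) (fun w w' h => ?_)
  have hsum : ∀ u : List α, cntP (fun v a => a = x ∧ zone wt v = b) u =
      ∑ j ∈ Finset.range 4, cntP (fun v a => a = x ∧ τ ^ j = b ∧
        (sc S1 v + 2 * sc S2 v) % 4 = j) u := by
    intro u
    symm
    apply cntP_sum_range
    · rintro v a ⟨h1, h2⟩
      refine ⟨(sc S1 v + 2 * sc S2 v) % 4, Nat.mod_lt _ (by norm_num), ⟨h1, ?_, rfl⟩, ?_⟩
      · rw [← pow_eq_pow_mod _ hτ4, ← hzone]
        exact h2
      · rintro t' _ ⟨_, _, h3⟩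
        exact h3.symm
    · rintro v a hno t _ ⟨h1, h2, h3⟩
      apply hno
      refine ⟨h1, ?_⟩
      rw [hzone, pow_eq_pow_mod _ hτ4, h3]
      exact h2
  rw [hsum w, hsum w']
  push_cast
  apply Finset.sum_congr rfl
  intro j hj
  have hj4 : j < 4 := Finset.mem_range.mp hj
  by_cases hb : τ ^ j = b
  · have e : ∀ u : List α, cntP (fun v a => a = x ∧ τ ^ j = b ∧
        (sc S1 v + 2 * sc S2 v) % 4 = j) u =
        cntP (fun v a => a = x ∧ (sc S1 v + 2 * sc S2 v) % 4 = j) u :=
      fun u => cntP_congr (fun v a => ⟨fun h => ⟨h.1, h.2.2⟩, fun h => ⟨h.1, hb, h.2⟩⟩) u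
    rw [e w, e w']
    exact congrFun h ⟨j, hj4⟩
  · have e : ∀ u : List α, cntP (fun v a => a = x ∧ τ ^ j = b ∧
        (sc S1 v + 2 * sc S2 v) % 4 = j) u = 0 :=
      fun u => cntP_false _ (fun v a h => hb h.2.1) u
    rw [e w, e w']

end cyc4

/-- Every language recognized by a finite group having a normal subgroup `A` of exponent two
(so `A` is an elementary abelian 2-group) with `G / A` cyclic of order dividing four has
generalized star height at most one. -/
theorem gsh_elem2_cyc4 (α : Type) [Fintype α] (G : Type) [Group G] [Finite G]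
    (A : Subgroup G) [A.Normal] (hA2 : ∀ a ∈ A, a * a = 1)
    (t : G) (ht : ∀ x : G, ∃ j : ℕ, (t ^ j)⁻¹ * x ∈ A) (ht4 : t ^ 4 ∈ A)
    (g : α → G) (P : Set G) :
    ∃ e : GRegex α, e.starHeight ≤ 1 ∧ e.lang = {w : List α | (w.map g).prod ∈ P} := by
  have hA : ∀ a ∈ A, ∀ b ∈ A, a * b = b * a := by
    intro a ha b hb
    have ha' : a⁻¹ = a := inv_eq_of_mul_eq_one_right (hA2 a ha)
    have hb' : b⁻¹ = b := inv_eq_of_mul_eq_one_right (hA2 b hb)
    have hab : (a * b)⁻¹ = a * b := inv_eq_of_mul_eq_one_right (hA2 (a * b) (A.mul_mem ha hb))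
    calc a * b = (a * b)⁻¹ := hab.symm
      _ = b⁻¹ * a⁻¹ := mul_inv_rev a b
      _ = b * a := by rw [ha', hb']
  have hN : ∀ a ∈ A, a ^ 2 = 1 := fun a ha => by
    rw [pow_two]
    exact hA2 a ha
  obtain ⟨τ, hτ⟩ : ∃ τ : G ⧸ A, τ = QuotientGroup.mk t := ⟨_, rfl⟩
  have hτ4 : τ ^ 4 = 1 := by
    rw [hτ, ← QuotientGroup.mk_pow]
    exact (QuotientGroup.eq_one_iff _).mpr ht4
  have hcyc : ∀ b : G ⧸ A, ∃ j : ℕ, b = τ ^ j := by
    intro b
    induction b using QuotientGroup.induction_on with
    | _ x =>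
      obtain ⟨j, hj⟩ := ht x
      refine ⟨j, ?_⟩
      rw [hτ, ← QuotientGroup.mk_pow]
      exact (QuotientGroup.eq.mpr hj).symm
  have hBcomm : ∀ a b : G ⧸ A, a * b = b * a := by
    intro a b
    obtain ⟨i, rfl⟩ := hcyc a
    obtain ⟨j, rfl⟩ := hcyc b
    rw [← pow_add, ← pow_add, Nat.add_comm]
  have hgen : ∀ a : α, ∃ j : ℕ, j < 4 ∧ (QuotientGroup.mk (g a) : G ⧸ A) = τ ^ j := by
    intro a
    obtain ⟨j, hj⟩ := hcyc (QuotientGroup.mk (g a))
    exact ⟨j % 4, Nat.mod_lt _ (by norm_num), by rw [← pow_eq_pow_mod j hτ4]; exact hj⟩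
  choose ee hee4 hee using hgen
  obtain ⟨S1, hS1⟩ : ∃ S1 : Finset α, ∀ a, a ∈ S1 ↔ (ee a = 1 ∨ ee a = 3) :=
    ⟨Finset.univ.filter (fun a => ee a = 1 ∨ ee a = 3), fun a => by simp⟩
  obtain ⟨S2, hS2⟩ : ∃ S2 : Finset α, ∀ a, a ∈ S2 ↔ (ee a = 2 ∨ ee a = 3) :=
    ⟨Finset.univ.filter (fun a => ee a = 2 ∨ ee a = 3), fun a => by simp⟩
  obtain ⟨S3, hS3⟩ : ∃ S3 : Finset α, ∀ a, a ∈ S3 ↔ (ee a = 1 ∨ ee a = 2) :=
    ⟨Finset.univ.filter (fun a => ee a = 1 ∨ ee a = 2), fun a => by simp⟩
  have hcase : ∀ a : α, ee a = 0 ∨ ee a = 1 ∨ ee a = 2 ∨ ee a = 3 := by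
    intro a
    have := hee4 a
    omega
  have hi1 : ∀ a : α, (if a ∈ S1 then 1 else 0) + 2 * (if a ∈ S2 then 1 else 0) = ee a := by
    intro a
    rcases hcase a with h | h | h | h <;> simp [hS1 a, hS2 a, h]
  have hi3 : ∀ a : α, ((if a ∈ S3 then 1 else 0) + (if a ∈ S1 then 1 else 0) +
      (if a ∈ S2 then 1 else 0)) % 2 = 0 := by
    intro a
    rcases hcase a with h | h | h | h <;> simp [hS1 a, hS2 a, hS3 a, h]
  have hpar : ∀ v : List α, (sc S3 v + sc S1 v + sc S2 v) % 2 = 0 := by
    intro v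
    induction v using List.reverseRecOn with
    | nil => simp
    | append_singleton v a ih =>
      rw [sc_snoc, sc_snoc, sc_snoc]
      have := hi3 a
      omega
  have hzone : ∀ v : List α, zone (fun a => (QuotientGroup.mk (g a) : G ⧸ A)) v =
      τ ^ (sc S1 v + 2 * sc S2 v) := by
    intro v
    induction v using List.reverseRecOn with
    | nil => rw [zone_nil, sc_nil, sc_nil, pow_zero]
    | append_singleton v a ih =>
      rw [zone_snoc, ih, hee a, ← pow_add, sc_snoc, sc_snoc]
      congr 1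
      have := hi1 a
      omega
  exact gsh_of_walk_exp A hA 2 hN g (good_bzone hBcomm _)
    (fun x b => good_N_cyc4 τ hτ4 _ S1 S2 S3 hpar hzone x b) P

/-- Every language recognized by a finite group having a normal subgroup of exponent two
whose index divides four has generalized star height at most one. -/
theorem gsh_elem2_index4 (α : Type) [Fintype α] (G : Type) [Group G] [Finite G]
    (A : Subgroup G) [A.Normal] (hA2 : ∀ a ∈ A, a * a = 1) (hidx : A.index ∣ 4)
    (g : α → G) (P : Set G) :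
    ∃ e : GRegex α, e.starHeight ≤ 1 ∧ e.lang = {w : List α | (w.map g).prod ∈ P} := by
  have hcard : Nat.card (G ⧸ A) ∣ 4 := by
    rw [← Subgroup.index_eq_card]
    exact hidx
  by_cases h4 : ∃ τ : G ⧸ A, orderOf τ = 4
  · obtain ⟨τ, hτ⟩ := h4
    obtain ⟨t, rfl⟩ := QuotientGroup.mk_surjective τ
    have hc4 : Nat.card (G ⧸ A) = 4 := by
      have h1 : orderOf (QuotientGroup.mk t : G ⧸ A) ∣ Nat.card (G ⧸ A) := orderOf_dvd_natCard _
      rw [hτ] at h1
      exact Nat.dvd_antisymm hcard h1
    have htop : Subgroup.zpowers (QuotientGroup.mk t : G ⧸ A) = ⊤ := by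
      apply Subgroup.eq_top_of_card_eq
      rw [Nat.card_zpowers, hτ, hc4]
    refine gsh_elem2_cyc4 α G A hA2 t ?_ ?_ g P
    · intro x
      have hx : (QuotientGroup.mk x : G ⧸ A) ∈
          Subgroup.zpowers (QuotientGroup.mk t : G ⧸ A) := by
        rw [htop]
        trivial
      rw [← mem_powers_iff_mem_zpowers] at hx
      obtain ⟨j, hj⟩ := (Submonoid.mem_powers_iff _ _).mp hx
      refine ⟨j, ?_⟩
      apply QuotientGroup.eq.mp
      rw [QuotientGroup.mk_pow]
      exact hj
    · rw [← QuotientGroup.eq_one_iff, QuotientGroup.mk_pow, ← hτ]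
      exact pow_orderOf_eq_one _
  · have hexp : ∀ b : G ⧸ A, b ^ 2 = 1 := by
      intro b
      have h1 : orderOf b ∣ 4 := (orderOf_dvd_natCard b).trans hcard
      have h2 : orderOf b ≠ 4 := fun h => h4 ⟨b, h⟩
      have h3 : orderOf b ∣ 2 := by
        have h5 : orderOf b ≤ 4 := Nat.le_of_dvd (by norm_num) h1
        have h6 : orderOf b = 1 ∨ orderOf b = 2 := by
          rcases Nat.lt_or_ge (orderOf b) 1 with h | h
          · have h7 : orderOf b = 0 := by omega
            rw [h7] at h1
            exact absurd h1 (by norm_num)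
          · rcases (show orderOf b = 1 ∨ orderOf b = 2 ∨ orderOf b = 3 by omega) with h | h | h
            · exact Or.inl h
            · exact Or.inr h
            · rw [h] at h1
              exact absurd h1 (by norm_num)
        rcases h6 with h | h
        · rw [h]
          exact one_dvd 2
        · rw [h]
      exact orderOf_dvd_iff_pow_eq_one.mp h3
    have hinv : ∀ b : G ⧸ A, b⁻¹ = b := fun b =>
      inv_eq_of_mul_eq_one_right (by rw [← pow_two]; exact hexp b)
    have hA : ∀ a ∈ A, ∀ b ∈ A, a * b = b * a := by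
      intro a ha b hb
      have ha' : a⁻¹ = a := inv_eq_of_mul_eq_one_right (hA2 a ha)
      have hb' : b⁻¹ = b := inv_eq_of_mul_eq_one_right (hA2 b hb)
      have hab : (a * b)⁻¹ = a * b :=
        inv_eq_of_mul_eq_one_right (hA2 (a * b) (A.mul_mem ha hb))
      calc a * b = (a * b)⁻¹ := hab.symm
        _ = b⁻¹ * a⁻¹ := mul_inv_rev a b
        _ = b * a := by rw [ha', hb']
    refine gsh_abelian_by_elementary α G A hA 2 Nat.prime_two ?_ ?_ g P
    · intro x y
      rw [← QuotientGroup.eq_one_iff, QuotientGroup.mk_mul, QuotientGroup.mk_mul,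
        QuotientGroup.mk_mul, QuotientGroup.mk_inv, QuotientGroup.mk_inv, hinv, hinv,
        mul_assoc, ← pow_two]
      exact hexp _
    · intro x
      rw [← QuotientGroup.eq_one_iff, QuotientGroup.mk_pow]
      exact hexp _

end Vale.Agent.Lib.P329
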