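import Vale.Agent.Lib.P329.SubwordGood

namespace Vale.Agent.Lib.P329

variable {α : Type} [DecidableEq α] [Fintype α]

/-- Every language saturated by the congruence `same number of occurrences, modulo n, of
every scattered subword of length at most three` has generalized star height at most one. -/
theorem gsh_of_saturated (n : ℕ) [NeZero n] (L : Language α)
    (hL : ∀ w w' : List α,
      (∀ u : List α, u.length ≤ 3 →
        ((sub u w : ℕ) : ZMod n) = ((sub u w' : ℕ) : ZMod n)) → (w ∈ L ↔ w' ∈ L)) :
    GSH 1 L := by
  classical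
  have hg : Good (fun (w : List α) (i : (k : Fin 4) × (Fin k → α)) =>
      ((sub (List.ofFn i.2) w : ℕ) : ZMod n)) :=
    Good.pi (fun i => good_sub n (List.ofFn i.2) (by
      rw [List.length_ofFn]
      have := i.1.isLt
      omega))
  have h := (hg.comp (fun v => decide (∃ w' ∈ L, (fun (i : (k : Fin 4) × (Fin k → α)) =>
      ((sub (List.ofFn i.2) w' : ℕ) : ZMod n)) = v))) true
  refine h.congr (fun w => ?_)
  rw [mem_langOf, decide_eq_true_eq]
  constructor
  · intro hw
    exact ⟨w, hw, rfl⟩
  · rintro ⟨w', hw', hp⟩
    refine (hL w w' (fun u hu => ?_)).mpr hw'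
    have h2 := congrFun hp ⟨⟨u.length, by omega⟩, u.get⟩
    simp only [List.ofFn_get] at h2
    exact h2.symm

/-- The same statement, phrased with Mathlib's `List.sublists` and congruences of natural
numbers. -/
theorem gsh_of_saturated' (n : ℕ) (hn : 0 < n) (L : Language α)
    (hL : ∀ w w' : List α,
      (∀ u : List α, u.length ≤ 3 →
        (List.sublists w).count u ≡ (List.sublists w').count u [MOD n]) → (w ∈ L ↔ w' ∈ L)) :
    ∃ e : GRegex α, e.starHeight ≤ 1 ∧ e.lang = L := by
  haveI : NeZero n := ⟨by omega⟩
  refine gsh_of_saturated n L (fun w w' h => hL w w' (fun u hu => ?_))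
  exact (ZMod.natCast_eq_natCast_iff _ _ _).mp (h u hu)

end Vale.Agent.Lib.P329
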