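import Vale.Agent.Lib.P329.AbByPrime

namespace Vale.Agent.Lib.P329

open Classical

section radon

variable {α B Z ι' : Type} [Fintype α] [Group B] [Finite B] [Group Z] [Finite Z] [Fintype ι']

theorem zone_hom (χ : B →* Z) (wt : α → B) (v : List α) :
    zone (fun a => χ (wt a)) v = χ (zone wt v) := by
  induction v with
  | nil => rw [zone_nil, zone_nil, map_one]
  | cons a v ih => rw [zone_cons, zone_cons, map_mul, ih]

/-- The inversion identity: summing, over a family of characters, the numbers of occurrences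
of `x` read in the fibre of the character through the zone `b` recovers the number of
occurrences read in the zone `b` itself. -/
theorem radon_ident (χ : ι' → (B →* Z)) (c1 : ℕ)
    (hc1 : ∀ d : B, d ≠ 1 → Nat.card {i : ι' // χ i d = 1} = c1)
    (hle : c1 ≤ Fintype.card ι') (wt : α → B) (x : α) (b : B) (w : List α) :
    ∑ i, cntP (fun v a => a = x ∧ χ i (zone wt v) = χ i b) w =
      (Fintype.card ι' - c1) * cntP (fun v a => a = x ∧ zone wt v = b) w +
        c1 * cntP (fun _ a => a = x) w := by
  induction w using List.reverseRecOn with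
  | nil => simp [cntP_nil]
  | append_singleton w a ih =>
    simp only [cntP_snoc]
    rw [Finset.sum_add_distrib, ih]
    by_cases hax : a = x
    · by_cases hz : zone wt w = b
      · have h1 : ∑ i : ι', (@ite ℕ (a = x ∧ χ i (zone wt w) = χ i b)
            (Classical.propDecidable _) 1 0) = Fintype.card ι' := by
          have h0 : ∀ i : ι', (@ite ℕ (a = x ∧ χ i (zone wt w) = χ i b)
              (Classical.propDecidable _) 1 0) = 1 := fun i => if_pos ⟨hax, by rw [hz]⟩
          rw [Finset.sum_congr rfl (fun i _ => h0 i)]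
          simp
        rw [h1, if_pos ⟨hax, hz⟩, if_pos hax]
        have hK : Fintype.card ι' - c1 + c1 = Fintype.card ι' := Nat.sub_add_cancel hle
        generalize Fintype.card ι' - c1 = K at hK ⊢
        rw [← hK]
        ring
      · have hd : zone wt w * b⁻¹ ≠ 1 := fun h => hz (mul_inv_eq_one.mp h)
        have h1 : ∑ i : ι', (@ite ℕ (a = x ∧ χ i (zone wt w) = χ i b)
            (Classical.propDecidable _) 1 0) = c1 := by
          rw [← hc1 _ hd, Nat.card_eq_fintype_card, Fintype.card_subtype, Finset.card_filter]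
          refine Finset.sum_congr rfl (fun i _ => ?_)
          have e : (a = x ∧ χ i (zone wt w) = χ i b) ↔ χ i (zone wt w * b⁻¹) = 1 := by
            rw [map_mul, map_inv, mul_inv_eq_one]
            exact ⟨fun h => h.2, fun h => ⟨hax, h⟩⟩
          by_cases h : χ i (zone wt w * b⁻¹) = 1
          · rw [if_pos h, if_pos (e.mpr h)]
          · rw [if_neg h, if_neg (fun h' => h (e.mp h'))]
        rw [h1, if_neg (fun h => hz h.2), if_pos hax]
        ring
    · have h1 : ∑ i : ι', (@ite ℕ (a = x ∧ χ i (zone wt w) = χ i b)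
          (Classical.propDecidable _) 1 0) = 0 :=
        Finset.sum_eq_zero (fun i _ => if_neg (fun h => hax h.1))
      rw [h1, if_neg (fun h => hax h.1), if_neg hax]
      ring

/-- The walk statistics theorem for a zone group `B` with a family of characters into a
group `Z` all of whose nontrivial elements are generators, such that the number of characters
vanishing at `d` is the same for all nontrivial `d` and smaller than the total number. -/
theorem good_N_radon (hZ : ∀ c : Z, c ≠ 1 → ∀ b : Z, ∃ j : ℕ, c ^ j = b) (χ : ι' → (B →* Z))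
    (c1 : ℕ) (hc1 : ∀ d : B, d ≠ 1 → Nat.card {i : ι' // χ i d = 1} = c1)
    (hlt : c1 < Fintype.card ι') (wt : α → B) (x : α) (b : B) (n : ℕ) [NeZero n] :
    Good (fun w => ((cntP (fun v a => a = x ∧ zone wt v = b) w : ℕ) : ZMod n)) := by
  obtain ⟨K, hK⟩ : ∃ K, K = Fintype.card ι' - c1 := ⟨_, rfl⟩
  have hK0 : K ≠ 0 := by omega
  have instM : NeZero (K * n) := ⟨Nat.mul_ne_zero hK0 (NeZero.ne n)⟩
  have hM : ∀ i, Good (fun w =>
      ((cntP (fun v a => a = x ∧ χ i (zone wt v) = χ i b) w : ℕ) : ZMod (K * n))) := by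
    intro i
    have h := good_N hZ (fun a => χ i (wt a)) x (χ i b) (K * n)
    refine h.congr (fun w => ?_)
    congr 1
    apply cntP_congr
    intro v a
    rw [zone_hom]
  have hΨ := (Good.pi hM).prod (good_cntP_letter (α := α) x (K * n))
  refine Good.of_determined hΨ (fun w w' hww => ?_)
  have h1 : ∀ i, ((cntP (fun v a => a = x ∧ χ i (zone wt v) = χ i b) w : ℕ) : ZMod (K * n)) =
      ((cntP (fun v a => a = x ∧ χ i (zone wt v) = χ i b) w' : ℕ) : ZMod (K * n)) :=
    fun i => congrFun (congrArg Prod.fst hww) i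
  have h2 : ((cntP (fun _ a => a = x) w : ℕ) : ZMod (K * n)) =
      ((cntP (fun _ a => a = x) w' : ℕ) : ZMod (K * n)) := congrArg Prod.snd hww
  have e1 := radon_ident χ c1 hc1 hlt.le wt x b w
  have e2 := radon_ident χ c1 hc1 hlt.le wt x b w'
  rw [← hK] at e1 e2
  have e1' := congrArg (Nat.cast : ℕ → ZMod (K * n)) e1
  have e2' := congrArg (Nat.cast : ℕ → ZMod (K * n)) e2
  push_cast at e1' e2'
  have h3 : ∑ i, ((cntP (fun v a => a = x ∧ χ i (zone wt v) = χ i b) w : ℕ) : ZMod (K * n)) =
      ∑ i, ((cntP (fun v a => a = x ∧ χ i (zone wt v) = χ i b) w' : ℕ) : ZMod (K * n)) :=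
    Finset.sum_congr rfl (fun i _ => h1 i)
  have h5 : ((K * cntP (fun v a => a = x ∧ zone wt v = b) w : ℕ) : ZMod (K * n)) =
      ((K * cntP (fun v a => a = x ∧ zone wt v = b) w' : ℕ) : ZMod (K * n)) := by
    push_cast
    linear_combination (-1 : ZMod (K * n)) * e1' + e2' + h3 - (c1 : ZMod (K * n)) * h2
  exact (ZMod.natCast_eq_natCast_iff _ _ _).mpr
    (Nat.ModEq.mul_left_cancel' hK0 ((ZMod.natCast_eq_natCast_iff _ _ _).mp h5))

end radon

end Vale.Agent.Lib.P329
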