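import Vale.Agent.Lib.P329.DFA

namespace Vale.Agent.Lib.P329

open Classical

variable {Q α : Type}

/-- The number of events (transitions `(q, a)` with `T q a`) along the run of `w` from `q`. -/
noncomputable def cnt (δ : Q → α → Q) (T : Q → α → Prop) : Q → List α → ℕ
  | _, [] => 0
  | q, a :: w => (if T q a then 1 else 0) + cnt δ T (δ q a) w

theorem cnt_nil (δ : Q → α → Q) (T : Q → α → Prop) (q : Q) : cnt δ T q [] = 0 := rfl

theorem cnt_cons (δ : Q → α → Q) (T : Q → α → Prop) (q : Q) (a : α) (w : List α) :
    cnt δ T q (a :: w) = (if T q a then 1 else 0) + cnt δ T (δ q a) w := rfl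

theorem cnt_append (δ : Q → α → Q) (T : Q → α → Prop) : ∀ (u v : List α) (q : Q),
    cnt δ T q (u ++ v) = cnt δ T q u + cnt δ T (run δ q u) v := by
  intro u
  induction u with
  | nil =>
    intro v q
    rw [List.nil_append, cnt_nil, Nat.zero_add, run_nil]
  | cons a u ih =>
    intro v q
    rw [List.cons_append, cnt_cons, cnt_cons, ih, run_cons, Nat.add_assoc]

theorem cnt_singleton (δ : Q → α → Q) (T : Q → α → Prop) (q : Q) (a : α) :
    cnt δ T q [a] = if T q a then 1 else 0 := by
  rw [cnt_cons, cnt_nil, Nat.add_zero]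

theorem cnt_snoc (δ : Q → α → Q) (T : Q → α → Prop) (q : Q) (u : List α) (a : α) :
    cnt δ T q (u ++ [a]) = cnt δ T q u + (if T (run δ q u) a then 1 else 0) := by
  rw [cnt_append, cnt_singleton]

/-- The remainder automaton: every event leads to the sink `none`. -/
noncomputable def rem (δ : Q → α → Q) (T : Q → α → Prop) : Option Q → α → Option Q
  | none, _ => none
  | some q, a => if T q a then none else some (δ q a)

theorem rem_none (δ : Q → α → Q) (T : Q → α → Prop) (a : α) : rem δ T none a = none := rfl

theorem rem_some (δ : Q → α → Q) (T : Q → α → Prop) (q : Q) (a : α) :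
    rem δ T (some q) a = if T q a then none else some (δ q a) := rfl

theorem run_rem_none (δ : Q → α → Q) (T : Q → α → Prop) (w : List α) :
    run (rem δ T) none w = none := by
  induction w with
  | nil => rfl
  | cons a w ih =>
    rw [run_cons, rem_none]
    exact ih

theorem run_rem_some (δ : Q → α → Q) (T : Q → α → Prop) : ∀ (w : List α) (q : Q),
    run (rem δ T) (some q) w = if cnt δ T q w = 0 then some (run δ q w) else none := by
  intro w
  induction w with
  | nil =>
    intro q
    rw [run_nil, cnt_nil, if_pos rfl, run_nil]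
  | cons a w ih =>
    intro q
    rw [run_cons, cnt_cons, rem_some]
    by_cases h : T q a
    · rw [if_pos h, run_rem_none, if_pos h, if_neg (by omega)]
    · rw [if_neg h, ih, if_neg h, Nat.zero_add, run_cons]

/-- The renewal counting theorem: if all events of a deterministic automaton enter the same
state and the remainder automaton is counter-free, then counting the events modulo `n` is
good. -/
theorem renewal [Finite Q] [Fintype α] (δ : Q → α → Q) (T : Q → α → Prop) (qT : Q)
    (hT : ∀ q a, T q a → δ q a = qT) (hcf : CounterFree (rem δ T)) (q0 : Q) (n : ℕ)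
    [NeZero n] : Good (fun w => (cnt δ T q0 w : ZMod n)) := by
  have instQ : Fintype Q := Fintype.ofFinite Q
  have hNE : ∀ q q', GSH 0 (langOf (fun w => run (rem δ T) (some q) w = some q')) :=
    fun q q' => starfree_of_counterFree (rem δ T) hcf (some q) (some q')
  have hTail : ∀ q, GSH 0 (langOf (fun w => cnt δ T q w = 0)) := by
    intro q
    have h := (starfree_of_counterFree (rem δ T) hcf (some q) none).compl
    exact h.congr (fun w => by
      rw [mem_compl_lang, mem_langOf, mem_langOf, run_rem_some]
      by_cases h0 : cnt δ T q w = 0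
      · rw [if_pos h0]
        exact ⟨fun _ => by simp, fun _ => h0⟩
      · rw [if_neg h0]
        exact ⟨fun h => absurd h h0, fun h => absurd rfl h⟩)
  let Seg : Q → Language α := fun q =>
    langOf (fun x => ∃ u a, x = u ++ [a] ∧ cnt δ T q u = 0 ∧ T (run δ q u) a)
  have hSeg : ∀ q, GSH 0 (Seg q) := by
    intro q
    have h := GSH.finsetUnion (k := 0) (Finset.univ : Finset Q)
      (fun q'' => langOf (fun w => run (rem δ T) (some q) w = some q'') *
        langOf (fun w => ∃ a, T q'' a ∧ w = [a]))
      (fun q'' _ => (hNE q q'').mul (GSH.letters 0 (fun a => T q'' a)))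
    exact h.congr (fun x => by
      constructor
      · rintro ⟨u, a, rfl, hu, ha⟩
        refine ⟨run δ q u, Finset.mem_univ _, Language.append_mem_mul ?_ ⟨a, ha, rfl⟩⟩
        rw [mem_langOf, run_rem_some, if_pos hu]
      · rintro ⟨q'', _, hx⟩
        obtain ⟨u, hu, y, ⟨a, ha, rfl⟩, rfl⟩ := Language.mem_mul.mp hx
        rw [mem_langOf, run_rem_some] at hu
        by_cases h0 : cnt δ T q u = 0
        · rw [if_pos h0] at hu
          have hq : run δ q u = q'' := Option.some.inj hu
          exact ⟨u, a, rfl, h0, by rw [hq]; exact ha⟩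
        · rw [if_neg h0] at hu
          exact absurd hu (by simp))
  have hSeg1 : ∀ q x, x ∈ Seg q → cnt δ T q x = 1 ∧ run δ q x = qT := by
    rintro q x ⟨u, a, rfl, hu, ha⟩
    refine ⟨?_, ?_⟩
    · rw [cnt_snoc, hu, if_pos ha]
    · rw [run_snoc]
      exact hT _ _ ha
  have hsplit : ∀ (w : List α) (q : Q), cnt δ T q w ≠ 0 →
      ∃ x w', x ∈ Seg q ∧ w = x ++ w' := by
    intro w
    induction w with
    | nil =>
      intro q h
      exact absurd (cnt_nil δ T q) h
    | cons a w ih =>
      intro q h
      by_cases hTa : T q a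
      · exact ⟨[a], w, ⟨[], a, rfl, rfl, hTa⟩, rfl⟩
      · rw [cnt_cons, if_neg hTa, Nat.zero_add] at h
        obtain ⟨x, w', ⟨u, b, rfl, hu, hb⟩, rfl⟩ := ih (δ q a) h
        refine ⟨a :: (u ++ [b]), w', ⟨a :: u, b, rfl, ?_, ?_⟩, rfl⟩
        · rw [cnt_cons, if_neg hTa, Nat.zero_add]
          exact hu
        · rw [run_cons]
          exact hb
  let R : Language α := Seg qT
  have hR : GSH 0 R := hSeg qT
  have hRpow : ∀ (k : ℕ) x, x ∈ R ^ k → cnt δ T qT x = k ∧ run δ qT x = qT := by
    intro k
    induction k with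
    | zero =>
      intro x hx
      rw [pow_zero, Language.mem_one] at hx
      subst hx
      exact ⟨rfl, rfl⟩
    | succ k ih =>
      intro x hx
      rw [pow_succ] at hx
      obtain ⟨y, hy, z, hz, rfl⟩ := Language.mem_mul.mp hx
      obtain ⟨h1, h2⟩ := ih y hy
      obtain ⟨h3, h4⟩ := hSeg1 qT z hz
      refine ⟨?_, ?_⟩
      · rw [cnt_append, h1, h2, h3]
      · rw [run_append, h2, h4]
  have hdec : ∀ (k : ℕ) (w : List α), cnt δ T qT w = k →
      w ∈ R ^ k * langOf (fun w => cnt δ T qT w = 0) := by
    intro k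
    induction k with
    | zero =>
      intro w hw
      rw [pow_zero, one_mul]
      exact hw
    | succ k ih =>
      intro w hw
      obtain ⟨x, w', hx, rfl⟩ := hsplit w qT (by rw [hw]; exact Nat.succ_ne_zero k)
      obtain ⟨h3, h4⟩ := hSeg1 qT x hx
      rw [cnt_append, h3, h4] at hw
      have hw' : cnt δ T qT w' = k := by omega
      rw [pow_succ', mul_assoc]
      exact Language.append_mem_mul hx (ih w' hw')
  have hstar : ∀ y, y ∈ KStar.kstar (R ^ n) →
      ((cnt δ T qT y : ℕ) : ZMod n) = 0 ∧ run δ qT y = qT := by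
    intro y hy
    rw [Language.kstar_eq_iSup_pow] at hy
    obtain ⟨j, hj⟩ := Language.mem_iSup.mp hy
    rw [← pow_mul] at hj
    obtain ⟨h1, h2⟩ := hRpow _ y hj
    refine ⟨?_, h2⟩
    rw [h1]
    simp
  intro v
  have hmain : GSH 1 (Seg q0 * (KStar.kstar (R ^ n) *
      (R ^ (v - 1).val * langOf (fun w => cnt δ T qT w = 0)))) :=
    ((hSeg q0).mono (Nat.zero_le 1)).mul (((hR.pow n).kstar).mul
      (((hR.pow (v - 1).val).mono (Nat.zero_le 1)).mul ((hTail qT).mono (Nat.zero_le 1))))
  have hzero : GSH 1 (langOf (fun w => cnt δ T q0 w = 0 ∧ v = 0)) := by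
    by_cases hv : v = 0
    · exact ((hTail q0).mono (Nat.zero_le 1)).congr (fun w => ⟨fun h => h.1, fun h => ⟨h, hv⟩⟩)
    · exact (GSH.zero 1).congr (fun w =>
        ⟨fun h => absurd h.2 hv, fun h => absurd h (Language.notMem_zero w)⟩)
  refine (hzero.add hmain).congr (fun w => ?_)
  rw [mem_langOf, Language.mem_add]
  show ((cnt δ T q0 w : ℕ) : ZMod n) = v ↔ _
  constructor
  · intro hw
    by_cases h0 : cnt δ T q0 w = 0
    · left
      refine ⟨h0, ?_⟩
      rw [h0] at hw
      rw [← hw]
      simp
    · right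
      obtain ⟨x, w', hx, rfl⟩ := hsplit w q0 h0
      obtain ⟨h3, h4⟩ := hSeg1 q0 x hx
      rw [cnt_append, h3, h4] at hw
      obtain ⟨k, hk⟩ : ∃ k, cnt δ T qT w' = k := ⟨_, rfl⟩
      rw [hk] at hw
      have hkv : ((k : ℕ) : ZMod n) = v - 1 := by
        rw [← hw]
        push_cast
        ring
      have hkr : k % n = (v - 1).val := by
        rw [← hkv, ZMod.val_natCast]
      have hk2 : cnt δ T qT w' = n * (k / n) + (v - 1).val := by
        rw [hk, ← hkr]
        exact (Nat.div_add_mod k n).symm
      have hmem := hdec _ w' hk2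
      rw [pow_add, pow_mul, mul_assoc] at hmem
      obtain ⟨y, hy, z, hz, rfl⟩ := Language.mem_mul.mp hmem
      have hy' : y ∈ KStar.kstar (R ^ n) := by
        rw [Language.kstar_eq_iSup_pow]
        exact Language.mem_iSup.mpr ⟨_, hy⟩
      exact Language.append_mem_mul hx (Language.append_mem_mul hy' hz)
  · rintro (⟨h0, hv⟩ | hw)
    · rw [h0, hv]
      simp
    · obtain ⟨x, hx, y', hy', rfl⟩ := Language.mem_mul.mp hw
      obtain ⟨y, hy, z', hz', rfl⟩ := Language.mem_mul.mp hy'
      obtain ⟨z, hz, t, ht, rfl⟩ := Language.mem_mul.mp hz'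
      obtain ⟨h3, h4⟩ := hSeg1 q0 x hx
      obtain ⟨h5, h6⟩ := hstar y hy
      obtain ⟨h7, h8⟩ := hRpow _ z hz
      have ht' : cnt δ T qT t = 0 := ht
      show ((cnt δ T q0 (x ++ (y ++ (z ++ t))) : ℕ) : ZMod n) = v
      rw [cnt_append, h3, h4, cnt_append, h6, cnt_append, h7, h8, ht']
      push_cast
      rw [h5, ZMod.natCast_zmod_val (v - 1)]
      ring

/-- The number of positions of the word (a letter `a` preceded by the word `v`) that
satisfy `ev v a`, where `pre` is what was read before. -/
noncomputable def cntPaux (ev : List α → α → Prop) : List α → List α → ℕ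
  | _, [] => 0
  | pre, a :: w => (if ev pre a then 1 else 0) + cntPaux ev (pre ++ [a]) w

/-- The number of positions of `w` (a letter `a` preceded by the word `v`) with `ev v a`. -/
noncomputable def cntP (ev : List α → α → Prop) (w : List α) : ℕ := cntPaux ev [] w

theorem cntPaux_snoc (ev : List α → α → Prop) : ∀ (w pre : List α) (a : α),
    cntPaux ev pre (w ++ [a]) = cntPaux ev pre w + (if ev (pre ++ w) a then 1 else 0) := by
  intro w
  induction w with
  | nil =>
    intro pre a
    show (if ev pre a then 1 else 0) + 0 = 0 + (if ev (pre ++ []) a then 1 else 0)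
    rw [List.append_nil, Nat.add_zero, Nat.zero_add]
  | cons b w ih =>
    intro pre a
    show (if ev pre b then 1 else 0) + cntPaux ev (pre ++ [b]) (w ++ [a]) =
      (if ev pre b then 1 else 0) + cntPaux ev (pre ++ [b]) w +
        (if ev (pre ++ b :: w) a then 1 else 0)
    rw [ih, List.append_assoc, List.singleton_append, Nat.add_assoc]

theorem cntP_nil (ev : List α → α → Prop) : cntP ev [] = 0 := rfl

theorem cntP_snoc (ev : List α → α → Prop) (w : List α) (a : α) :
    cntP ev (w ++ [a]) = cntP ev w + (if ev w a then 1 else 0) := by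
  unfold cntP
  rw [cntPaux_snoc, List.nil_append]

theorem cnt_eq_cntP (δ : Q → α → Q) (T : Q → α → Prop) (q0 : Q) (w : List α) :
    cnt δ T q0 w = cntP (fun v a => T (run δ q0 v) a) w := by
  induction w using List.reverseRecOn with
  | nil => rfl
  | append_singleton w a ih => rw [cnt_snoc, cntP_snoc, ih]

theorem cntP_congr {ev ev' : List α → α → Prop} (h : ∀ v a, ev v a ↔ ev' v a) (w : List α) :
    cntP ev w = cntP ev' w := by
  have : ev = ev' := by
    funext v a
    exact propext (h v a)
  rw [this]

end Vale.Agent.Lib.P329
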