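import Vale.Agent.Lib.P329.AbByElem

namespace Vale.Agent.Lib.P329

open Classical

section smallorder

/-- A group of order `p ^ k` with `k ≤ 2` is commutative. -/
theorem comm_of_card_ppow (p : ℕ) [hp : Fact p.Prime] (k : ℕ) (hk : k ≤ 2) (G : Type) [Group G]
    [Finite G] (hG : Nat.card G = p ^ k) : ∀ a b : G, a * b = b * a := by
  interval_cases k
  · have h1 : Nat.card G = 1 := by rw [hG, pow_zero]
    have hs : Subsingleton G := (Nat.card_eq_one_iff_unique.mp h1).1
    intro a b
    rw [Subsingleton.elim a b]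
  · have h1 : Nat.card G = p := by rw [hG, pow_one]
    have hcyc : IsCyclic G := isCyclic_of_prime_card h1
    intro a b
    exact (IsCyclic.isMulCommutative (α := G)).is_comm.comm a b
  · exact fun a b => (IsPGroup.isMulCommutative_of_card_eq_prime_sq hG).is_comm.comm a b

/-- A group of order `p ^ k` is nilpotent of class at most `max (k - 1) 1`. -/
theorem pgroup_class (p : ℕ) [hp : Fact p.Prime] : ∀ (k : ℕ) (G : Type) [Group G] [Finite G],
    Nat.card G = p ^ k → ∃ _ : Group.IsNilpotent G, Group.nilpotencyClass G ≤ max (k - 1) 1 := by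
  intro k
  induction k using Nat.strong_induction_on with
  | _ k IH =>
    intro G _ _ hG
    by_cases hk : k ≤ 2
    · have hc : ∀ a b : G, a * b = b * a := comm_of_card_ppow p k hk G hG
      let cg : CommGroup G := { (inferInstance : Group G) with mul_comm := hc }
      exact ⟨@CommGroup.isNilpotent G cg,
        le_trans (@CommGroup.nilpotencyClass_le_one G cg) (le_max_right _ _)⟩
    · have hP : IsPGroup p G := IsPGroup.of_card hG
      have hnil : Group.IsNilpotent G := hP.isNilpotent
      have hgt : 1 < Nat.card G := by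
        rw [hG]
        exact Nat.one_lt_pow (by omega) hp.out.one_lt
      have hnt : Nontrivial G := Finite.one_lt_card_iff_nontrivial.mp hgt
      have hZ : Nontrivial (Subgroup.center G) := hP.center_nontrivial
      have hZdvd : Nat.card (Subgroup.center G) ∣ p ^ k := by
        rw [← hG]
        exact Subgroup.card_subgroup_dvd_card _
      obtain ⟨j, hjk, hj⟩ := (Nat.dvd_prime_pow hp.out).mp hZdvd
      have hj0 : j ≠ 0 := by
        intro h0
        have h1 : Nat.card (Subgroup.center G) = 1 := by rw [hj, h0, pow_zero]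
        have hgt' : 1 < Nat.card (Subgroup.center G) := Finite.one_lt_card_iff_nontrivial.mpr hZ
        omega
      have hq : Nat.card (G ⧸ Subgroup.center G) = p ^ (k - j) := by
        have h1 := Subgroup.card_eq_card_quotient_mul_card_subgroup (Subgroup.center G)
        rw [hG, hj] at h1
        have h2 : p ^ k = p ^ (k - j) * p ^ j := by
          rw [← pow_add]
          congr 1
          omega
        rw [h2] at h1
        exact (Nat.eq_of_mul_eq_mul_right (Nat.pow_pos hp.out.pos) h1).symm
      obtain ⟨hnil', hcl'⟩ := IH (k - j) (by omega) (G ⧸ Subgroup.center G) hq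
      have h3 := Group.nilpotencyClass_quotient_center (G := G)
      refine ⟨hnil, ?_⟩
      have h4 : Group.nilpotencyClass (G ⧸ Subgroup.center G) ≤ k - 2 :=
        le_trans hcl' (max_le (by omega) (by omega))
      have h5 : k - 1 ≤ max (k - 1) 1 := le_max_left _ _
      omega

variable {α : Type} [Fintype α] {G : Type} [Group G] [Finite G]

/-- Groups of prime power order `p ^ k` with `k ≤ 4`. -/
theorem gsh_ppow (p k : ℕ) [Fact p.Prime] (hk : k ≤ 4) (hG : Nat.card G = p ^ k) (g : α → G)
    (P : Set G) :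
    ∃ e : GRegex α, e.starHeight ≤ 1 ∧ e.lang = {w : List α | (w.map g).prod ∈ P} := by
  obtain ⟨hnil, hcl⟩ := pgroup_class p k G hG
  have hcl3 : Group.nilpotencyClass G ≤ 3 := le_trans hcl (max_le (by omega) (by omega))
  exact gsh_nil3 hcl3 g P

/-- Groups with a subgroup of order `p ^ e`, `e ≤ 2`, whose index is the smallest prime factor
of the order of the group. -/
theorem gsh_sub (p e q : ℕ) [Fact p.Prime] (he : e ≤ 2) (hq : q.Prime)
    (hmul : q * p ^ e = Nat.card G) (hmin : (Nat.card G).minFac = q) (g : α → G) (P : Set G) :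
    ∃ r : GRegex α, r.starHeight ≤ 1 ∧ r.lang = {w : List α | (w.map g).prod ∈ P} := by
  obtain ⟨K, hK⟩ := Sylow.exists_subgroup_card_pow_prime p (G := G) (n := e) ⟨q, by rw [← hmul, Nat.mul_comm]⟩
  have hidx : K.index = q := by
    have h1 := Subgroup.index_mul_card K
    rw [hK, ← hmul] at h1
    exact Nat.eq_of_mul_eq_mul_right (Nat.pow_pos (Fact.out : p.Prime).pos) h1
  have hnorm : K.Normal := Subgroup.normal_of_index_eq_minFac_card (by rw [hidx, hmin])
  have hcomm : ∀ a ∈ K, ∀ b ∈ K, a * b = b * a := fun a ha b hb =>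
    congrArg Subtype.val (comm_of_card_ppow p e he K hK ⟨a, ha⟩ ⟨b, hb⟩)
  exact gsh_abelian_by_prime α G K hcomm (by rw [hidx]; exact hq) g P

/-- Groups of order twelve. -/
theorem gsh_twelve (hG : Nat.card G = 12) (g : α → G) (P : Set G) :
    ∃ r : GRegex α, r.starHeight ≤ 1 ∧ r.lang = {w : List α | (w.map g).prod ∈ P} := by
  have inst2 : Fact (Nat.Prime 2) := ⟨Nat.prime_two⟩
  have inst3 : Fact (Nat.Prime 3) := ⟨Nat.prime_three⟩
  obtain ⟨K, hK⟩ := Sylow.exists_subgroup_card_pow_prime 2 (G := G) (n := 2) ⟨3, by norm_num [hG]⟩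
  have hKidx : K.index = 3 := by
    have h1 := Subgroup.index_mul_card K
    rw [hK, hG] at h1
    omega
  have hKcomm : ∀ a ∈ K, ∀ b ∈ K, a * b = b * a := fun a ha b hb =>
    congrArg Subtype.val (comm_of_card_ppow 2 2 le_rfl K hK ⟨a, ha⟩ ⟨b, hb⟩)
  obtain ⟨N, hN⟩ : ∃ N : Subgroup G, N = K.normalCore := ⟨_, rfl⟩
  have hNle : N ≤ K := hN ▸ Subgroup.normalCore_le K
  have hNnorm : N.Normal := hN ▸ Subgroup.normalCore_normal K
  have hNdvd : Nat.card N ∣ 4 := by
    have h1 := Subgroup.card_dvd_of_le hNle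
    rw [hK] at h1
    exact h1
  have hrange : Nat.card N * Nat.card (MulAction.toPermHom G (G ⧸ K)).range = 12 := by
    have h1 := Subgroup.card_mul_index N
    rw [hG] at h1
    rw [← h1, hN, Subgroup.normalCore_eq_ker, Subgroup.index_ker]
  have hperm : Nat.card (MulAction.toPermHom G (G ⧸ K)).range ∣ 6 := by
    have h1 := Subgroup.card_subgroup_dvd_card (MulAction.toPermHom G (G ⧸ K)).range
    have h2 : Nat.card (Equiv.Perm (G ⧸ K)) = 6 := by
      rw [Nat.card_perm, ← Subgroup.index_eq_card, hKidx]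
      rfl
    rw [h2] at h1
    exact h1
  have hN24 : Nat.card N = 4 ∨ Nat.card N = 2 := by
    have hle : Nat.card N ≤ 4 := Nat.le_of_dvd (by norm_num) hNdvd
    have hpos : 0 < Nat.card N := Nat.card_pos
    obtain ⟨c, hc⟩ := hperm
    have hcpos : c ≠ 0 := by
      intro h0
      rw [h0] at hc
      omega
    interval_cases hn : Nat.card N
    · exfalso
      rw [Nat.one_mul] at hrange
      rw [hrange] at hc
      omega
    · right
      rfl
    · exfalso
      omega
    · left
      rfl
  rcases hN24 with h4 | h2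
  · have hNK : N = K := Subgroup.eq_of_le_of_card_ge hNle (by rw [h4, hK]; norm_num)
    have hKn : K.Normal := hNK ▸ hNnorm
    exact gsh_abelian_by_prime α G K hKcomm (by rw [hKidx]; exact Nat.prime_three) g P
  · obtain ⟨y0, _, hy0⟩ := (Nat.card_eq_two_iff' (1 : N)).mp h2
    have hcentral : ∀ z ∈ N, ∀ x : G, x * z = z * x := by
      intro z hz x
      by_cases hz1 : z = 1
      · rw [hz1, mul_one, one_mul]
      · have hconj : x * z * x⁻¹ ∈ N := hNnorm.conj_mem z hz x
        have e1 : (⟨z, hz⟩ : N) = y0 := hy0 _ (fun h => hz1 (congrArg Subtype.val h))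
        have e2 : (⟨x * z * x⁻¹, hconj⟩ : N) = y0 := hy0 _ (fun h => by
          have h' : x * z * x⁻¹ = 1 := congrArg Subtype.val h
          apply hz1
          have h3 : x * z = x := by
            rw [mul_inv_eq_one] at h'
            exact h'
          exact mul_left_cancel (a := x) (by rw [h3, mul_one]))
        have e3 : x * z * x⁻¹ = z := congrArg Subtype.val (e2.trans e1.symm)
        rw [mul_inv_eq_iff_eq_mul] at e3
        exact e3
    have hQ : Nat.card (G ⧸ N) = 6 := by
      have h1 := Subgroup.card_eq_card_quotient_mul_card_subgroup N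
      rw [hG, h2] at h1
      omega
    obtain ⟨H', hH'⟩ := Sylow.exists_subgroup_card_pow_prime 3 (G := G ⧸ N) (n := 1)
      ⟨2, by norm_num [hQ]⟩
    obtain ⟨H, hH⟩ : ∃ H : Subgroup G, H = H'.comap (QuotientGroup.mk' N) := ⟨_, rfl⟩
    have hHidx : H.index = 2 := by
      rw [hH, Subgroup.index_comap_of_surjective H' (QuotientGroup.mk'_surjective N)]
      have h1 := Subgroup.index_mul_card H'
      rw [hH', hQ] at h1
      omega
    have hHn : H.Normal := Subgroup.normal_of_index_eq_two hHidx
    have hcyc : IsCyclic H' := isCyclic_of_prime_card (p := 3) (by rw [hH']; norm_num)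
    have hmem0 : ∀ y : G, y ∈ H → (QuotientGroup.mk' N) y ∈ H' := by
      intro y hy
      rw [hH] at hy
      exact hy
    have hmem : ∀ x : H, (QuotientGroup.mk' N) x.val ∈ H' := fun x => hmem0 x.val x.2
    have hHcomm : ∀ a ∈ H, ∀ b ∈ H, a * b = b * a := by
      intro a ha b hb
      have hf : (((QuotientGroup.mk' N).comp H.subtype).codRestrict H' hmem).ker ≤
          Subgroup.center H := by
        intro x hx
        rw [MonoidHom.mem_ker] at hx
        have hx' : (QuotientGroup.mk' N) x.val = 1 := congrArg Subtype.val hx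
        have hxN : x.val ∈ N := (QuotientGroup.eq_one_iff _).mp hx'
        rw [Subgroup.mem_center_iff]
        intro y
        exact Subtype.ext (hcentral x.val hxN y.val)
      have h := (MonoidHom.isMulCommutative_of_isCyclic_of_ker_le_center
        (((QuotientGroup.mk' N).comp H.subtype).codRestrict H' hmem) hf).is_comm.comm
          ⟨a, ha⟩ ⟨b, hb⟩
      exact congrArg Subtype.val h
    exact gsh_abelian_by_prime α G H hHcomm (by rw [hHidx]; exact Nat.prime_two) g P

/-- Groups of order twenty with an element of order ten. -/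
theorem gsh_twenty (hG : Nat.card G = 20) (x : G) (hx : orderOf x = 10) (g : α → G)
    (P : Set G) :
    ∃ r : GRegex α, r.starHeight ≤ 1 ∧ r.lang = {w : List α | (w.map g).prod ∈ P} := by
  have hcard : Nat.card (Subgroup.zpowers x) = 10 := by rw [Nat.card_zpowers, hx]
  have hidx : (Subgroup.zpowers x).index = 2 := by
    have h1 := Subgroup.index_mul_card (Subgroup.zpowers x)
    rw [hcard, hG] at h1
    omega
  have hn : (Subgroup.zpowers x).Normal := Subgroup.normal_of_index_eq_two hidx
  have hcomm : ∀ a ∈ Subgroup.zpowers x, ∀ b ∈ Subgroup.zpowers x, a * b = b * a := by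
    intro a ha b hb
    obtain ⟨i, rfl⟩ := Subgroup.mem_zpowers_iff.mp ha
    obtain ⟨j, rfl⟩ := Subgroup.mem_zpowers_iff.mp hb
    exact (Commute.zpow_zpow_self x i j).eq
  exact gsh_abelian_by_prime α G (Subgroup.zpowers x) hcomm
    (by rw [hidx]; exact Nat.prime_two) g P

/-- Every language recognized by a group of order less than twenty-four has generalized star
height at most one, except possibly when the group has order twenty and no element of order
ten. -/
theorem gsh_small_order (α : Type) [Fintype α] (G : Type) [Group G] [Finite G]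
    (hG : Nat.card G < 24) (h20 : Nat.card G = 20 → ∃ x : G, orderOf x = 10) (g : α → G)
    (P : Set G) :
    ∃ r : GRegex α, r.starHeight ≤ 1 ∧ r.lang = {w : List α | (w.map g).prod ∈ P} := by
  have i2 : Fact (Nat.Prime 2) := ⟨Nat.prime_two⟩
  have i3 : Fact (Nat.Prime 3) := ⟨Nat.prime_three⟩
  have i5 : Fact (Nat.Prime 5) := ⟨by norm_num⟩
  have i7 : Fact (Nat.Prime 7) := ⟨by norm_num⟩
  have i11 : Fact (Nat.Prime 11) := ⟨by norm_num⟩
  have i13 : Fact (Nat.Prime 13) := ⟨by norm_num⟩
  have i17 : Fact (Nat.Prime 17) := ⟨by norm_num⟩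
  have i19 : Fact (Nat.Prime 19) := ⟨by norm_num⟩
  have i23 : Fact (Nat.Prime 23) := ⟨by norm_num⟩
  have hpos : 0 < Nat.card G := Nat.card_pos
  obtain ⟨n, hn⟩ : ∃ n, Nat.card G = n := ⟨_, rfl⟩
  rw [hn] at hG hpos
  interval_cases n
  · exact gsh_ppow 2 0 (by norm_num) (by rw [hn]; rfl) g P
  · exact gsh_ppow 2 1 (by norm_num) (by rw [hn]; rfl) g P
  · exact gsh_ppow 3 1 (by norm_num) (by rw [hn]; rfl) g P
  · exact gsh_ppow 2 2 (by norm_num) (by rw [hn]; rfl) g P
  · exact gsh_ppow 5 1 (by norm_num) (by rw [hn]; rfl) g P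
  · exact gsh_sub 3 1 2 (by norm_num) Nat.prime_two (by norm_num [hn]) (by rw [hn]; norm_num) g P
  · exact gsh_ppow 7 1 (by norm_num) (by rw [hn]; rfl) g P
  · exact gsh_ppow 2 3 (by norm_num) (by rw [hn]; rfl) g P
  · exact gsh_ppow 3 2 (by norm_num) (by rw [hn]; rfl) g P
  · exact gsh_sub 5 1 2 (by norm_num) Nat.prime_two (by norm_num [hn]) (by rw [hn]; norm_num) g P
  · exact gsh_ppow 11 1 (by norm_num) (by rw [hn]; rfl) g P
  · exact gsh_twelve hn g P
  · exact gsh_ppow 13 1 (by norm_num) (by rw [hn]; rfl) g P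
  · exact gsh_sub 7 1 2 (by norm_num) Nat.prime_two (by norm_num [hn]) (by rw [hn]; norm_num) g P
  · exact gsh_sub 5 1 3 (by norm_num) Nat.prime_three (by norm_num [hn]) (by rw [hn]; norm_num)
      g P
  · exact gsh_ppow 2 4 (by norm_num) (by rw [hn]; rfl) g P
  · exact gsh_ppow 17 1 (by norm_num) (by rw [hn]; rfl) g P
  · exact gsh_sub 3 2 2 (by norm_num) Nat.prime_two (by norm_num [hn]) (by rw [hn]; norm_num) g P
  · exact gsh_ppow 19 1 (by norm_num) (by rw [hn]; rfl) g P
  · obtain ⟨x, hx⟩ := h20 hn
    exact gsh_twenty hn x hx g P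
  · exact gsh_sub 7 1 3 (by norm_num) Nat.prime_three (by norm_num [hn]) (by rw [hn]; norm_num)
      g P
  · exact gsh_sub 11 1 2 (by norm_num) Nat.prime_two (by norm_num [hn]) (by rw [hn]; norm_num)
      g P
  · exact gsh_ppow 23 1 (by norm_num) (by rw [hn]; rfl) g P

end smallorder

end Vale.Agent.Lib.P329
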