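import Vale.Agent.Lib.P329.StarFreeDFA

namespace Vale.Agent.Lib.P329

open Classical

variable {α : Type}

theorem nodup_inits : ∀ w : List α, w.inits.Nodup := by
  intro w
  induction w with
  | nil => simp
  | cons a w ih =>
    rw [List.inits_cons, List.nodup_cons]
    exact ⟨by simp, ih.map List.cons_injective⟩

/-- The number of initial segments of `w` that belong to `K`, as the cardinality of a set. -/
theorem ncard_inits (K : Language α) (w : List α) :
    Set.ncard {v : List α | v <+: w ∧ v ∈ K} = pcount K w := by
  have e : {v : List α | v <+: w ∧ v ∈ K} =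
      ↑((w.inits.filter (fun v => decide (v ∈ K))).toFinset) := by
    ext v
    simp only [Set.mem_ofPred_eq, Finset.mem_coe, List.mem_toFinset, List.mem_filter,
      List.mem_inits, decide_eq_true_eq]
  rw [e, Set.ncard_coe_finset, List.toFinset_card_of_nodup ((nodup_inits w).filter _)]
  unfold pcount
  rw [List.countP_eq_length_filter]

/-- Counting modulo `n` the initial segments in star-free languages: for a finite family of
star-free languages, every condition on the numbers, modulo `n`, of initial segments of a word
lying in the languages of the family defines a language of generalized star height at most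
one. -/
theorem gsh_starFree_count (α : Type) [Fintype α] (ι : Type) [Fintype ι] (K : ι → GRegex α)
    (hK : ∀ i, (K i).starHeight = 0) (n : ℕ) (hn : 0 < n) (P : Set (ι → ZMod n)) :
    GSH 1 (langOf (fun w : List α => (fun i =>
      ((Set.ncard {v : List α | v <+: w ∧ v ∈ (K i).lang} : ℕ) : ZMod n)) ∈ P)) := by
  have instN : NeZero n := ⟨hn.ne'⟩
  have h1 : Good (fun (w : List α) (i : ι) => ((pcount (K i).lang w : ℕ) : ZMod n)) :=
    Good.pi (fun i => good_pcount (cfrec_of_starFree (K i) (hK i)) n)
  have h := (h1.comp (fun y => decide (y ∈ P))) true
  refine h.congr (fun w => ?_)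
  rw [mem_langOf, mem_langOf, decide_eq_true_eq]
  have e : (fun i => ((Set.ncard {v : List α | v <+: w ∧ v ∈ (K i).lang} : ℕ) : ZMod n)) =
      (fun i => ((pcount (K i).lang w : ℕ) : ZMod n)) := by
    funext i
    rw [ncard_inits]
  rw [e]

end Vale.Agent.Lib.P329
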