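import Vale.Agent.Lib.P329.Cascade

namespace Vale.Agent.Lib.P329

open Classical

variable {α : Type}

/-- An automaton in which every letter either fixes the state or strictly increases a rank
is counter-free. -/
theorem counterFree_of_rank {Q : Type} (δ : Q → α → Q) (ρ : Q → ℕ)
    (h : ∀ q a, δ q a = q ∨ ρ q < ρ (δ q a)) : CounterFree δ := by
  have key : ∀ (w : List α) (q : Q), run δ q w = q ∨ ρ q < ρ (run δ q w) := by
    intro w
    induction w with
    | nil =>
      intro q
      exact Or.inl rfl
    | cons a w ih =>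
      intro q
      rw [run_cons]
      rcases h q a with h1 | h1
      · rw [h1]
        exact ih q
      · right
        rcases ih (δ q a) with h2 | h2
        · rw [h2]
          exact h1
        · exact lt_trans h1 h2
  intro q u m hm hrun
  rcases key u q with h1 | h1
  · exact h1
  · exfalso
    obtain ⟨m', rfl⟩ : ∃ m', m = m' + 1 := ⟨m - 1, by omega⟩
    rw [pw_succ, run_append] at hrun
    rcases key (pw u m') (run δ q u) with h2 | h2
    · rw [h2] at hrun
      rw [hrun] at h1
      exact lt_irrefl _ h1
    · rw [hrun] at h2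
      exact lt_irrefl _ (lt_trans h1 h2)

theorem CFRec.zero : CFRec (0 : Language α) :=
  ⟨Unit, inferInstance, fun _ _ => (), (), ∅,
    counterFree_of_rank _ (fun _ => 0) (fun _ _ => Or.inl rfl),
    fun w => ⟨fun h => absurd h (Language.notMem_zero w),
      fun h => ((Set.mem_empty_iff_false _).mp h).elim⟩⟩

theorem CFRec.one : CFRec (1 : Language α) := by
  have hf : ∀ w : List α, run (fun (_ : Bool) (_ : α) => false) false w = false := by
    intro w
    induction w with
    | nil => rfl
    | cons a w ih => exact ih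
  refine ⟨Bool, inferInstance, fun _ _ => false, true, {true},
    counterFree_of_rank _ (fun b => if b then 0 else 1) ?_, ?_⟩
  · intro q a
    cases q
    · exact Or.inl rfl
    · right
      simp
  · intro w
    cases w with
    | nil =>
      exact ⟨fun _ => rfl, fun _ => (Language.mem_one _).mpr rfl⟩
    | cons a w =>
      constructor
      · intro h
        exact absurd ((Language.mem_one _).mp h) (by simp)
      · intro h
        rw [run_cons, hf] at h
        exact absurd h (by simp)

/-- The transition function of the three-state automaton accepting the one-letter word `a`. -/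
noncomputable def letterδ (a : α) : Option Bool → α → Option Bool
  | none, b => some (decide (b = a))
  | some _, _ => some false

theorem CFRec.letter (a : α) : CFRec ({[a]} : Language α) := by
  have hs : ∀ w : List α, run (letterδ a) (some false) w = some false := by
    intro w
    induction w with
    | nil => rfl
    | cons b w ih => exact ih
  refine ⟨Option Bool, inferInstance, letterδ a, none, {some true},
    counterFree_of_rank _ (fun o => match o with
      | none => 0
      | some true => 1
      | some false => 2) ?_, ?_⟩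
  · intro q b
    rcases q with _ | q
    · right
      show 0 < _
      unfold letterδ
      by_cases hb : b = a
      · simp [hb]
      · simp [hb]
    · cases q
      · exact Or.inl rfl
      · right
        show 1 < 2
        omega
  · intro w
    rw [mem_singleton_lang]
    cases w with
    | nil =>
      constructor
      · intro h
        exact absurd h (by simp)
      · intro h
        exact absurd h (by simp [run_nil])
    | cons b w =>
      cases w with
      | nil =>
        rw [run_cons, run_nil]
        show [b] = [a] ↔ some (decide (b = a)) ∈ ({some true} : Set (Option Bool))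
        constructor
        · intro h
          have hb : b = a := by simpa using h
          simp [hb]
        · intro h
          have hb : b = a := by simpa using h
          rw [hb]
      | cons c w =>
        constructor
        · intro h
          exact absurd h (by simp)
        · intro h
          rw [run_cons, run_cons] at h
          have e : letterδ a (letterδ a none b) c = some false := rfl
          rw [e, hs] at h
          exact absurd h (by simp)

theorem CFRec.compl {L : Language α} (h : CFRec L) : CFRec Lᶜ := by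
  obtain ⟨Q, hQ, δ, q0, F, hcf, hrec⟩ := h
  exact ⟨Q, hQ, δ, q0, Fᶜ, hcf, fun w => by
    rw [mem_compl_lang, hrec w]
    exact Iff.rfl⟩

theorem run_prod {Q1 Q2 : Type} (δ1 : Q1 → α → Q1) (δ2 : Q2 → α → Q2) :
    ∀ (w : List α) (q1 : Q1) (q2 : Q2),
    run (fun (p : Q1 × Q2) a => (δ1 p.1 a, δ2 p.2 a)) (q1, q2) w =
      (run δ1 q1 w, run δ2 q2 w) := by
  intro w
  induction w with
  | nil =>
    intro q1 q2
    rfl
  | cons a w ih =>
    intro q1 q2
    rw [run_cons, run_cons, run_cons]
    exact ih (δ1 q1 a) (δ2 q2 a)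

theorem CFRec.add {L M : Language α} (hL : CFRec L) (hM : CFRec M) : CFRec (L + M) := by
  obtain ⟨Q1, hQ1, δ1, q1, F1, hcf1, hrec1⟩ := hL
  obtain ⟨Q2, hQ2, δ2, q2, F2, hcf2, hrec2⟩ := hM
  refine ⟨Q1 × Q2, inferInstance, fun p a => (δ1 p.1 a, δ2 p.2 a), (q1, q2),
    {p | p.1 ∈ F1 ∨ p.2 ∈ F2}, ?_, ?_⟩
  · rintro ⟨p1, p2⟩ u m hm hrun
    rw [run_prod] at hrun ⊢
    have h1 := congrArg Prod.fst hrun
    have h2 := congrArg Prod.snd hrun
    exact Prod.ext (hcf1 p1 u m hm h1) (hcf2 p2 u m hm h2)
  · intro w
    rw [Language.mem_add, hrec1 w, hrec2 w, run_prod]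
    exact Iff.rfl

/-- In a finite counter-free automaton the powers of a word eventually act in the same
way. -/
theorem aperiodic_of_counterFree {Q : Type} [Finite Q] (δ : Q → α → Q) (hcf : CounterFree δ)
    (u : List α) :
    ∃ N, ∀ s : Q, ∀ k, N ≤ k → run δ s (pw u (k + 1)) = run δ s (pw u k) := by
  have hs : ∀ s : Q, ∃ i, ∀ k, i ≤ k → run δ s (pw u (k + 1)) = run δ s (pw u k) := by
    intro s
    have h1 : ∃ i d, 0 < d ∧ run δ s (pw u (i + d)) = run δ s (pw u i) := by
      obtain ⟨i, j, hij, heq⟩ :=
        Finite.exists_ne_map_eq_of_infinite (fun k : ℕ => run δ s (pw u k))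
      rcases lt_or_gt_of_ne hij with h | h
      · refine ⟨i, j - i, by omega, ?_⟩
        have e : i + (j - i) = j := by omega
        rw [e]
        exact heq.symm
      · refine ⟨j, i - j, by omega, ?_⟩
        have e : j + (i - j) = i := by omega
        rw [e]
        exact heq
    obtain ⟨i, d, hd, heq⟩ := h1
    rw [pw_add, run_append] at heq
    have h2 := hcf _ u d hd heq
    have hj : ∀ j, run δ s (pw u (i + j + 1)) = run δ s (pw u (i + j)) := by
      intro j
      induction j with
      | zero =>
        show run δ s (pw u (i + 1)) = run δ s (pw u i)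
        rw [pw_succ', run_append, h2]
      | succ j ih =>
        have e : i + (j + 1) = i + j + 1 := by omega
        rw [e, pw_succ' u (i + j + 1), run_append, ih, ← run_append, ← pw_succ']
        exact ih
    refine ⟨i, fun k hk => ?_⟩
    have e : k = i + (k - i) := by omega
    rw [e]
    exact hj (k - i)
  choose Ns hNs using hs
  have instQ : Fintype Q := Fintype.ofFinite Q
  refine ⟨∑ s, Ns s, fun s k hk => hNs s k (le_trans ?_ hk)⟩
  exact Finset.single_le_sum (f := Ns) (fun _ _ => Nat.zero_le _) (Finset.mem_univ s)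

section concat

variable {Q1 Q2 : Type} (δ1 : Q1 → α → Q1) (δ2 : Q2 → α → Q2) (F1 : Set Q1) (p0 : Q2)

/-- The automaton for a concatenation: the state of the first automaton together with the
set of states of the runs of the second automaton started at the accepting moments of the
first. -/
def mulδ (p : Q1 × Set Q2) (a : α) : Q1 × Set Q2 :=
  (δ1 p.1 a, {s | (∃ x ∈ p.2, δ2 x a = s) ∨ (δ1 p.1 a ∈ F1 ∧ s = p0)})

/-- The states of the runs of the second automaton started inside the word `w`. -/
def newT (q1 : Q1) (w : List α) : Set Q2 :=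
  {s | ∃ u v, w = u ++ v ∧ u ≠ [] ∧ run δ1 q1 u ∈ F1 ∧ run δ2 p0 v = s}

theorem mul_run : ∀ (w : List α) (q1 : Q1) (S : Set Q2),
    run (mulδ δ1 δ2 F1 p0) (q1, S) w =
      (run δ1 q1 w, {s | (∃ x ∈ S, run δ2 x w = s) ∨ s ∈ newT δ1 δ2 F1 p0 q1 w}) := by
  intro w
  induction w with
  | nil =>
    intro q1 S
    rw [run_nil, run_nil]
    refine Prod.ext rfl (Set.ext (fun s => ?_))
    constructor
    · intro hs
      exact Or.inl ⟨s, hs, rfl⟩
    · rintro (⟨x, hx, rfl⟩ | ⟨u, v, h1, h2, _⟩)
      · exact hx
      · exfalso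
        apply h2
        have h3 := congrArg List.length h1
        rw [List.length_append, List.length_nil] at h3
        exact List.eq_nil_of_length_eq_zero (by omega)
  | cons a w ih =>
    intro q1 S
    rw [run_cons]
    have e : mulδ δ1 δ2 F1 p0 (q1, S) a =
        (δ1 q1 a, {s | (∃ x ∈ S, δ2 x a = s) ∨ (δ1 q1 a ∈ F1 ∧ s = p0)}) := rfl
    rw [e, ih, run_cons]
    refine Prod.ext rfl (Set.ext (fun s => ?_))
    constructor
    · rintro (⟨x, hx, rfl⟩ | ⟨u, v, h1, h2, h3, h4⟩)
      · rcases hx with ⟨x0, hx0, rfl⟩ | ⟨h5, rfl⟩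
        · exact Or.inl ⟨x0, hx0, rfl⟩
        · exact Or.inr ⟨[a], w, rfl, by simp, h5, rfl⟩
      · exact Or.inr ⟨a :: u, v, by rw [h1]; rfl, by simp, h3, h4⟩
    · rintro (⟨x, hx, rfl⟩ | ⟨u, v, h1, h2, h3, h4⟩)
      · exact Or.inl ⟨δ2 x a, Or.inl ⟨x, hx, rfl⟩, rfl⟩
      · cases u with
        | nil => exact absurd rfl h2
        | cons b u' =>
          rw [List.cons_append, List.cons.injEq] at h1
          obtain ⟨hab, hw⟩ := h1
          rw [← hab] at h3
          cases u' with
          | nil =>
            rw [List.nil_append] at hw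
            rw [← hw] at h4
            exact Or.inl ⟨p0, Or.inr ⟨h3, rfl⟩, h4⟩
          | cons c u'' =>
            exact Or.inr ⟨c :: u'', v, hw, by simp, h3, h4⟩

theorem mul_counterFree [Finite Q2] (hcf1 : CounterFree δ1) (hcf2 : CounterFree δ2) :
    CounterFree (mulδ δ1 δ2 F1 p0) := by
  rintro ⟨q1, S⟩ u m hm hrun
  have hfst : run δ1 q1 (pw u m) = q1 := by
    have h := congrArg Prod.fst hrun
    rw [mul_run] at h
    exact h
  have h1 : run δ1 q1 u = q1 := hcf1 q1 u m hm hfst
  have hF : ∀ (k : ℕ) (S' : Set Q2), run (mulδ δ1 δ2 F1 p0) (q1, S') (pw u k) =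
      (q1, {s | (∃ x ∈ S', run δ2 x (pw u k) = s) ∨
        (∃ j, j < k ∧ ∃ t ∈ newT δ1 δ2 F1 p0 q1 u, run δ2 t (pw u j) = s)}) := by
    intro k
    induction k with
    | zero =>
      intro S'
      rw [pw_zero, run_nil]
      refine Prod.ext rfl (Set.ext (fun s => ?_))
      constructor
      · intro hs
        exact Or.inl ⟨s, hs, rfl⟩
      · rintro (⟨x, hx, rfl⟩ | ⟨j, hj, _⟩)
        · exact hx
        · exact absurd hj (Nat.not_lt_zero j)
    | succ k ih =>
      intro S'
      rw [pw_succ', run_append, ih, mul_run, h1]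
      refine Prod.ext rfl (Set.ext (fun s => ?_))
      constructor
      · rintro (⟨x, hx, rfl⟩ | hs)
        · rcases hx with ⟨x0, hx0, rfl⟩ | ⟨j, hj, t, ht, rfl⟩
          · exact Or.inl ⟨x0, hx0, by rw [run_append]⟩
          · exact Or.inr ⟨j + 1, by omega, t, ht, by rw [pw_succ', run_append]⟩
        · exact Or.inr ⟨0, by omega, s, hs, rfl⟩
      · rintro (⟨x, hx, rfl⟩ | ⟨j, hj, t, ht, rfl⟩)
        · exact Or.inl ⟨run δ2 x (pw u k), Or.inl ⟨x, hx, rfl⟩, by rw [run_append]⟩
        · cases j with
          | zero => exact Or.inr ht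
          | succ j' =>
            exact Or.inl ⟨run δ2 t (pw u j'), Or.inr ⟨j', by omega, t, ht, rfl⟩,
              by rw [pw_succ', run_append]⟩
  have hmult : ∀ i, run (mulδ δ1 δ2 F1 p0) (q1, S) (pw u (m * i)) = (q1, S) := by
    intro i
    induction i with
    | zero => rfl
    | succ i ih =>
      have e : m * (i + 1) = m + m * i := by ring
      rw [e, pw_add, run_append, hrun, ih]
  obtain ⟨N, hN⟩ := aperiodic_of_counterFree δ2 hcf2 u
  have hk1 : N + 1 ≤ m * (N + 1) := Nat.le_mul_of_pos_left (N + 1) hm
  obtain ⟨k, hk⟩ : ∃ k, k = m * (N + 1) := ⟨_, rfl⟩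
  rw [← hk] at hk1
  have hSk := hmult (N + 1)
  rw [← hk, hF] at hSk
  have hS : ∀ s, s ∈ S ↔ ((∃ x ∈ S, run δ2 x (pw u k) = s) ∨
      (∃ j, j < k ∧ ∃ t ∈ newT δ1 δ2 F1 p0 q1 u, run δ2 t (pw u j) = s)) := by
    intro s
    have h2 := congrArg Prod.snd hSk
    have h3 : {s | (∃ x ∈ S, run δ2 x (pw u k) = s) ∨
        (∃ j, j < k ∧ ∃ t ∈ newT δ1 δ2 F1 p0 q1 u, run δ2 t (pw u j) = s)} = S := h2
    rw [← h3]
    constructor
    · intro h
      rw [h3]
      exact h
    · intro h
      rw [h3] at h
      exact h
  rw [mul_run, h1]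
  refine Prod.ext rfl (Set.ext (fun s => ?_))
  constructor
  · rintro (⟨x, hx, rfl⟩ | hs)
    · rcases (hS x).mp hx with ⟨x', hx', rfl⟩ | ⟨j, hj, t, ht, rfl⟩
      · refine (hS _).mpr (Or.inl ⟨x', hx', ?_⟩)
        rw [← run_append, ← pw_succ', hN x' k (by omega)]
      · by_cases hj1 : j + 1 < k
        · refine (hS _).mpr (Or.inr ⟨j + 1, hj1, t, ht, ?_⟩)
          rw [pw_succ', run_append]
        · have hjN : N ≤ j := by omega
          rw [← run_append, ← pw_succ', hN t j hjN]
          exact hx
    · exact (hS s).mpr (Or.inr ⟨0, by omega, s, hs, rfl⟩)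
  · intro hs
    rcases (hS s).mp hs with ⟨x, hx, rfl⟩ | ⟨j, hj, t, ht, rfl⟩
    · refine Or.inl ⟨run δ2 x (pw u k), (hS _).mpr (Or.inl ⟨x, hx, rfl⟩), ?_⟩
      rw [← run_append, ← pw_succ', hN x k (by omega)]
    · cases j with
      | zero => exact Or.inr ht
      | succ j' =>
        refine Or.inl ⟨run δ2 t (pw u j'), (hS _).mpr (Or.inr ⟨j', by omega, t, ht, rfl⟩), ?_⟩
        rw [pw_succ', run_append]

end concat

theorem CFRec.mul {L M : Language α} (hL : CFRec L) (hM : CFRec M) : CFRec (L * M) := by
  obtain ⟨Q1, hQ1, δ1, q0, F1, hcf1, hrec1⟩ := hL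
  obtain ⟨Q2, hQ2, δ2, p0, F2, hcf2, hrec2⟩ := hM
  refine ⟨Q1 × Set Q2, inferInstance, mulδ δ1 δ2 F1 p0, (q0, {s | q0 ∈ F1 ∧ s = p0}),
    {p | ∃ s ∈ p.2, s ∈ F2}, mul_counterFree δ1 δ2 F1 p0 hcf1 hcf2, ?_⟩
  intro w
  rw [mul_run]
  constructor
  · intro hw
    obtain ⟨u, hu, v, hv, rfl⟩ := Language.mem_mul.mp hw
    rw [hrec1] at hu
    rw [hrec2] at hv
    by_cases hnil : u = []
    · subst hnil
      exact ⟨run δ2 p0 v, Or.inl ⟨p0, ⟨hu, rfl⟩, rfl⟩, hv⟩
    · exact ⟨run δ2 p0 v, Or.inr ⟨u, v, rfl, hnil, hu, rfl⟩, hv⟩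
  · rintro ⟨s, (⟨x, ⟨hq0, rfl⟩, rfl⟩ | ⟨u, v, rfl, _, hu, rfl⟩), hs⟩
    · have h1 : ([] : List α) ∈ L := (hrec1 []).mpr hq0
      have h2 : w ∈ M := (hrec2 w).mpr hs
      have h3 := Language.append_mem_mul h1 h2
      rw [List.nil_append] at h3
      exact h3
    · exact Language.append_mem_mul ((hrec1 u).mpr hu) ((hrec2 v).mpr hs)

/-- The easy direction of the theorem of Schutzenberger and McNaughton-Papert: every star-free
language is recognized by a finite counter-free deterministic automaton. -/
theorem cfrec_of_starFree : ∀ e : GRegex α, e.starHeight = 0 → CFRec e.lang := by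
  intro e
  induction e with
  | zero => intro _; exact CFRec.zero
  | one => intro _; exact CFRec.one
  | letter a => intro _; exact CFRec.letter a
  | plus P R ihP ihR =>
    intro h
    have h' : max P.starHeight R.starHeight = 0 := h
    have h1 : P.starHeight = 0 := by omega
    have h2 : R.starHeight = 0 := by omega
    exact (ihP h1).add (ihR h2)
  | times P R ihP ihR =>
    intro h
    have h' : max P.starHeight R.starHeight = 0 := h
    have h1 : P.starHeight = 0 := by omega
    have h2 : R.starHeight = 0 := by omega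
    exact (ihP h1).mul (ihR h2)
  | compl P ih =>
    intro h
    exact (ih h).compl
  | star P _ =>
    intro h
    have h' : P.starHeight + 1 = 0 := h
    omega

end Vale.Agent.Lib.P329
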