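import Vale.Agent.Lib.P329.Basic

namespace Vale.Agent.Lib.P329

variable {α β : Type}

/-- The product of the languages assigned by `σ` to the letters of the word `v`. -/
def sprod (σ : β → Language α) (v : List β) : Language α := (v.map σ).prod

/-- The image of the language `K` under the substitution `σ`. -/
def subst (σ : β → Language α) (K : Language β) : Language α :=
  langOf (fun w => ∃ v ∈ K, w ∈ sprod σ v)

theorem sprod_nil (σ : β → Language α) : sprod σ [] = 1 := rfl

theorem sprod_cons (σ : β → Language α) (t : β) (v : List β) :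
    sprod σ (t :: v) = σ t * sprod σ v := by
  unfold sprod
  rw [List.map_cons, List.prod_cons]

theorem sprod_append (σ : β → Language α) (v v' : List β) :
    sprod σ (v ++ v') = sprod σ v * sprod σ v' := by
  unfold sprod
  rw [List.map_append, List.prod_append]

theorem sprod_singleton (σ : β → Language α) (t : β) : sprod σ [t] = σ t := by
  rw [sprod_cons, sprod_nil, mul_one]

theorem mem_subst {σ : β → Language α} {K : Language β} {w : List α} :
    w ∈ subst σ K ↔ ∃ v ∈ K, w ∈ sprod σ v := Iff.rfl

theorem subst_zero (σ : β → Language α) : subst σ 0 = 0 := by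
  ext w
  rw [mem_subst]
  constructor
  · rintro ⟨v, hv, _⟩
    exact absurd hv (Language.notMem_zero v)
  · intro h
    exact absurd h (Language.notMem_zero w)

theorem subst_one (σ : β → Language α) : subst σ 1 = 1 := by
  ext w
  rw [mem_subst]
  constructor
  · rintro ⟨v, hv, hw⟩
    rw [Language.mem_one] at hv
    subst hv
    exact hw
  · intro h
    exact ⟨[], (Language.mem_one _).mpr rfl, h⟩

theorem subst_letter (σ : β → Language α) (t : β) : subst σ {[t]} = σ t := by
  ext w
  rw [mem_subst]
  constructor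
  · rintro ⟨v, hv, hw⟩
    rw [mem_singleton_lang] at hv
    subst hv
    rwa [sprod_singleton] at hw
  · intro h
    exact ⟨[t], rfl, by rwa [sprod_singleton]⟩

theorem subst_add (σ : β → Language α) (K M : Language β) :
    subst σ (K + M) = subst σ K + subst σ M := by
  ext w
  rw [Language.mem_add, mem_subst, mem_subst, mem_subst]
  constructor
  · rintro ⟨v, hv, hw⟩
    rcases (Language.mem_add _ _ _).mp hv with h | h
    · exact Or.inl ⟨v, h, hw⟩
    · exact Or.inr ⟨v, h, hw⟩
  · rintro (⟨v, hv, hw⟩ | ⟨v, hv, hw⟩)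
    · exact ⟨v, (Language.mem_add _ _ _).mpr (Or.inl hv), hw⟩
    · exact ⟨v, (Language.mem_add _ _ _).mpr (Or.inr hv), hw⟩

theorem subst_mul (σ : β → Language α) (K M : Language β) :
    subst σ (K * M) = subst σ K * subst σ M := by
  ext w
  rw [mem_subst]
  constructor
  · rintro ⟨v, hv, hw⟩
    obtain ⟨v1, h1, v2, h2, rfl⟩ := Language.mem_mul.mp hv
    rw [sprod_append] at hw
    obtain ⟨w1, hw1, w2, hw2, rfl⟩ := Language.mem_mul.mp hw
    exact Language.append_mem_mul ⟨v1, h1, hw1⟩ ⟨v2, h2, hw2⟩
  · intro hw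
    obtain ⟨w1, ⟨v1, h1, hw1⟩, w2, ⟨v2, h2, hw2⟩, rfl⟩ := Language.mem_mul.mp hw
    refine ⟨v1 ++ v2, Language.append_mem_mul h1 h2, ?_⟩
    rw [sprod_append]
    exact Language.append_mem_mul hw1 hw2

theorem cons_mem_kstar {L : Language α} {x y : List α} (hx : x ∈ L) (hy : y ∈ KStar.kstar L) :
    x ++ y ∈ KStar.kstar L := by
  have h : x ++ y ∈ L * KStar.kstar L := Language.append_mem_mul hx hy
  have h2 : L * KStar.kstar L ≤ KStar.kstar L := by
    conv_rhs => rw [← Language.one_add_self_mul_kstar_eq_kstar]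
    intro z hz
    exact (Language.mem_add _ _ _).mpr (Or.inr hz)
  exact h2 h

theorem subst_kstar (σ : β → Language α) (K : Language β) :
    subst σ (KStar.kstar K) = KStar.kstar (subst σ K) := by
  ext w
  rw [mem_subst]
  constructor
  · rintro ⟨v, hv, hw⟩
    obtain ⟨V, rfl, hV⟩ := Language.mem_kstar.mp hv
    clear hv
    induction V generalizing w with
    | nil =>
      rw [List.flatten_nil, sprod_nil, Language.mem_one] at hw
      subst hw
      exact Language.nil_mem_kstar _
    | cons y V ih =>
      rw [List.flatten_cons, sprod_append] at hw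
      obtain ⟨w1, hw1, w2, hw2, rfl⟩ := Language.mem_mul.mp hw
      exact cons_mem_kstar ⟨y, hV y (by simp), hw1⟩
        (ih w2 (fun z hz => hV z (List.mem_cons_of_mem _ hz)) hw2)
  · intro hw
    obtain ⟨W, rfl, hW⟩ := Language.mem_kstar.mp hw
    clear hw
    induction W with
    | nil =>
      exact ⟨[], Language.nil_mem_kstar _, by rw [List.flatten_nil, sprod_nil]; rfl⟩
    | cons y W ih =>
      obtain ⟨v, hv, hw⟩ := ih (fun z hz => hW z (List.mem_cons_of_mem _ hz))
      obtain ⟨v1, hv1, hw1⟩ := hW y (by simp)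
      refine ⟨v1 ++ v, cons_mem_kstar hv1 hv, ?_⟩
      rw [List.flatten_cons, sprod_append]
      exact Language.append_mem_mul hw1 hw

theorem subst_compl (σ : β → Language α)
    (hun : ∀ v v' w, w ∈ sprod σ v → w ∈ sprod σ v' → v = v') (K : Language β) :
    subst σ Kᶜ = subst σ ⊤ ⊓ (subst σ K)ᶜ := by
  ext w
  rw [Language.mem_inf, mem_compl_lang, mem_subst, mem_subst, mem_subst]
  constructor
  · rintro ⟨v, hv, hw⟩
    refine ⟨⟨v, mem_top_lang v, hw⟩, ?_⟩
    rintro ⟨v', hv', hw'⟩
    have := hun v v' w hw hw'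
    subst this
    exact hv hv'
  · rintro ⟨⟨v, _, hw⟩, hn⟩
    exact ⟨v, fun hv => hn ⟨v, hv, hw⟩, hw⟩

/-- Unambiguous star-free substitutions whose total image is star-free preserve generalized
star height. -/
theorem GSH.substE (σ : β → Language α) (hσ : ∀ t, GSH 0 (σ t)) (htop : GSH 0 (subst σ ⊤))
    (hun : ∀ v v' w, w ∈ sprod σ v → w ∈ sprod σ v' → v = v') (e : GRegex β) :
    GSH e.starHeight (subst σ e.lang) := by
  induction e with
  | zero => exact (subst_zero σ) ▸ GSH.zero _
  | one => exact (subst_one σ) ▸ GSH.one _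
  | letter t => exact (subst_letter σ t) ▸ (hσ t)
  | plus P Q ihP ihQ =>
    show GSH (max P.starHeight Q.starHeight) (subst σ (P.lang + Q.lang))
    rw [subst_add]
    exact (ihP.mono (le_max_left _ _)).add (ihQ.mono (le_max_right _ _))
  | times P Q ihP ihQ =>
    show GSH (max P.starHeight Q.starHeight) (subst σ (P.lang * Q.lang))
    rw [subst_mul]
    exact (ihP.mono (le_max_left _ _)).mul (ihQ.mono (le_max_right _ _))
  | compl P ih =>
    show GSH P.starHeight (subst σ (P.lang)ᶜ)
    rw [subst_compl σ hun]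
    exact (htop.mono (Nat.zero_le _)).inf ih.compl
  | star P ih =>
    show GSH (P.starHeight + 1) (subst σ (KStar.kstar P.lang))
    rw [subst_kstar]
    exact ih.kstar

theorem GSH.subst {k : ℕ} (σ : β → Language α) (hσ : ∀ t, GSH 0 (σ t))
    (htop : GSH 0 (subst σ ⊤))
    (hun : ∀ v v' w, w ∈ sprod σ v → w ∈ sprod σ v' → v = v') {K : Language β}
    (hK : GSH k K) : GSH k (subst σ K) := by
  obtain ⟨e, he, rfl⟩ := hK
  exact (GSH.substE σ hσ htop hun e).mono he

end Vale.Agent.Lib.P329
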