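import Vale.Agent.Lib.P329.ZoneGood

namespace Vale.Agent.Lib.P329

variable {α : Type} [DecidableEq α]

/-- Number of occurrences of `u` as a scattered subword of `w`. -/
def sub (u w : List α) : ℕ := (List.sublists w).count u

theorem sub_nil_left (w : List α) : sub [] w = 1 := by
  induction w using List.reverseRecOn with
  | nil => simp [sub]
  | append_singleton w c ih =>
    unfold sub at ih ⊢
    rw [List.sublists_concat, List.count_append, ih]
    have : List.count [] (List.map (fun x => x ++ [c]) w.sublists) = 0 := by
      rw [List.count_eq_zero]
      intro h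
      obtain ⟨x, _, hx⟩ := List.mem_map.mp h
      simp at hx
    rw [this]

theorem sub_snoc (u : List α) (d : α) (w : List α) (c : α) :
    sub (u ++ [d]) (w ++ [c]) = sub (u ++ [d]) w + (if c = d then sub u w else 0) := by
  unfold sub
  rw [List.sublists_concat, List.count_append]
  congr 1
  by_cases hcd : c = d
  · subst hcd
    rw [if_pos rfl]
    exact List.count_map_of_injective _ (fun x => x ++ [c])
      (fun x y h => List.append_cancel_right h) u
  · rw [if_neg hcd, List.count_eq_zero]
    intro h
    obtain ⟨x, _, hx⟩ := List.mem_map.mp h
    have := List.append_inj_right' hx rfl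
    simp at this
    exact hcd this

theorem sub_nil_right (u : List α) (hu : u ≠ []) : sub u [] = 0 := by
  unfold sub
  rw [List.sublists_nil, List.count_eq_zero]
  intro h
  simp at h
  exact hu h

theorem sub1_snoc (a : α) (w : List α) (c : α) :
    sub [a] (w ++ [c]) = sub [a] w + (if c = a then 1 else 0) := by
  have h := sub_snoc [] a w c
  rw [sub_nil_left] at h
  exact h

theorem sub2_snoc (a b : α) (w : List α) (c : α) :
    sub [a, b] (w ++ [c]) = sub [a, b] w + (if c = b then sub [a] w else 0) :=
  sub_snoc [a] b w c

theorem sub3_snoc (a b d : α) (w : List α) (c : α) :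
    sub [a, b, d] (w ++ [c]) = sub [a, b, d] w + (if c = d then sub [a, b] w else 0) :=
  sub_snoc [a, b] d w c

theorem count_snoc (a : α) (w : List α) (c : α) :
    (w ++ [c]).count a = w.count a + (if c = a then 1 else 0) := by
  rw [List.count_append, List.count_singleton]
  simp

theorem sc_snoc (S : Finset α) (w : List α) (c : α) :
    sc S (w ++ [c]) = sc S w + (if c ∈ S then 1 else 0) := by
  rw [sc_append, sc_cons]
  simp

theorem ws_snoc {A : Type} [AddCommMonoid A] (S : Finset α) (b : α) (g : ℕ → A) (w : List α)
    (c : α) : ws S b g 0 (w ++ [c]) = ws S b g 0 w + (if c = b then g (sc S w) else 0) := by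
  rw [ws_append, ws_cons]
  simp

theorem sc_single (a : α) (w : List α) : sc {a} w = w.count a := by
  rw [sc_eq_sum, Finset.sum_singleton]

theorem sc_pair {a c : α} (h : a ≠ c) (w : List α) : sc {a, c} w = w.count a + w.count c := by
  rw [sc_eq_sum, Finset.sum_pair h]

/-- Squaring. -/
def sq (x : ℕ) : ℕ := x * x

/-- Binomial coefficient `x choose 2`. -/
def ch2 (x : ℕ) : ℕ := x.choose 2

theorem sub1_eq (a : α) (w : List α) : sub [a] w = w.count a := by
  induction w using List.reverseRecOn with
  | nil => simp [sub_nil_right]
  | append_singleton w c ih => rw [sub1_snoc, count_snoc, ih]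

theorem sub2_ne {a b : α} (hab : a ≠ b) (w : List α) :
    sub [a, b] w = ws {a} b (fun x => x) 0 w := by
  induction w using List.reverseRecOn with
  | nil => simp [sub_nil_right]
  | append_singleton w c ih =>
    rw [sub2_snoc, ws_snoc, ih, sub1_eq, sc_single]

theorem sub2_eq (a : α) (w : List α) : sub [a, a] w = (w.count a).choose 2 := by
  induction w using List.reverseRecOn with
  | nil => simp [sub_nil_right]
  | append_singleton w c ih =>
    rw [sub2_snoc, count_snoc, ih, sub1_eq]
    by_cases hc : c = a
    · simp only [hc, if_true]
      rw [Nat.choose_succ_succ', Nat.choose_one_right]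
      ring
    · simp [hc]

theorem sub2_symm {a b : α} (hab : a ≠ b) (w : List α) :
    sub [a, b] w + sub [b, a] w = w.count a * w.count b := by
  induction w using List.reverseRecOn with
  | nil => simp [sub_nil_right]
  | append_singleton w c ih =>
    rw [sub2_snoc, sub2_snoc, count_snoc, count_snoc, sub1_eq, sub1_eq]
    by_cases hca : c = a
    · have hcb : c ≠ b := fun h => hab (hca.symm.trans h)
      simp only [hca, hcb, hab, if_true, if_false]
      linarith
    · by_cases hcb : c = b
      · simp only [hca, hcb, if_true, if_false]
        have hba : b ≠ a := fun h => hab h.symm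
        simp only [hba, if_false]
        linarith
      · simp only [hca, hcb, if_false]
        linarith

theorem sub3_abc {a b c : α} (hab : a ≠ b) (hbc : b ≠ c) (hac : a ≠ c) (w : List α) :
    2 * sub [a, b, c] w + ws {a, c} b sq 0 w =
      2 * (w.count c * ws {a} b (fun x => x) 0 w) + ws {a} b sq 0 w + ws {c} b sq 0 w := by
  induction w using List.reverseRecOn with
  | nil => simp [sub_nil_right]
  | append_singleton w x ih =>
    rw [sub3_snoc, ws_snoc, ws_snoc, ws_snoc, ws_snoc, count_snoc, sub2_ne hab, sc_single,
      sc_single, sc_pair hac]
    by_cases hxb : x = b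
    · have hxc : x ≠ c := fun h => hbc (hxb.symm.trans h)
      simp only [hxb, hxc, hbc, if_true, if_false, sq]
      nlinarith [ih]
    · by_cases hxc : x = c
      · simp only [hxb, hxc, if_true, if_false]
        have hcb : c ≠ b := fun h => hbc h.symm
        simp only [hcb, if_false]
        nlinarith [ih]
      · simp only [hxb, hxc, if_false]
        nlinarith [ih]

theorem sub3_aba {a b : α} (hab : a ≠ b) (w : List α) :
    sub [a, b, a] w + ws {a} b sq 0 w = w.count a * ws {a} b (fun x => x) 0 w := by
  induction w using List.reverseRecOn with
  | nil => simp [sub_nil_right]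
  | append_singleton w x ih =>
    rw [sub3_snoc, ws_snoc, ws_snoc, count_snoc, sub2_ne hab, sc_single]
    by_cases hxb : x = b
    · have hxa : x ≠ a := fun h => hab (h.symm.trans hxb)
      simp only [hxb, hxa, if_true, if_false, sq]
      have hba : b ≠ a := fun h => hab h.symm
      simp only [hba, if_false]
      nlinarith [ih]
    · by_cases hxa : x = a
      · simp only [hxb, hxa, if_true, if_false]
        simp only [hab, if_false]
        nlinarith [ih]
      · simp only [hxb, hxa, if_false]
        nlinarith [ih]

theorem sub3_aab {a b : α} (hab : a ≠ b) (w : List α) :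
    sub [a, a, b] w = ws {a} b ch2 0 w := by
  induction w using List.reverseRecOn with
  | nil => simp [sub_nil_right]
  | append_singleton w x ih =>
    rw [sub3_snoc, ws_snoc, ih, sub2_eq, sc_single]
    rfl

theorem sub3_abb {a b : α} (hab : a ≠ b) (w : List α) :
    sub [a, b, b] w + sub [b, a, b] w + sub [b, b, a] w =
      w.count a * (w.count b).choose 2 := by
  induction w using List.reverseRecOn with
  | nil => simp [sub_nil_right]
  | append_singleton w x ih =>
    rw [sub3_snoc, sub3_snoc, sub3_snoc, count_snoc, count_snoc, sub2_eq]
    have hba : b ≠ a := fun h => hab h.symm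
    have h2 := sub2_symm hab w
    by_cases hxb : x = b
    · have hxa : x ≠ a := fun h => hab (h.symm.trans hxb)
      simp only [hxb, if_true]
      simp only [hba, if_false]
      rw [Nat.choose_succ_succ', Nat.choose_one_right]
      nlinarith [ih, h2]
    · by_cases hxa : x = a
      · simp only [hxa, if_true]
        simp only [hab, if_false, add_zero]
        nlinarith [ih, h2]
      · simp only [hxb, hxa, if_false, add_zero]
        nlinarith [ih, h2]

theorem sub3_aaa (a : α) (w : List α) : sub [a, a, a] w = (w.count a).choose 3 := by
  induction w using List.reverseRecOn with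
  | nil => simp [sub_nil_right]
  | append_singleton w c ih =>
    rw [sub3_snoc, count_snoc, ih, sub2_eq]
    by_cases hc : c = a
    · simp only [hc, if_true]
      rw [Nat.choose_succ_succ' _ 2]
      ring
    · simp [hc]

end Vale.Agent.Lib.P329
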