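import Vale.Agent.Lib.P329.Subword

namespace Vale.Agent.Lib.P329

variable {α : Type} [DecidableEq α]

theorem Good.map2 {β γ δ : Type} [Fintype β] [Fintype γ] {f : List α → β} {g : List α → γ}
    (hf : Good f) (hg : Good g) (φ : β → γ → δ) : Good (fun w => φ (f w) (g w)) :=
  (hf.prod hg).comp (fun p => φ p.1 p.2)

theorem Good.zadd {K : ℕ} [NeZero K] {f g : List α → ZMod K} (hf : Good f) (hg : Good g) :
    Good (fun w => f w + g w) := hf.map2 hg (fun x y => x + y)

theorem Good.zsub {K : ℕ} [NeZero K] {f g : List α → ZMod K} (hf : Good f) (hg : Good g) :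
    Good (fun w => f w - g w) := hf.map2 hg (fun x y => x - y)

theorem Good.zmul {K : ℕ} [NeZero K] {f g : List α → ZMod K} (hf : Good f) (hg : Good g) :
    Good (fun w => f w * g w) := hf.map2 hg (fun x y => x * y)

theorem ws_natCast {R : Type} [Semiring R] (S : Finset α) (b : α) (g : ℕ → ℕ) (acc : ℕ)
    (w : List α) :
    ((ws S b g acc w : ℕ) : R) = ws S b (fun x => ((g x : ℕ) : R)) acc w := by
  induction w generalizing acc with
  | nil => simp
  | cons x l ih =>
    rw [ws_cons, ws_cons, Nat.cast_add, ih]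
    by_cases hx : x = b
    · simp [hx]
    · simp [hx]

theorem periodic_sum {A : Type} [AddCommGroup A] (n : ℕ) (hA : ∀ x : A, n • x = 0)
    (f h : ℕ → A) (p : ℕ) (hf : ∀ k, f (k + 1) = f k + h k) (hh : ∀ k, h (k + p) = h k) :
    ∀ k, f (k + p * n) = f k := by
  have hD : ∀ k, f (k + p) - f k = f p - f 0 := by
    intro k
    induction k with
    | zero => simp
    | succ k ih =>
      rw [show k + 1 + p = (k + p) + 1 by ring, hf, hf, hh, ← ih]
      abel
  have hT : ∀ t k, f (k + p * t) = f k + t • (f p - f 0) := by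
    intro t
    induction t with
    | zero => intro k; simp
    | succ t ih =>
      intro k
      rw [show k + p * (t + 1) = (k + p * t) + p by ring]
      have := hD (k + p * t)
      rw [sub_eq_iff_eq_add] at this
      rw [this, ih, succ_nsmul]
      abel
  intro k
  rw [hT n k, hA, add_zero]

theorem choose_periodic (n : ℕ) (i : ℕ) :
    ∀ k, (((k + n ^ i).choose i : ℕ) : ZMod n) = ((k.choose i : ℕ) : ZMod n) := by
  induction i with
  | zero => intro k; simp
  | succ i ih =>
    intro k
    rw [pow_succ]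
    refine periodic_sum n (fun x => ?_) (fun k => ((k.choose (i + 1) : ℕ) : ZMod n))
      (fun k => ((k.choose i : ℕ) : ZMod n)) (n ^ i) (fun k => ?_) ih k
    · rw [nsmul_eq_mul, ZMod.natCast_self, zero_mul]
    · rw [Nat.choose_succ_succ', Nat.cast_add, add_comm]

section patterns

variable [Fintype α] (n : ℕ) [NeZero n]

theorem good_ws_nat {S : Finset α} {b : α} (hb : b ∉ S) (g : ℕ → ℕ) (M : ℕ) (hM : 0 < M)
    (hg : ∀ x, ((g (x + M) : ℕ) : ZMod n) = ((g x : ℕ) : ZMod n)) :
    Good (fun w : List α => ((ws S b g 0 w : ℕ) : ZMod n)) := by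
  have h := good_ws hb hM n (fun x => ((g x : ℕ) : ZMod n)) hg
  exact h.congr (fun w => ws_natCast S b g 0 w)

theorem good_ws_id {S : Finset α} {b : α} (hb : b ∉ S) :
    Good (fun w : List α => ((ws S b (fun x => x) 0 w : ℕ) : ZMod n)) :=
  good_ws_nat n hb (fun x => x) n (Nat.pos_of_ne_zero (NeZero.ne n)) (fun x => by
    push_cast; simp)

theorem good_ws_sq {S : Finset α} {b : α} (hb : b ∉ S) :
    Good (fun w : List α => ((ws S b sq 0 w : ℕ) : ZMod n)) :=
  good_ws_nat n hb sq n (Nat.pos_of_ne_zero (NeZero.ne n)) (fun x => by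
    unfold sq; push_cast; simp)

theorem good_ws_ch2 {S : Finset α} {b : α} (hb : b ∉ S) :
    Good (fun w : List α => ((ws S b ch2 0 w : ℕ) : ZMod n)) :=
  good_ws_nat n hb ch2 (n ^ 2) (pow_pos (Nat.pos_of_ne_zero (NeZero.ne n)) 2)
    (fun x => choose_periodic n 2 x)

theorem good_sub0 : Good (fun w : List α => ((sub [] w : ℕ) : ZMod n)) :=
  (Good.const (1 : ZMod n)).congr (fun w => by rw [sub_nil_left]; simp)

theorem good_sub1 (a : α) : Good (fun w : List α => ((sub [a] w : ℕ) : ZMod n)) :=
  (good_count a n).congr (fun w => by rw [sub1_eq])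

theorem good_count_choose (a : α) (i : ℕ) :
    Good (fun w : List α => (((w.count a).choose i : ℕ) : ZMod n)) := by
  haveI : NeZero (n ^ i) := ⟨pow_ne_zero _ (NeZero.ne n)⟩
  have h := (good_count a (n ^ i)).comp (fun c => ((c.val.choose i : ℕ) : ZMod n))
  refine h.congr (fun w => ?_)
  rw [ZMod.val_natCast]
  exact (Function.Periodic.map_mod_nat (f := fun k => ((k.choose i : ℕ) : ZMod n))
    (choose_periodic n i) (w.count a)).symm

theorem good_sub2 (a b : α) : Good (fun w : List α => ((sub [a, b] w : ℕ) : ZMod n)) := by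
  by_cases hab : a = b
  · subst hab
    exact (good_count_choose n a 2).congr (fun w => by rw [sub2_eq])
  · have hb : b ∉ ({a} : Finset α) := by
      simp only [Finset.mem_singleton]
      exact fun h => hab h.symm
    exact (good_ws_id n hb).congr (fun w => by rw [sub2_ne hab])

theorem good_sub3_aba {a b : α} (hab : a ≠ b) :
    Good (fun w : List α => ((sub [a, b, a] w : ℕ) : ZMod n)) := by
  have hb : b ∉ ({a} : Finset α) := by
    simp only [Finset.mem_singleton]
    exact fun h => hab h.symm
  have h := ((good_count a n).zmul (good_ws_id n hb)).zsub (good_ws_sq n hb)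
  refine h.congr (fun w => ?_)
  have h1 := congrArg (fun t : ℕ => (t : ZMod n)) (sub3_aba hab w)
  simp only [Nat.cast_add, Nat.cast_mul] at h1
  rw [← h1]
  ring

theorem good_sub3_aab {a b : α} (hab : a ≠ b) :
    Good (fun w : List α => ((sub [a, a, b] w : ℕ) : ZMod n)) := by
  have hb : b ∉ ({a} : Finset α) := by
    simp only [Finset.mem_singleton]
    exact fun h => hab h.symm
  exact (good_ws_ch2 n hb).congr (fun w => by rw [sub3_aab hab])

theorem good_sub3_abb {a b : α} (hab : a ≠ b) :
    Good (fun w : List α => ((sub [a, b, b] w : ℕ) : ZMod n)) := by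
  have hba : b ≠ a := fun h => hab h.symm
  have h := (((good_count a n).zmul (good_count_choose n b 2)).zsub
    (good_sub3_aba n hba)).zsub (good_sub3_aab n hba)
  refine h.congr (fun w => ?_)
  have h1 := congrArg (fun t : ℕ => (t : ZMod n)) (sub3_abb hab w)
  simp only [Nat.cast_add, Nat.cast_mul] at h1
  rw [← h1]
  ring

theorem good_sub3_aaa (a : α) :
    Good (fun w : List α => ((sub [a, a, a] w : ℕ) : ZMod n)) :=
  (good_count_choose n a 3).congr (fun w => by rw [sub3_aaa])

omit [DecidableEq α] [Fintype α] [NeZero n] in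
theorem half_spec (hn : 0 < n) (X : ℕ) :
    (((((2 * X : ℕ) : ZMod (2 * n)).val / 2 : ℕ)) : ZMod n) = ((X : ℕ) : ZMod n) := by
  haveI : NeZero (2 * n) := ⟨by omega⟩
  rw [ZMod.val_natCast, Nat.mul_mod_mul_left, Nat.mul_div_cancel_left _ (by norm_num : 0 < 2),
    ZMod.natCast_mod]

theorem good_sub3_abc {a b c : α} (hab : a ≠ b) (hbc : b ≠ c) (hac : a ≠ c) :
    Good (fun w : List α => ((sub [a, b, c] w : ℕ) : ZMod n)) := by
  have hn : 0 < n := Nat.pos_of_ne_zero (NeZero.ne n)
  haveI : NeZero (2 * n) := ⟨by omega⟩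
  have hba : b ∉ ({a} : Finset α) := by
    simp only [Finset.mem_singleton]
    exact fun h => hab h.symm
  have hbc' : b ∉ ({c} : Finset α) := by
    simp only [Finset.mem_singleton]
    exact hbc
  have hbac : b ∉ ({a, c} : Finset α) := by
    simp only [Finset.mem_insert, Finset.mem_singleton, not_or]
    exact ⟨fun h => hab h.symm, hbc⟩
  have h := ((((Good.const (2 : ZMod (2 * n))).zmul
    ((good_count c (2 * n)).zmul (good_ws_id (2 * n) hba))).zadd (good_ws_sq (2 * n) hba)).zadd
      (good_ws_sq (2 * n) hbc')).zsub (good_ws_sq (2 * n) hbac)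
  have h' := h.comp (fun z => (((z.val / 2 : ℕ)) : ZMod n))
  refine h'.congr (fun w => ?_)
  have h1 := congrArg (fun t : ℕ => (t : ZMod (2 * n))) (sub3_abc hab hbc hac w)
  simp only [Nat.cast_add, Nat.cast_mul] at h1
  have h2 : (2 : ZMod (2 * n)) * (((List.count c w : ℕ) : ZMod (2 * n)) *
      ((ws {a} b (fun x => x) 0 w : ℕ) : ZMod (2 * n))) + ((ws {a} b sq 0 w : ℕ) : ZMod (2 * n)) +
      ((ws {c} b sq 0 w : ℕ) : ZMod (2 * n)) - ((ws {a, c} b sq 0 w : ℕ) : ZMod (2 * n)) =
      (((2 * sub [a, b, c] w : ℕ)) : ZMod (2 * n)) := by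
    push_cast
    push_cast at h1
    linear_combination (-1 : ZMod (2 * n)) * h1
  rw [← half_spec n hn (sub [a, b, c] w), ← h2]

theorem good_sub (u : List α) (hu : u.length ≤ 3) :
    Good (fun w : List α => ((sub u w : ℕ) : ZMod n)) := by
  match u, hu with
  | [], _ => exact good_sub0 n
  | [a], _ => exact good_sub1 n a
  | [a, b], _ => exact good_sub2 n a b
  | [a, b, c], _ =>
    by_cases hab : a = b
    · subst hab
      by_cases hac : a = c
      · subst hac
        exact good_sub3_aaa n a
      · exact good_sub3_aab n hac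
    · by_cases hbc : b = c
      · subst hbc
        exact good_sub3_abb n hab
      · by_cases hac : a = c
        · subst hac
          exact good_sub3_aba n hab
        · exact good_sub3_abc n hab hbc hac
  | _ :: _ :: _ :: _ :: _, h =>
    simp only [List.length_cons] at h
    omega

end patterns

end Vale.Agent.Lib.P329
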