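import Vale.Agent.Lib.P329.Defs

namespace Vale.Agent.Lib.P329

/-- The word `w` tagged by the running products, starting from `h`: the letter at each position
is paired with `h` times the product of the images under `g` of the letters before it.  So
`tagged g 1 [x₁, ..., xₘ] = [(1, x₁), (g x₁, x₂), ..., (g x₁ * ... * g xₘ₋₁, xₘ)]`. -/
def tagged {α G : Type} [Mul G] (g : α → G) : G → List α → List (G × α)
  | _, [] => []
  | h, a :: w => (h, a) :: tagged g (h * g a) w

end Vale.Agent.Lib.P329
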