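import Vale.Agent.Lib.P329.Divisors
import Vale.Agent.Lib.P329.TagDef

namespace Vale.Agent.Lib.P329

open Classical

variable {α G : Type}

theorem tagged_nil [Mul G] (g : α → G) (h : G) : tagged g h [] = [] := rfl

theorem tagged_cons [Mul G] (g : α → G) (h : G) (a : α) (w : List α) :
    tagged g h (a :: w) = (h, a) :: tagged g (h * g a) w := rfl

theorem tagged_length [Mul G] (g : α → G) :
    ∀ (w : List α) (h : G), (tagged g h w).length = w.length
  | [], _ => rfl
  | a :: w, h => by
    rw [tagged_cons, List.length_cons, List.length_cons, tagged_length g w]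

theorem tagged_append [Monoid G] (g : α → G) : ∀ (u v : List α) (h : G),
    tagged g h (u ++ v) = tagged g h u ++ tagged g (h * (u.map g).prod) v
  | [], v, h => by
    rw [List.nil_append, tagged_nil, List.nil_append, List.map_nil, List.prod_nil, mul_one]
  | a :: u, v, h => by
    rw [List.cons_append, tagged_cons, tagged_cons, tagged_append g u v, List.map_cons,
      List.prod_cons, mul_assoc, List.cons_append]

theorem tagged_eq_nil [Mul G] (g : α → G) (h : G) (w : List α) :
    tagged g h w = [] ↔ w = [] := by
  cases w with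
  | nil => exact ⟨fun _ => rfl, fun _ => rfl⟩
  | cons a w =>
    rw [tagged_cons]
    exact ⟨fun e => absurd e (List.cons_ne_nil _ _), fun e => absurd e (List.cons_ne_nil _ _)⟩

theorem tagged_eq_singleton [Mul G] (g : α → G) (h h' : G) (a : α) (w : List α) :
    tagged g h w = [(h', a)] ↔ (w = [a] ∧ h = h') := by
  cases w with
  | nil =>
    rw [tagged_nil]
    exact ⟨fun e => absurd e.symm (List.cons_ne_nil _ _),
      fun e => absurd e.1.symm (List.cons_ne_nil _ _)⟩
  | cons b w =>
    rw [tagged_cons]
    constructor
    · intro e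
      have e1 := List.cons.inj e
      have e2 := (tagged_eq_nil g _ w).mp e1.2
      have e3 := Prod.mk.inj e1.1
      exact ⟨by rw [e2, e3.2], e3.1⟩
    · rintro ⟨e1, e2⟩
      have e3 := List.cons.inj e1
      rw [e3.1, e3.2, e2, tagged_nil]

theorem tagged_split [Monoid G] (g : α → G) (w : List α) (h : G) (u v : List (G × α))
    (e : tagged g h w = u ++ v) :
    ∃ w1 w2, w = w1 ++ w2 ∧ tagged g h w1 = u ∧ tagged g (h * (w1.map g).prod) w2 = v := by
  have hlen : u.length ≤ w.length := by
    have := congrArg List.length e
    rw [tagged_length, List.length_append] at this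
    omega
  have e1 : tagged g h (w.take u.length ++ w.drop u.length) = u ++ v := by
    rw [List.take_append_drop]
    exact e
  rw [tagged_append] at e1
  have hl : (tagged g h (w.take u.length)).length = u.length := by
    rw [tagged_length, List.length_take]
    omega
  have e2 := List.append_inj e1 hl
  exact ⟨w.take u.length, w.drop u.length, (List.take_append_drop _ _).symm, e2.1, e2.2⟩

/-- Star-free conditions on the tagged word: if all the fibres of the map sending a word to the
product of the images of its letters in the finite group `G` have generalized star height at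
most one, then so has the language of all words whose tagged word belongs to a given star-free
language over the alphabet `G × α`. -/
theorem gsh_tagged [Group G] [Fintype G] (g : α → G)
    (hg : Good (fun w : List α => (w.map g).prod)) (E : GRegex (G × α)) :
    E.starHeight = 0 → ∀ h : G, GSH 1 (langOf (fun w : List α => tagged g h w ∈ E.lang)) := by
  induction E with
  | zero =>
    intro _ h
    exact (GSH.zero 1).congr (fun w => Iff.rfl)
  | one =>
    intro _ h
    refine (GSH.one 1).congr (fun w => ?_)
    rw [mem_langOf]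
    show tagged g h w ∈ (1 : Language (G × α)) ↔ w ∈ (1 : Language α)
    rw [Language.mem_one, Language.mem_one]
    exact tagged_eq_nil g h w
  | letter b =>
    intro _ h
    obtain ⟨h', a⟩ := b
    by_cases hh : h = h'
    · refine (GSH.letter 1 a).congr (fun w => ?_)
      rw [mem_langOf]
      show tagged g h w = [(h', a)] ↔ w = [a]
      rw [tagged_eq_singleton]
      exact ⟨fun e => e.1, fun e => ⟨e, hh⟩⟩
    · refine (GSH.zero 1).congr (fun w => ?_)
      rw [mem_langOf]
      show tagged g h w = [(h', a)] ↔ w ∈ (0 : Language α)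
      rw [tagged_eq_singleton]
      exact ⟨fun e => absurd e.2 hh, fun e => absurd e (Language.notMem_zero w)⟩
  | plus E1 E2 ih1 ih2 =>
    intro hE h
    have hE' : max E1.starHeight E2.starHeight = 0 := hE
    have h1 : E1.starHeight = 0 := Nat.le_zero.mp (le_trans (le_max_left _ _) (le_of_eq hE'))
    have h2 : E2.starHeight = 0 := Nat.le_zero.mp (le_trans (le_max_right _ _) (le_of_eq hE'))
    refine ((ih1 h1 h).add (ih2 h2 h)).congr (fun w => ?_)
    rw [mem_langOf, Language.mem_add, mem_langOf, mem_langOf]
    show tagged g h w ∈ E1.lang + E2.lang ↔ _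
    rw [Language.mem_add]
  | times E1 E2 ih1 ih2 =>
    intro hE h
    have hE' : max E1.starHeight E2.starHeight = 0 := hE
    have h1 : E1.starHeight = 0 := Nat.le_zero.mp (le_trans (le_max_left _ _) (le_of_eq hE'))
    have h2 : E2.starHeight = 0 := Nat.le_zero.mp (le_trans (le_max_right _ _) (le_of_eq hE'))
    have key := GSH.finsetUnion (k := 1) (Finset.univ : Finset G)
      (fun h' => (langOf (fun w : List α => tagged g h w ∈ E1.lang) ⊓
          langOf (fun w : List α => (w.map g).prod = h⁻¹ * h')) *
        langOf (fun w : List α => tagged g h' w ∈ E2.lang))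
      (fun h' _ => ((ih1 h1 h).inf (hg (h⁻¹ * h'))).mul (ih2 h2 h'))
    refine key.congr (fun w => ?_)
    rw [mem_langOf, mem_langOf]
    show tagged g h w ∈ E1.lang * E2.lang ↔ _
    rw [Language.mem_mul]
    constructor
    · rintro ⟨u, hu, v, hv, e⟩
      obtain ⟨w1, w2, rfl, e1, e2⟩ := tagged_split g w h u v e.symm
      refine ⟨h * (w1.map g).prod, Finset.mem_univ _, ?_⟩
      rw [Language.mem_mul]
      refine ⟨w1, ?_, w2, ?_, rfl⟩
      · rw [Language.mem_inf, mem_langOf, mem_langOf, e1, inv_mul_cancel_left]
        exact ⟨hu, rfl⟩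
      · rw [mem_langOf, e2]
        exact hv
    · rintro ⟨h', _, hw⟩
      rw [Language.mem_mul] at hw
      obtain ⟨w1, hw1, w2, hw2, rfl⟩ := hw
      rw [Language.mem_inf, mem_langOf, mem_langOf] at hw1
      rw [mem_langOf] at hw2
      refine ⟨tagged g h w1, hw1.1, tagged g h' w2, hw2, ?_⟩
      rw [tagged_append, hw1.2, mul_inv_cancel_left]
  | compl E ih =>
    intro hE h
    have h1 : E.starHeight = 0 := hE
    exact (ih h1 h).compl.congr (fun w => Iff.rfl)
  | star E _ =>
    intro hE
    exact absurd hE (Nat.succ_ne_zero _)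

/-- Divisors of finite direct products of groups of the three types, with star-free conditions
on the tagged word. -/
theorem gsh_divisor_tagged (α : Type) [Fintype α] (G : Type) [Group G]
    (ι : Type) [Fintype ι] (H : ι → Type) [∀ i, Group (H i)] [∀ i, Finite (H i)]
    (hH : ∀ i,
      (∃ _ : Group.IsNilpotent (H i), Group.nilpotencyClass (H i) ≤ 3) ∨
      (∃ (p : ℕ) (A : Subgroup (H i)), p.Prime ∧ A.Normal ∧ (∀ a ∈ A, ∀ b ∈ A, a * b = b * a) ∧
        (∀ x y : H i, x * y * x⁻¹ * y⁻¹ ∈ A) ∧ (∀ x : H i, x ^ p ∈ A)) ∨
      (∃ A : Subgroup (H i), A.Normal ∧ (∀ a ∈ A, a * a = 1) ∧ A.index ∣ 4))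
    (K : Subgroup (∀ i, H i)) (f : K →* G) (hf : Function.Surjective f) (g : α → G) :
    (∀ P : Set G, ∃ e : GRegex α, e.starHeight ≤ 1 ∧
      e.lang = {w : List α | (w.map g).prod ∈ P}) ∧
    (∀ E : GRegex (G × α), E.starHeight = 0 → ∃ e : GRegex α, e.starHeight ≤ 1 ∧
      e.lang = {w : List α | tagged g 1 w ∈ E.lang}) := by
  have hfin : Finite G := Finite.of_surjective f hf
  have instG : Fintype G := Fintype.ofFinite G
  have h1 : ∀ P : Set G, ∃ e : GRegex α, e.starHeight ≤ 1 ∧
      e.lang = {w : List α | (w.map g).prod ∈ P} :=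
    fun P => gsh_divisor α G ι H hH K f hf g P
  refine ⟨h1, fun E hE => ?_⟩
  have hg : Good (fun w : List α => (w.map g).prod) := fun v => h1 {v}
  exact gsh_tagged g hg E hE 1

end Vale.Agent.Lib.P329
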