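import Vale.Agent.Lib.P329.Renewal

namespace Vale.Agent.Lib.P329

open Classical

variable {α B : Type} [Group B]

/-- The zone of a word: the product of the weights of its letters. -/
def zone (wt : α → B) (w : List α) : B := (w.map wt).prod

theorem zone_nil (wt : α → B) : zone wt [] = 1 := rfl

theorem zone_cons (wt : α → B) (a : α) (w : List α) : zone wt (a :: w) = wt a * zone wt w := by
  unfold zone
  rw [List.map_cons, List.prod_cons]

theorem zone_append (wt : α → B) (u v : List α) : zone wt (u ++ v) = zone wt u * zone wt v := by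
  unfold zone
  rw [List.map_append, List.prod_append]

theorem zone_singleton (wt : α → B) (a : α) : zone wt [a] = wt a := by
  rw [zone_cons, zone_nil, mul_one]

theorem zone_snoc (wt : α → B) (w : List α) (a : α) : zone wt (w ++ [a]) = zone wt w * wt a := by
  rw [zone_append, zone_singleton]

theorem zone_pw (wt : α → B) (u : List α) (m : ℕ) : zone wt (pw u m) = zone wt u ^ m := by
  induction m with
  | zero => rw [pw_zero, zone_nil, pow_zero]
  | succ m ih => rw [pw_succ', zone_append, ih, pow_succ]

theorem zone_of_all_zero (wt : α → B) (u : List α) (h : ∀ a ∈ u, wt a = 1) : zone wt u = 1 := by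
  induction u with
  | nil => rfl
  | cons a u ih =>
    rw [zone_cons, h a (by simp), one_mul]
    exact ih (fun b hb => h b (by simp [hb]))

theorem mem_pw {u : List α} {x : α} : ∀ {i : ℕ}, x ∈ pw u i → x ∈ u := by
  intro i
  induction i with
  | zero =>
    intro h
    rw [pw_zero] at h
    exact absurd h (by simp)
  | succ i ih =>
    intro h
    rw [pw_succ] at h
    rcases List.mem_append.mp h with h | h
    · exact h
    · exact ih h

/-- The last letter of nontrivial weight, if there is one. -/
noncomputable def lnz (wt : α → B) (w : List α) : Option α :=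
  w.foldl (fun ℓ a => if wt a = 1 then ℓ else some a) none

theorem lnz_nil (wt : α → B) : lnz wt [] = none := rfl

theorem lnz_snoc (wt : α → B) (w : List α) (a : α) :
    lnz wt (w ++ [a]) = if wt a = 1 then lnz wt w else some a := by
  unfold lnz
  rw [List.foldl_append]
  rfl

/-- The walk automaton with reset zone `s`: the state is the current zone together with the
last letter of nontrivial weight, the latter being forgotten on arrival in the zone `s`. -/
noncomputable def wδ (wt : α → B) (s : B) (q : B × Option α) (a : α) : B × Option α :=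
  if wt a = 1 then q else if q.1 * wt a = s then (s, none) else (q.1 * wt a, some a)

/-- The events of the walk automaton: the arrivals in the zone `s` that are not excluded by
`bg`, and the letters of trivial weight satisfying `ZT` read in the zone `s`. -/
def wT (wt : α → B) (s : B) (bg : Option α → α → Prop) (ZT : α → Prop) (q : B × Option α)
    (a : α) : Prop :=
  (wt a ≠ 1 ∧ q.1 * wt a = s ∧ ¬ bg q.2 a) ∨ (wt a = 1 ∧ q.1 = s ∧ q.2 = none ∧ ZT a)

theorem wδ_zero (wt : α → B) (s : B) (q : B × Option α) (a : α) (h : wt a = 1) :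
    wδ wt s q a = q := by
  unfold wδ
  rw [if_pos h]

theorem wδ_nonzero (wt : α → B) (s : B) (q : B × Option α) (a : α) (h : ¬ wt a = 1) :
    wδ wt s q a = if q.1 * wt a = s then (s, none) else (q.1 * wt a, some a) := by
  unfold wδ
  rw [if_neg h]

theorem wδ_fst (wt : α → B) (s : B) (q : B × Option α) (a : α) :
    (wδ wt s q a).1 = q.1 * wt a := by
  by_cases h1 : wt a = 1
  · rw [wδ_zero wt s q a h1, h1, mul_one]
  · rw [wδ_nonzero wt s q a h1]
    by_cases h2 : q.1 * wt a = s
    · rw [if_pos h2]
      exact h2.symm
    · rw [if_neg h2]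

theorem wrun_fst (wt : α → B) (s : B) : ∀ (w : List α) (q : B × Option α),
    (run (wδ wt s) q w).1 = q.1 * zone wt w := by
  intro w
  induction w with
  | nil =>
    intro q
    rw [run_nil, zone_nil, mul_one]
  | cons a w ih =>
    intro q
    rw [run_cons, ih, wδ_fst, zone_cons, mul_assoc]

theorem wrun_of_all_zero (wt : α → B) (s : B) : ∀ (u : List α), (∀ a ∈ u, wt a = 1) →
    ∀ q : B × Option α, run (wδ wt s) q u = q := by
  intro u
  induction u with
  | nil => intro _ q; rfl
  | cons a u ih =>
    intro h q
    rw [run_cons, wδ_zero wt s q a (h a (by simp))]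
    exact ih (fun b hb => h b (by simp [hb])) q

theorem wrun_eq_of_fst (wt : α → B) (s : B) (w : List α) (q q' : B × Option α)
    (h : q.1 = q'.1) (hnz : ∃ a ∈ w, wt a ≠ 1) :
    run (wδ wt s) q w = run (wδ wt s) q' w := by
  induction w using List.reverseRecOn with
  | nil =>
    obtain ⟨a, ha, _⟩ := hnz
    exact absurd ha (by simp)
  | append_singleton w a ih =>
    rw [run_snoc, run_snoc]
    by_cases h1 : wt a = 1
    · have hnz' : ∃ b ∈ w, wt b ≠ 1 := by
        obtain ⟨b, hb, hb1⟩ := hnz
        rcases List.mem_append.mp hb with hb | hb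
        · exact ⟨b, hb, hb1⟩
        · rw [List.mem_singleton] at hb
          rw [hb] at hb1
          exact absurd h1 hb1
      rw [wδ_zero wt s _ a h1, wδ_zero wt s _ a h1]
      exact ih hnz'
    · have e : (run (wδ wt s) q w).1 = (run (wδ wt s) q' w).1 := by
        rw [wrun_fst, wrun_fst, h]
      rw [wδ_nonzero wt s _ a h1, wδ_nonzero wt s _ a h1, e]

theorem wrun_snd_some (wt : α → B) (s : B) (w : List α) (q : B × Option α)
    (hnz : ∃ a ∈ w, wt a ≠ 1) (hs : q.1 * zone wt w ≠ s) :
    ∃ x ∈ w, wt x ≠ 1 ∧ (run (wδ wt s) q w).2 = some x := by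
  induction w using List.reverseRecOn with
  | nil =>
    obtain ⟨a, ha, _⟩ := hnz
    exact absurd ha (by simp)
  | append_singleton w a ih =>
    rw [run_snoc]
    by_cases h1 : wt a = 1
    · have hnz' : ∃ b ∈ w, wt b ≠ 1 := by
        obtain ⟨b, hb, hb1⟩ := hnz
        rcases List.mem_append.mp hb with hb | hb
        · exact ⟨b, hb, hb1⟩
        · rw [List.mem_singleton] at hb
          rw [hb] at hb1
          exact absurd h1 hb1
      have hs' : q.1 * zone wt w ≠ s := by
        rw [zone_snoc, h1, mul_one] at hs
        exact hs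
      obtain ⟨x, hx, hx1, hx2⟩ := ih hnz' hs'
      refine ⟨x, by simp [hx], hx1, ?_⟩
      rw [wδ_zero wt s _ a h1]
      exact hx2
    · refine ⟨a, by simp, h1, ?_⟩
      have h2 : ¬ (run (wδ wt s) q w).1 * wt a = s := by
        rw [wrun_fst, mul_assoc, ← zone_snoc]
        exact hs
      rw [wδ_nonzero wt s _ a h1, if_neg h2]

theorem wT_enter (wt : α → B) (s : B) (bg : Option α → α → Prop) (ZT : α → Prop)
    (q : B × Option α) (a : α) (h : wT wt s bg ZT q a) : wδ wt s q a = (s, none) := by
  rcases h with ⟨h1, h2, _⟩ | ⟨h1, h2, h3, _⟩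
  · rw [wδ_nonzero wt s q a h1, if_pos h2]
  · rw [wδ_zero wt s q a h1]
    exact Prod.ext h2 h3

theorem walk_counterFree (hB : ∀ c : B, c ≠ 1 → ∀ b : B, ∃ j : ℕ, c ^ j = b) (wt : α → B)
    (s : B) (bg : Option α → α → Prop) (ZT : α → Prop)
    (hbg : ∀ ℓ t t', bg ℓ t → ¬ bg (some t) t') :
    CounterFree (rem (wδ wt s) (wT wt s bg ZT)) := by
  intro q u m hm hrun
  cases q with
  | none => exact run_rem_none _ _ u
  | some q =>
    rw [run_rem_some] at hrun ⊢
    by_cases h0 : cnt (wδ wt s) (wT wt s bg ZT) q (pw u m) = 0
    · rw [if_pos h0] at hrun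
      have hq : run (wδ wt s) q (pw u m) = q := Option.some.inj hrun
      obtain ⟨m', rfl⟩ : ∃ m', m = m' + 1 := ⟨m - 1, by omega⟩
      have hu0 : cnt (wδ wt s) (wT wt s bg ZT) q u = 0 := by
        rw [pw_succ, cnt_append] at h0
        omega
      rw [if_pos hu0]
      congr 1
      by_cases hc : zone wt u = 1
      · by_cases hnz : ∃ a ∈ u, wt a ≠ 1
        · have hidem : ∀ q', run (wδ wt s) (run (wδ wt s) q' u) u = run (wδ wt s) q' u :=
            fun q' => wrun_eq_of_fst wt s u _ _ (by rw [wrun_fst, hc, mul_one]) hnz
          have hall : ∀ k, run (wδ wt s) q (pw u (k + 1)) = run (wδ wt s) q u := by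
            intro k
            induction k with
            | zero =>
              show run (wδ wt s) q (pw u 1) = run (wδ wt s) q u
              rw [pw_one]
            | succ k ih => rw [pw_succ', run_append, ih, hidem]
          rw [← hall m']
          exact hq
        · push Not at hnz
          exact wrun_of_all_zero wt s u hnz q
      · exfalso
        have hm1 : zone wt u ^ (m' + 1) = 1 := by
          have h1 := congrArg Prod.fst hq
          rw [wrun_fst, zone_pw] at h1
          exact mul_left_cancel (a := q.1) (by rw [h1, mul_one])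
        have hmult : ∀ j, cnt (wδ wt s) (wT wt s bg ZT) q (pw u ((m' + 1) * j)) = 0 ∧
            run (wδ wt s) q (pw u ((m' + 1) * j)) = q := by
          intro j
          induction j with
          | zero => exact ⟨rfl, rfl⟩
          | succ j ih =>
            have e : (m' + 1) * (j + 1) = (m' + 1) + (m' + 1) * j := by ring
            rw [e, pw_add, cnt_append, run_append, hq]
            exact ⟨by rw [h0, ih.1], ih.2⟩
        have hev : ∀ k, cnt (wδ wt s) (wT wt s bg ZT) q (pw u k) = 0 := by
          intro k
          have e : (m' + 1) * k = k + m' * k := by ring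
          have h1 := (hmult k).1
          rw [e, pw_add, cnt_append] at h1
          omega
        have hA : ∀ (v1 : List α) (x : α) (v2 : List α), u = v1 ++ [x] ++ v2 → wt x ≠ 1 →
            ∃ i, 1 ≤ i ∧ q.1 * zone wt (pw u i ++ v1) * wt x = s ∧
              bg (run (wδ wt s) q (pw u i ++ v1)).2 x := by
          intro v1 x v2 hu hx
          obtain ⟨j, hj⟩ := hB (zone wt u) hc (q.1⁻¹ * s * (zone wt v1 * wt x)⁻¹)
          have hzone : q.1 * zone wt (pw u (j + (m' + 1)) ++ v1) * wt x = s := by
            rw [zone_append, zone_pw, pow_add, hm1, mul_one, hj]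
            group
          refine ⟨j + (m' + 1), by omega, hzone, ?_⟩
          by_contra hnb
          have e : pw u (j + (m' + 1) + 1) = ((pw u (j + (m' + 1)) ++ v1) ++ [x]) ++ v2 := by
            rw [pw_succ']
            conv_lhs => arg 2; rw [hu]
            simp
          have h1 := hev (j + (m' + 1) + 1)
          rw [e, cnt_append, cnt_snoc] at h1
          have hTx : wT wt s bg ZT (run (wδ wt s) q (pw u (j + (m' + 1)) ++ v1)) x := by
            left
            refine ⟨hx, ?_, hnb⟩
            rw [wrun_fst]
            exact hzone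
          rw [if_pos hTx] at h1
          omega
        have hnz : ∃ y ∈ u, wt y ≠ 1 := by
          by_contra hno
          push Not at hno
          exact hc (zone_of_all_zero wt u hno)
        obtain ⟨y, hyu, hy⟩ := hnz
        obtain ⟨v1, v2, hu⟩ := List.append_of_mem hyu
        obtain ⟨i, hi, hzone, hbgy⟩ := hA v1 y v2 (by rw [hu]; simp) hy
        have hmem : ∃ x ∈ pw u i ++ v1, wt x ≠ 1 ∧
            (run (wδ wt s) q (pw u i ++ v1)).2 = some x := by
          apply wrun_snd_some wt s
          · refine ⟨y, ?_, hy⟩
            obtain ⟨i', rfl⟩ : ∃ i', i = i' + 1 := ⟨i - 1, by omega⟩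
            rw [pw_succ]
            simp [hyu]
          · intro h
            rw [h] at hzone
            exact hy (mul_left_cancel (a := s) (by rw [hzone, mul_one]))
        obtain ⟨x, hxmem, hx, hxs⟩ := hmem
        rw [hxs] at hbgy
        have hxu : x ∈ u := by
          rcases List.mem_append.mp hxmem with h | h
          · exact mem_pw h
          · rw [hu]
            simp [h]
        obtain ⟨v1', v2', hu'⟩ := List.append_of_mem hxu
        obtain ⟨i', _, _, hbgx⟩ := hA v1' x v2' (by rw [hu']; simp) hx
        exact hbg _ x y hbgx hbgy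
    · rw [if_neg h0] at hrun
      exact absurd hrun (by simp)

theorem wrun_init (wt : α → B) (s : B) (v : List α) :
    run (wδ wt s) (1, none) v = (zone wt v, if zone wt v = s then none else lnz wt v) := by
  induction v using List.reverseRecOn with
  | nil =>
    rw [run_nil, zone_nil, lnz_nil, ite_self]
  | append_singleton v a ih =>
    rw [run_snoc, ih, zone_snoc, lnz_snoc]
    by_cases h1 : wt a = 1
    · rw [wδ_zero wt s _ a h1, if_pos h1, h1, mul_one]
    · rw [wδ_nonzero wt s _ a h1, if_neg h1]
      by_cases h2 : zone wt v * wt a = s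
      · rw [if_pos h2, if_pos h2, h2]
      · rw [if_neg h2, if_neg h2]

/-- The walk counting theorem: for a walk on a finite group all of whose nontrivial elements
are generators, counting modulo `n` the arrivals in the zone `s` (except those excluded by
`bg`) together with the letters of trivial weight satisfying `ZT` read in the zone `s` is
good. -/
theorem walk_good [Fintype α] [Finite B] (hB : ∀ c : B, c ≠ 1 → ∀ b : B, ∃ j : ℕ, c ^ j = b)
    (wt : α → B) (s : B) (bg : Option α → α → Prop) (ZT : α → Prop)
    (hbg : ∀ ℓ t t', bg ℓ t → ¬ bg (some t) t') (n : ℕ) [NeZero n] :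
    Good (fun w => ((cntP (fun v a => (wt a ≠ 1 ∧ zone wt v * wt a = s ∧ ¬ bg (lnz wt v) a) ∨
      (wt a = 1 ∧ zone wt v = s ∧ ZT a)) w : ℕ) : ZMod n)) := by
  have h := renewal (wδ wt s) (wT wt s bg ZT) (s, none) (wT_enter wt s bg ZT)
    (walk_counterFree hB wt s bg ZT hbg) (1, none) n
  refine h.congr (fun w => ?_)
  rw [cnt_eq_cntP]
  congr 1
  apply cntP_congr
  intro v a
  rw [wrun_init]
  unfold wT
  constructor
  · rintro (⟨h1, h2, h3⟩ | ⟨h1, h2, h3⟩)
    · left
      have h5 : ¬ zone wt v = s := by
        intro h5
        rw [h5] at h2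
        exact h1 (mul_left_cancel (a := s) (by rw [h2, mul_one]))
      refine ⟨h1, h2, ?_⟩
      simpa [h5] using h3
    · right
      refine ⟨h1, h2, ?_, h3⟩
      simp [h2]
  · rintro (⟨h1, h2, h3⟩ | ⟨h1, h2, h3, h4⟩)
    · left
      have h5 : ¬ zone wt v = s := by
        intro h5
        rw [h5] at h2
        exact h1 (mul_left_cancel (a := s) (by rw [h2, mul_one]))
      refine ⟨h1, h2, ?_⟩
      simpa [h5] using h3
    · right
      exact ⟨h1, h2, h4⟩

end Vale.Agent.Lib.P329
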