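import Vale.Agent.Lib.P329.Walk
import Vale.Agent.Lib.P329.Class3Formula

namespace Vale.Agent.Lib.P329

open Classical

variable {α B : Type} [Group B]

theorem cntP_add (ev ev1 ev2 : List α → α → Prop) (h : ∀ v a, ev v a ↔ (ev1 v a ∨ ev2 v a))
    (hd : ∀ v a, ¬ (ev1 v a ∧ ev2 v a)) (w : List α) :
    cntP ev w = cntP ev1 w + cntP ev2 w := by
  induction w using List.reverseRecOn with
  | nil => rfl
  | append_singleton w a ih =>
    rw [cntP_snoc, cntP_snoc, cntP_snoc, ih]
    by_cases e1 : ev1 w a
    · have e2 : ¬ ev2 w a := fun e2 => hd w a ⟨e1, e2⟩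
      have e : ev w a := (h w a).mpr (Or.inl e1)
      rw [if_pos e, if_pos e1, if_neg e2]
      omega
    · by_cases e2 : ev2 w a
      · have e : ev w a := (h w a).mpr (Or.inr e2)
        rw [if_pos e, if_neg e1, if_pos e2]
        omega
      · have e : ¬ ev w a := fun e => ((h w a).mp e).elim e1 e2
        rw [if_neg e, if_neg e1, if_neg e2]
        omega

theorem cntP_false (ev : List α → α → Prop) (h : ∀ v a, ¬ ev v a) (w : List α) :
    cntP ev w = 0 := by
  induction w using List.reverseRecOn with
  | nil => rfl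
  | append_singleton w a ih => rw [cntP_snoc, ih, if_neg (h w a)]

theorem cntP_sum_letters [Fintype α] (ev : List α → α → Prop) (w : List α) :
    cntP ev w = ∑ t : α, cntP (fun v a => a = t ∧ ev v t) w := by
  induction w using List.reverseRecOn with
  | nil =>
    simp only [cntP_nil]
    rw [Finset.sum_const_zero]
  | append_singleton w a ih =>
    rw [cntP_snoc, ih]
    simp only [cntP_snoc]
    rw [Finset.sum_add_distrib]
    congr 1
    by_cases e : ev w a
    · rw [if_pos e, Finset.sum_eq_single a]
      · rw [if_pos ⟨rfl, e⟩]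
      · intro t _ ht
        rw [if_neg]
        rintro ⟨h1, _⟩
        exact ht h1.symm
      · intro h
        exact absurd (Finset.mem_univ a) h
    · rw [if_neg e]
      symm
      apply Finset.sum_eq_zero
      intro t _
      rw [if_neg]
      rintro ⟨h1, h2⟩
      rw [← h1] at h2
      exact e h2

theorem cntP_sum_zone [Fintype B] (wt : α → B) (ev : List α → α → Prop) (w : List α) :
    cntP ev w = ∑ b : B, cntP (fun v a => ev v a ∧ zone wt v = b) w := by
  induction w using List.reverseRecOn with
  | nil =>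
    simp only [cntP_nil]
    rw [Finset.sum_const_zero]
  | append_singleton w a ih =>
    rw [cntP_snoc, ih]
    simp only [cntP_snoc]
    rw [Finset.sum_add_distrib]
    congr 1
    by_cases e : ev w a
    · rw [if_pos e, Finset.sum_eq_single (zone wt w)]
      · rw [if_pos ⟨e, rfl⟩]
      · intro t _ ht
        rw [if_neg]
        rintro ⟨_, h1⟩
        exact ht h1.symm
      · intro h
        exact absurd (Finset.mem_univ _) h
    · rw [if_neg e]
      symm
      apply Finset.sum_eq_zero
      intro t _
      rw [if_neg]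
      rintro ⟨h1, _⟩
      exact e h1

theorem cntP_count (x : α) (w : List α) : cntP (fun _ a => a = x) w = w.count x := by
  induction w using List.reverseRecOn with
  | nil => rfl
  | append_singleton w a ih =>
    rw [cntP_snoc, ih, List.count_append, List.count_singleton]
    by_cases h : a = x
    · simp [h]
    · simp [h]

theorem Good.indicator {β : Type} {p : List α → Prop} [DecidablePred p]
    (hp : GSH 1 (langOf p)) (c d : β) :
    Good (fun w => if p w then c else d) := by
  intro v
  have key : ∀ w, w ∈ langOf (fun w => (if p w then c else d) = v) ↔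
      (if p w then c else d) = v := fun w => Iff.rfl
  by_cases hc : c = v
  · by_cases hd : d = v
    · refine (GSH.top 1).congr (fun w => ?_)
      rw [key]
      refine ⟨fun _ => mem_top_lang w, fun _ => ?_⟩
      by_cases hpw : p w
      · rw [if_pos hpw]
        exact hc
      · rw [if_neg hpw]
        exact hd
    · refine hp.congr (fun w => ?_)
      rw [key, mem_langOf]
      by_cases hpw : p w
      · rw [if_pos hpw]
        exact ⟨fun _ => hpw, fun _ => hc⟩
      · rw [if_neg hpw]
        exact ⟨fun h => absurd h hd, fun h => absurd h hpw⟩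
  · by_cases hd : d = v
    · refine hp.compl.congr (fun w => ?_)
      rw [key, mem_compl_lang, mem_langOf]
      by_cases hpw : p w
      · rw [if_pos hpw]
        exact ⟨fun h => absurd h hc, fun h => absurd hpw h⟩
      · rw [if_neg hpw]
        exact ⟨fun _ => hpw, fun _ => hd⟩
    · refine (GSH.zero 1).congr (fun w => ?_)
      rw [key]
      by_cases hpw : p w
      · rw [if_pos hpw]
        exact ⟨fun h => absurd h hc, fun h => absurd h (Language.notMem_zero w)⟩
      · rw [if_neg hpw]
        exact ⟨fun h => absurd h hd, fun h => absurd h (Language.notMem_zero w)⟩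

theorem Good.of_determined {β γ : Type} [Fintype β] {Ψ : List α → β} {f : List α → γ}
    (hΨ : Good Ψ) (h : ∀ w w', Ψ w = Ψ w' → f w = f w') : Good f := by
  intro v
  have h1 := (hΨ.comp (fun b => decide (∃ w', Ψ w' = b ∧ f w' = v))) true
  refine h1.congr (fun w => ?_)
  rw [mem_langOf, mem_langOf, decide_eq_true_eq]
  constructor
  · intro hw
    exact ⟨w, rfl, hw⟩
  · rintro ⟨w', h2, h3⟩
    rw [h w w' h2.symm]
    exact h3

theorem good_cntP_letter [Fintype α] (x : α) (K : ℕ) [NeZero K] :
    Good (fun w : List α => ((cntP (fun _ a => a = x) w : ℕ) : ZMod K)) := by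
  refine (good_count x K).congr (fun w => ?_)
  rw [cntP_count]

/-- The zone function of a walk on a finite commutative group is good. -/
theorem good_bzone [Fintype α] [Finite B] (hcomm : ∀ a b : B, a * b = b * a) (wt : α → B) :
    Good (zone wt) := by
  let cg : CommGroup B := { (inferInstance : Group B) with mul_comm := hcomm }
  have hnil : Group.IsNilpotent B := @CommGroup.isNilpotent B cg
  have hcl : Group.nilpotencyClass B ≤ 3 :=
    le_trans (@CommGroup.nilpotencyClass_le_one B cg) (by norm_num)
  intro r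
  exact gsh_nil3 hcl wt {r}

section walk

variable [Fintype α] [Finite B]

theorem comm_of_gen (hB : ∀ c : B, c ≠ 1 → ∀ b : B, ∃ j : ℕ, c ^ j = b) (a b : B) :
    a * b = b * a := by
  by_cases ha : a = 1
  · rw [ha, one_mul, mul_one]
  · obtain ⟨j, rfl⟩ := hB a ha b
    rw [← pow_succ', ← pow_succ]

theorem good_arr (hB : ∀ c : B, c ≠ 1 → ∀ b : B, ∃ j : ℕ, c ^ j = b) (wt : α → B) (s : B)
    (M : ℕ) [NeZero M] :
    Good (fun w => ((cntP (fun v a => wt a ≠ 1 ∧ zone wt v * wt a = s) w : ℕ) : ZMod M)) := by
  have h := walk_good hB wt s (fun _ _ => False) (fun _ => False) (fun _ _ _ h => h.elim) M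
  refine h.congr (fun w => ?_)
  congr 1
  apply cntP_congr
  intro v a
  constructor
  · rintro ⟨h1, h2⟩
    exact Or.inl ⟨h1, h2, fun h => h⟩
  · rintro (⟨h1, h2, _⟩ | ⟨_, _, h3⟩)
    · exact ⟨h1, h2⟩
    · exact h3.elim

theorem good_ex (hB : ∀ c : B, c ≠ 1 → ∀ b : B, ∃ j : ℕ, c ^ j = b) (wt : α → B) (s : B)
    (bg : Option α → α → Prop) (hbg : ∀ ℓ t t', bg ℓ t → ¬ bg (some t) t') (M : ℕ) [NeZero M] :
    Good (fun w => ((cntP (fun v a => wt a ≠ 1 ∧ zone wt v * wt a = s ∧ bg (lnz wt v) a) w : ℕ) :
      ZMod M)) := by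
  have h1 := good_arr hB wt s M
  have h2 := walk_good hB wt s bg (fun _ => False) hbg M
  refine (h1.zsub h2).congr (fun w => ?_)
  have e := cntP_add (fun v a => wt a ≠ 1 ∧ zone wt v * wt a = s)
    (fun v a => wt a ≠ 1 ∧ zone wt v * wt a = s ∧ bg (lnz wt v) a)
    (fun v a => (wt a ≠ 1 ∧ zone wt v * wt a = s ∧ ¬ bg (lnz wt v) a) ∨
      (wt a = 1 ∧ zone wt v = s ∧ False))
    (fun v a => by
      constructor
      · rintro ⟨h1, h2⟩
        by_cases h3 : bg (lnz wt v) a
        · exact Or.inl ⟨h1, h2, h3⟩
        · exact Or.inr (Or.inl ⟨h1, h2, h3⟩)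
      · rintro (⟨h1, h2, _⟩ | ⟨h1, h2, _⟩ | ⟨_, _, h3⟩)
        · exact ⟨h1, h2⟩
        · exact ⟨h1, h2⟩
        · exact h3.elim)
    (fun v a => by
      rintro ⟨⟨_, _, h3⟩, (⟨_, _, h4⟩ | ⟨_, _, h5⟩)⟩
      · exact h4 h3
      · exact h5) w
  rw [e]
  push_cast
  ring

theorem good_N_zero (hB : ∀ c : B, c ≠ 1 → ∀ b : B, ∃ j : ℕ, c ^ j = b) (wt : α → B) (x : α)
    (hx : wt x = 1) (r : B) (M : ℕ) [NeZero M] :
    Good (fun w => ((cntP (fun v a => a = x ∧ zone wt v = r) w : ℕ) : ZMod M)) := by
  have h1 := good_arr hB wt r M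
  have h2 := walk_good hB wt r (fun _ _ => False) (fun a => a = x) (fun _ _ _ h => h.elim) M
  refine (h2.zsub h1).congr (fun w => ?_)
  have e := cntP_add
    (fun v a => (wt a ≠ 1 ∧ zone wt v * wt a = r ∧ ¬ False) ∨ (wt a = 1 ∧ zone wt v = r ∧ a = x))
    (fun v a => wt a ≠ 1 ∧ zone wt v * wt a = r)
    (fun v a => a = x ∧ zone wt v = r)
    (fun v a => by
      constructor
      · rintro (⟨h1, h2, _⟩ | ⟨h1, h2, h3⟩)
        · exact Or.inl ⟨h1, h2⟩
        · exact Or.inr ⟨h3, h2⟩
      · rintro (⟨h1, h2⟩ | ⟨h1, h2⟩)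
        · exact Or.inl ⟨h1, h2, fun h => h⟩
        · exact Or.inr ⟨by rw [h1]; exact hx, h2, h1⟩)
    (fun v a => by
      rintro ⟨⟨h1, _⟩, ⟨h2, _⟩⟩
      rw [h2] at h1
      exact h1 hx) w
  rw [e]
  push_cast
  ring

theorem lnz_append_zero (wt : α → B) (u t : List α) (ht : ∀ a ∈ t, wt a = 1) :
    lnz wt (u ++ t) = lnz wt u := by
  induction t using List.reverseRecOn with
  | nil => rw [List.append_nil]
  | append_singleton t a ih =>
    rw [← List.append_assoc, lnz_snoc, if_pos (ht a (by simp))]
    exact ih (fun b hb => ht b (by simp [hb]))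

theorem gsh_lnz (wt : α → B) (x : α) (hx : wt x ≠ 1) :
    GSH 0 (langOf (fun w => lnz wt w = some x)) := by
  have h := ((GSH.top (α := α) 0).mul (GSH.letter 0 x)).mul
    (GSH.lettersStar 0 (fun a => wt a = 1))
  refine h.congr (fun w => ?_)
  rw [mem_langOf]
  constructor
  · intro hw
    induction w using List.reverseRecOn with
    | nil =>
      rw [lnz_nil] at hw
      exact absurd hw (by simp)
    | append_singleton w a ih =>
      rw [lnz_snoc] at hw
      by_cases h1 : wt a = 1
      · rw [if_pos h1] at hw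
        obtain ⟨y, hy, t, ht, rfl⟩ := Language.mem_mul.mp (ih hw)
        rw [List.append_assoc]
        refine Language.append_mem_mul hy ?_
        intro b hb
        rcases List.mem_append.mp hb with hb | hb
        · exact ht b hb
        · rw [List.mem_singleton] at hb
          rw [hb]
          exact h1
      · rw [if_neg h1] at hw
        have hax : a = x := Option.some.inj hw
        rw [hax]
        have e : w ++ [x] = (w ++ [x]) ++ [] := by rw [List.append_nil]
        rw [e]
        exact Language.append_mem_mul (Language.append_mem_mul (mem_top_lang w) rfl)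
          (fun b hb => absurd hb (by simp))
  · intro hw
    obtain ⟨y, hy, t, ht, rfl⟩ := Language.mem_mul.mp hw
    obtain ⟨u, _, z, hz, rfl⟩ := Language.mem_mul.mp hy
    rw [mem_singleton_lang] at hz
    rw [hz, lnz_append_zero wt _ t ht, lnz_snoc, if_neg hx]

theorem walk_ident (wt : α → B) (x : α) (hx : wt x ≠ 1) (r : B) (w : List α) :
    cntP (fun v a => a = x ∧ zone wt v = r * (wt x)⁻¹) w +
      cntP (fun v a => a = x ∧ zone wt v = r ∧ ∃ t, t ≠ x ∧ lnz wt v = some t) w +
      cntP (fun v a => a = x ∧ zone wt v = r ∧ lnz wt v = none) w =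
    cntP (fun v a => a = x ∧ zone wt v = r) w +
      cntP (fun v a => a ≠ x ∧ wt a ≠ 1 ∧ lnz wt v = some x ∧ zone wt v = r) w +
      (if lnz wt w = some x ∧ zone wt w = r then 1 else 0) := by
  induction w using List.reverseRecOn with
  | nil =>
    simp [cntP_nil, lnz_nil]
  | append_singleton w a ih =>
    rw [cntP_snoc, cntP_snoc, cntP_snoc, cntP_snoc, cntP_snoc, lnz_snoc, zone_snoc]
    by_cases h1 : wt a = 1
    · have hax : ¬ a = x := fun h => hx (h ▸ h1)
      simpa [hax, h1] using ih
    · by_cases hax : a = x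
      · have e : (zone wt w * wt x = r) ↔ (zone wt w = r * (wt x)⁻¹) := by
          constructor
          · intro h
            rw [← h, mul_inv_cancel_right]
          · intro h
            rw [h, inv_mul_cancel_right]
        rw [hax]
        rw [hax] at h1
        simp only [if_neg h1, e, true_and, ne_eq, not_true_eq_false, false_and, if_false]
        simp only [ne_eq] at ih
        have key : (if zone wt w = r ∧ ∃ t, ¬t = x ∧ lnz wt w = some t then 1 else 0) +
            (if zone wt w = r ∧ lnz wt w = none then 1 else 0) +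
            (if lnz wt w = some x ∧ zone wt w = r then 1 else 0) =
            (if zone wt w = r then 1 else 0 : ℕ) := by
          by_cases hz : zone wt w = r
          · rcases hl : lnz wt w with _ | t
            · simp [hz]
            · by_cases ht : t = x
              · simp [hz, ht]
              · simp [hz, ht]
          · simp [hz]
        omega
      · have hne : ¬ some a = some x := fun h => hax (Option.some.inj h)
        simp [hax, h1, hne] at ih ⊢
        omega

theorem good_D (hB : ∀ c : B, c ≠ 1 → ∀ b : B, ∃ j : ℕ, c ^ j = b) (wt : α → B) (x : α)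
    (hx : wt x ≠ 1) (r : B) (M : ℕ) [NeZero M] :
    Good (fun w => ((cntP (fun v a => a = x ∧ zone wt v = r * (wt x)⁻¹) w : ℕ) : ZMod M) -
      ((cntP (fun v a => a = x ∧ zone wt v = r) w : ℕ) : ZMod M)) := by
  have hcomm := comm_of_gen hB
  have hQX : Good (fun w => ((cntP (fun v a => a = x ∧ zone wt v = r ∧
      ∃ t, t ≠ x ∧ lnz wt v = some t) w : ℕ) : ZMod M)) := by
    have h := good_ex hB wt (r * wt x) (fun ℓ a => a = x ∧ ∃ t, t ≠ x ∧ ℓ = some t) (by
      rintro ℓ t t' ⟨h1, _⟩ ⟨_, t'', h3, h4⟩
      rw [h1] at h4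
      exact h3 (Option.some.inj h4).symm) M
    refine h.congr (fun w => ?_)
    congr 1
    apply cntP_congr
    intro v a
    constructor
    · rintro ⟨h1, h2, h3⟩
      exact ⟨by rw [h1]; exact hx, by rw [h1, h2], h1, h3⟩
    · rintro ⟨_, h2, h1, h3⟩
      rw [h1] at h2
      exact ⟨h1, mul_right_cancel h2, h3⟩
  have hI : Good (fun w => ((cntP (fun v a => a = x ∧ zone wt v = r ∧ lnz wt v = none) w : ℕ) :
      ZMod M)) := by
    have h := good_ex hB wt (r * wt x) (fun ℓ a => a = x ∧ ℓ = none) (by
      rintro ℓ t t' _ ⟨_, h4⟩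
      exact Option.some_ne_none _ h4) M
    refine h.congr (fun w => ?_)
    congr 1
    apply cntP_congr
    intro v a
    constructor
    · rintro ⟨h1, h2, h3⟩
      exact ⟨by rw [h1]; exact hx, by rw [h1, h2], h1, h3⟩
    · rintro ⟨_, h2, h1, h3⟩
      rw [h1] at h2
      exact ⟨h1, mul_right_cancel h2, h3⟩
  have hPX : Good (fun w => ((cntP (fun v a => a ≠ x ∧ wt a ≠ 1 ∧ lnz wt v = some x ∧
      zone wt v = r) w : ℕ) : ZMod M)) := by
    have ht : ∀ t : α, Good (fun w => ((cntP (fun v a => a = t ∧ (t ≠ x ∧ wt t ≠ 1 ∧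
        lnz wt v = some x ∧ zone wt v = r)) w : ℕ) : ZMod M)) := by
      intro t
      by_cases htx : t ≠ x ∧ wt t ≠ 1
      · have h := good_ex hB wt (r * wt t) (fun ℓ a => a = t ∧ ℓ = some x) (by
          rintro ℓ t1 t' ⟨h1, _⟩ ⟨_, h3⟩
          rw [h1] at h3
          exact htx.1 (Option.some.inj h3)) M
        refine h.congr (fun w => ?_)
        congr 1
        apply cntP_congr
        intro v a
        constructor
        · rintro ⟨h1, _, h2, h3, h4⟩
          exact ⟨by rw [h1]; exact h2, by rw [h1, h4], h1, h3⟩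
        · rintro ⟨_, h4, h1, h3⟩
          rw [h1] at h4
          exact ⟨h1, htx.1, htx.2, h3, mul_right_cancel h4⟩
      · refine (Good.const (0 : ZMod M)).congr (fun w => ?_)
        rw [cntP_false _ (fun v a h => htx ⟨h.2.1, h.2.2.1⟩)]
        exact Nat.cast_zero
    have h := (Good.pi ht).comp (fun f => ∑ t, f t)
    refine h.congr (fun w => ?_)
    rw [cntP_sum_letters]
    push_cast
    rfl
  have hFin : Good (fun w => (if lnz wt w = some x ∧ zone wt w = r then (1 : ZMod M) else 0)) := by
    apply Good.indicator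
    refine (((gsh_lnz wt x hx).mono (Nat.zero_le 1)).inf (good_bzone hcomm wt r)).congr
      (fun w => ?_)
    rw [Language.mem_inf]
    exact Iff.rfl
  refine (((hPX.zadd hFin).zsub hQX).zsub hI).congr (fun w => ?_)
  have e := walk_ident wt x hx r w
  have e' := congrArg (Nat.cast : ℕ → ZMod M) e
  push_cast at e'
  beta_reduce
  linear_combination e'

/-- The walk statistics theorem: for a walk on a finite group all of whose nontrivial
elements are generators, the number of times the letter `x` is read in the zone `r`,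
counted modulo `n`, is a good function. -/
theorem good_N (hB : ∀ c : B, c ≠ 1 → ∀ b : B, ∃ j : ℕ, c ^ j = b) (wt : α → B) (x : α)
    (r : B) (n : ℕ) [NeZero n] :
    Good (fun w => ((cntP (fun v a => a = x ∧ zone wt v = r) w : ℕ) : ZMod n)) := by
  by_cases hx : wt x = 1
  · exact good_N_zero hB wt x hx r n
  have instB : Fintype B := Fintype.ofFinite B
  have hcard : Nat.card B ≠ 0 := Nat.card_pos.ne'
  have hn : n ≠ 0 := NeZero.ne n
  have instM : NeZero (Nat.card B * n) := ⟨Nat.mul_ne_zero hcard hn⟩
  have hΨ : Good (fun w => ((fun r' : B =>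
      ((cntP (fun v a => a = x ∧ zone wt v = r' * (wt x)⁻¹) w : ℕ) : ZMod (Nat.card B * n)) -
        ((cntP (fun v a => a = x ∧ zone wt v = r') w : ℕ) : ZMod (Nat.card B * n))),
      ((cntP (fun _ a => a = x) w : ℕ) : ZMod (Nat.card B * n)))) :=
    (Good.pi (fun r' => good_D hB wt x hx r' (Nat.card B * n))).prod
      (good_cntP_letter x (Nat.card B * n))
  refine Good.of_determined hΨ (fun w w' hww => ?_)
  have h1 : ∀ r' : B,
      ((cntP (fun v a => a = x ∧ zone wt v = r' * (wt x)⁻¹) w : ℕ) : ZMod (Nat.card B * n)) -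
        ((cntP (fun v a => a = x ∧ zone wt v = r') w : ℕ) : ZMod (Nat.card B * n)) =
      ((cntP (fun v a => a = x ∧ zone wt v = r' * (wt x)⁻¹) w' : ℕ) : ZMod (Nat.card B * n)) -
        ((cntP (fun v a => a = x ∧ zone wt v = r') w' : ℕ) : ZMod (Nat.card B * n)) :=
    fun r' => congrFun (congrArg Prod.fst hww) r'
  have h2 : ((cntP (fun _ a => a = x) w : ℕ) : ZMod (Nat.card B * n)) =
      ((cntP (fun _ a => a = x) w' : ℕ) : ZMod (Nat.card B * n)) := congrArg Prod.snd hww
  obtain ⟨e, he⟩ : ∃ e : B → ZMod (Nat.card B * n), ∀ b, e b =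
      ((cntP (fun v a => a = x ∧ zone wt v = b) w : ℕ) : ZMod (Nat.card B * n)) -
        ((cntP (fun v a => a = x ∧ zone wt v = b) w' : ℕ) : ZMod (Nat.card B * n)) :=
    ⟨_, fun _ => rfl⟩
  have he1 : ∀ r' : B, e (r' * (wt x)⁻¹) = e r' := by
    intro r'
    rw [he, he]
    linear_combination h1 r'
  have he2 : ∀ (j : ℕ) (r' : B), e (r' * wt x ^ j) = e r' := by
    intro j
    induction j with
    | zero =>
      intro r'
      rw [pow_zero, mul_one]
    | succ j ih =>
      intro r'
      have h3 := he1 (r' * wt x ^ (j + 1))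
      have h4 : r' * wt x ^ (j + 1) * (wt x)⁻¹ = r' * wt x ^ j := by
        rw [pow_succ]
        group
      rw [h4] at h3
      rw [← h3]
      exact ih r'
  have he3 : ∀ b : B, e b = e r := by
    intro b
    obtain ⟨j, hj⟩ := hB (wt x) hx (r⁻¹ * b)
    have h3 := he2 j r
    rw [hj, mul_inv_cancel_left] at h3
    exact h3
  have hsum : ∀ w : List α, cntP (fun _ a => a = x) w =
      ∑ b : B, cntP (fun v a => a = x ∧ zone wt v = b) w := fun w => cntP_sum_zone wt _ w
  have hsum0 : ∑ b : B, e b = 0 := by
    have h3 : ∑ b : B, e b = ∑ b : B,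
        (((cntP (fun v a => a = x ∧ zone wt v = b) w : ℕ) : ZMod (Nat.card B * n)) -
        ((cntP (fun v a => a = x ∧ zone wt v = b) w' : ℕ) : ZMod (Nat.card B * n))) :=
      Finset.sum_congr rfl (fun b _ => he b)
    rw [h3, Finset.sum_sub_distrib, ← Nat.cast_sum, ← Nat.cast_sum, ← hsum w, ← hsum w', h2,
      sub_self]
  have hce : (Nat.card B : ZMod (Nat.card B * n)) * e r = 0 := by
    have h3 : ∑ b : B, e b = ∑ _b : B, e r := Finset.sum_congr rfl (fun b _ => he3 b)
    rw [hsum0, Finset.sum_const, Finset.card_univ, nsmul_eq_mul, ← Nat.card_eq_fintype_card] at h3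
    exact h3.symm
  rw [he] at hce
  have h5 : ((Nat.card B * cntP (fun v a => a = x ∧ zone wt v = r) w : ℕ) :
      ZMod (Nat.card B * n)) =
      ((Nat.card B * cntP (fun v a => a = x ∧ zone wt v = r) w' : ℕ) :
      ZMod (Nat.card B * n)) := by
    push_cast
    linear_combination hce
  have h6 := (ZMod.natCast_eq_natCast_iff _ _ _).mp h5
  exact (ZMod.natCast_eq_natCast_iff _ _ _).mpr (Nat.ModEq.mul_left_cancel' hcard h6)

end walk

end Vale.Agent.Lib.P329
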