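import Vale.Agent.Lib.P329.Basic

namespace Vale.Agent.Lib.P329

variable {α : Type} [DecidableEq α]

/-- Number of letters of `w` that lie in `S`. -/
def sc (S : Finset α) (w : List α) : ℕ := w.countP (fun x => decide (x ∈ S))

/-- Weighted zone sum: the sum, over the occurrences of the letter `b` in `w`, of
`g (acc + number of letters of S before this occurrence)`. -/
def ws {A : Type} [AddCommMonoid A] (S : Finset α) (b : α) (g : ℕ → A) : ℕ → List α → A
  | _, [] => 0
  | acc, x :: l => (if x = b then g acc else 0) + ws S b g (if x ∈ S then acc + 1 else acc) l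

/-- Indicator of the residue class `s` modulo `M`. -/
def ind (M s : ℕ) (x : ℕ) : ℕ := if x % M = s then 1 else 0

section basics

variable (S : Finset α) (b : α)

@[simp] theorem sc_nil : sc S ([] : List α) = 0 := rfl

theorem sc_cons (x : α) (l : List α) : sc S (x :: l) = sc S l + (if x ∈ S then 1 else 0) := by
  unfold sc
  rw [List.countP_cons]
  simp

theorem sc_append (u v : List α) : sc S (u ++ v) = sc S u + sc S v := by
  unfold sc
  rw [List.countP_append]

theorem sc_singleton_mem {x : α} (hx : x ∈ S) : sc S [x] = 1 := by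
  rw [sc_cons]; simp [hx]

theorem sc_singleton_not_mem {x : α} (hx : x ∉ S) : sc S [x] = 0 := by
  rw [sc_cons]; simp [hx]

theorem sc_eq_zero {w : List α} (h : ∀ x ∈ w, x ∉ S) : sc S w = 0 := by
  induction w with
  | nil => rfl
  | cons x l ih =>
    rw [sc_cons, ih (fun y hy => h y (List.mem_cons_of_mem x hy))]
    simp [h x (List.mem_cons_self)]

variable {A : Type} [AddCommMonoid A] (g : ℕ → A)

@[simp] theorem ws_nil (acc : ℕ) : ws S b g acc ([] : List α) = 0 := rfl

theorem ws_cons (acc : ℕ) (x : α) (l : List α) :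
    ws S b g acc (x :: l) =
      (if x = b then g acc else 0) + ws S b g (if x ∈ S then acc + 1 else acc) l := rfl

theorem ws_append (u v : List α) (acc : ℕ) :
    ws S b g acc (u ++ v) = ws S b g acc u + ws S b g (acc + sc S u) v := by
  induction u generalizing acc with
  | nil => simp
  | cons x l ih =>
    rw [List.cons_append, ws_cons, ws_cons, ih, sc_cons, add_assoc]
    by_cases hx : x ∈ S
    · simp only [hx, if_true]
      rw [show acc + 1 + sc S l = acc + (sc S l + 1) by ring]
    · simp only [hx, if_false, add_zero]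

theorem ws_shift (k : ℕ) (w : List α) (acc : ℕ) :
    ws S b g (acc + k) w = ws S b (fun x => g (x + k)) acc w := by
  induction w generalizing acc with
  | nil => rfl
  | cons x l ih =>
    rw [ws_cons, ws_cons]
    by_cases hx : x ∈ S
    · simp only [hx, if_true]
      rw [show acc + k + 1 = acc + 1 + k by ring, ih]
    · simp only [hx, if_false]
      rw [ih]

theorem ws_congr {g g' : ℕ → A} (h : ∀ x, g x = g' x) (acc : ℕ) (w : List α) :
    ws S b g acc w = ws S b g' acc w := by
  have : g = g' := funext h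
  rw [this]

/-- If `g` vanishes on `[acc, acc + sc S w]` then the zone sum vanishes. -/
theorem ws_eq_zero (w : List α) (acc : ℕ)
    (h : ∀ y, acc ≤ y → y ≤ acc + sc S w → g y = 0) : ws S b g acc w = 0 := by
  induction w generalizing acc with
  | nil => rfl
  | cons x l ih =>
    rw [ws_cons]
    have h1 : (if x = b then g acc else 0) = 0 := by
      split_ifs
      · exact h acc le_rfl (Nat.le_add_right _ _)
      · rfl
    rw [h1, zero_add]
    apply ih
    intro y hy1 hy2
    rw [sc_cons] at h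
    by_cases hx : x ∈ S
    · simp only [hx, if_true] at hy1 hy2 h
      exact h y (by omega) (by omega)
    · simp only [hx, if_false] at hy1 hy2 h
      exact h y (by omega) (by omega)

theorem ws_singleton_self (acc : ℕ) : ws S b g acc [b] = g acc := by
  rw [ws_cons]; simp

theorem ws_singleton_ne (acc : ℕ) {x : α} (hx : x ≠ b) : ws S b g acc [x] = 0 := by
  rw [ws_cons]; simp [hx]

end basics

end Vale.Agent.Lib.P329

namespace Vale.Agent.Lib.P329

variable {α : Type} [DecidableEq α]

section languages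

variable (S : Finset α) (b : α) (M : ℕ)

/-- Words without letters of `S`. -/
def Zs : Language α := langOf (fun w => ∀ x ∈ w, x ∉ S)

/-- Words without letters of `S` and without the letter `b`. -/
def Cs : Language α := langOf (fun w => ∀ x ∈ w, x ∉ S ∧ x ≠ b)

/-- One-letter words whose letter is in `S`. -/
def Sl : Language α := langOf (fun w => ∃ x, x ∈ S ∧ w = [x])

/-- A segment: letters outside `S` followed by one letter of `S`. -/
def Seg : Language α := Zs S * Sl S

/-- The block code. -/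
def Rb : Language α := Cs S b * {[b]} + Cs S b * Sl S * (Seg S) ^ (M - 1)

/-- Tails: fewer than `M` letters of `S` and no `b` in zone `0`. -/
def Tail : Language α := langOf (fun w => sc S w < M ∧ ws S b (ind M 0) 0 w = 0)

variable {S b M}

theorem mem_Zs {w : List α} : w ∈ Zs S ↔ ∀ x ∈ w, x ∉ S := Iff.rfl

theorem mem_Cs {w : List α} : w ∈ Cs S b ↔ ∀ x ∈ w, x ∉ S ∧ x ≠ b := Iff.rfl

theorem mem_Sl {w : List α} : w ∈ Sl S ↔ ∃ x, x ∈ S ∧ w = [x] := Iff.rfl

theorem mem_Tail {w : List α} :
    w ∈ Tail S b M ↔ sc S w < M ∧ ws S b (ind M 0) 0 w = 0 := Iff.rfl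

theorem mem_Seg {w : List α} : w ∈ Seg S ↔ ∃ z x, z ∈ Zs S ∧ x ∈ S ∧ w = z ++ [x] := by
  unfold Seg
  rw [Language.mem_mul]
  constructor
  · rintro ⟨z, hz, y, ⟨x, hx, rfl⟩, rfl⟩
    exact ⟨z, x, hz, hx, rfl⟩
  · rintro ⟨z, x, hz, hx, rfl⟩
    exact ⟨z, hz, [x], ⟨x, hx, rfl⟩, rfl⟩

theorem sc_of_mem_Zs {z : List α} (hz : z ∈ Zs S) : sc S z = 0 := sc_eq_zero S hz

theorem sc_of_mem_Cs {c : List α} (hc : c ∈ Cs S b) : sc S c = 0 :=
  sc_eq_zero S (fun x hx => (hc x hx).1)

theorem sc_of_mem_Seg {q : List α} (hq : q ∈ Seg S) : sc S q = 1 := by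
  obtain ⟨z, x, hz, hx, rfl⟩ := mem_Seg.mp hq
  rw [sc_append, sc_of_mem_Zs hz, sc_singleton_mem S hx]

theorem sc_of_mem_Seg_pow (k : ℕ) {p : List α} (hp : p ∈ (Seg S) ^ k) : sc S p = k := by
  induction k generalizing p with
  | zero =>
    rw [pow_zero] at hp
    rw [(Language.mem_one p).mp hp]; rfl
  | succ k ih =>
    rw [pow_succ'] at hp
    obtain ⟨q, hq, p', hp', rfl⟩ := Language.mem_mul.mp hp
    rw [sc_append, sc_of_mem_Seg hq, ih hp']
    ring

theorem split1 (w : List α) (h : 1 ≤ sc S w) :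
    ∃ z x v, z ∈ Zs S ∧ x ∈ S ∧ w = z ++ x :: v := by
  induction w with
  | nil => simp at h
  | cons y l ih =>
    by_cases hy : y ∈ S
    · exact ⟨[], y, l, by simp [mem_Zs], hy, rfl⟩
    · rw [sc_cons] at h
      simp only [hy, if_false, add_zero] at h
      obtain ⟨z, x, v, hz, hx, rfl⟩ := ih h
      refine ⟨y :: z, x, v, ?_, hx, rfl⟩
      intro t ht
      rcases List.mem_cons.mp ht with rfl | ht
      · exact hy
      · exact hz t ht

theorem splitk (k : ℕ) (w : List α) (h : k ≤ sc S w) :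
    ∃ p v, p ∈ (Seg S) ^ k ∧ w = p ++ v := by
  induction k generalizing w with
  | zero => exact ⟨[], w, by rw [pow_zero]; exact Language.nil_mem_one, rfl⟩
  | succ k ih =>
    obtain ⟨z, x, v, hz, hx, rfl⟩ := split1 (S := S) w (by omega)
    have hv : k ≤ sc S v := by
      have h2 : sc S (z ++ x :: v) = sc S v + 1 := by
        rw [sc_append, sc_of_mem_Zs hz, sc_cons]; simp [hx]
      omega
    obtain ⟨p, v', hp, rfl⟩ := ih v hv
    refine ⟨(z ++ [x]) ++ p, v', ?_, by simp⟩
    rw [pow_succ']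
    exact Language.append_mem_mul (mem_Seg.mpr ⟨z, x, hz, hx, rfl⟩) hp

theorem sc_ge_iff (k : ℕ) (w : List α) : k ≤ sc S w ↔ w ∈ (Seg S) ^ k * (⊤ : Language α) := by
  constructor
  · intro h
    obtain ⟨p, v, hp, rfl⟩ := splitk k w h
    exact Language.append_mem_mul hp (mem_top_lang v)
  · intro h
    obtain ⟨p, hp, v, _, rfl⟩ := Language.mem_mul.mp h
    rw [sc_append, sc_of_mem_Seg_pow k hp]
    exact Nat.le_add_right _ _

theorem ws_of_no_b {A : Type} [AddCommMonoid A] (g : ℕ → A) (w : List α) (acc : ℕ)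
    (h : ∀ x ∈ w, x ≠ b) : ws S b g acc w = 0 := by
  induction w generalizing acc with
  | nil => rfl
  | cons x l ih =>
    rw [ws_cons, ih _ (fun y hy => h y (List.mem_cons_of_mem x hy))]
    simp [h x (List.mem_cons_self)]

theorem ws_of_mem_Cs {A : Type} [AddCommMonoid A] (g : ℕ → A) {c : List α} (acc : ℕ)
    (hc : c ∈ Cs S b) : ws S b g acc c = 0 :=
  ws_of_no_b g c acc (fun x hx => (hc x hx).2)

theorem ws_of_mem_Seg_pow {A : Type} [AddCommMonoid A] (hb : b ∉ S) (g : ℕ → A) (k : ℕ)
    {p : List α} (acc : ℕ) (hp : p ∈ (Seg S) ^ k)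
    (h : ∀ y, acc ≤ y → y < acc + k → g y = 0) : ws S b g acc p = 0 := by
  induction k generalizing p acc with
  | zero =>
    rw [pow_zero] at hp
    rw [(Language.mem_one p).mp hp]; rfl
  | succ k ih =>
    rw [pow_succ'] at hp
    obtain ⟨q, hq, p', hp', rfl⟩ := Language.mem_mul.mp hp
    obtain ⟨z, x, hz, hx, rfl⟩ := mem_Seg.mp hq
    have hxb : x ≠ b := fun hxb => hb (hxb ▸ hx)
    rw [ws_append, ws_append, sc_append, sc_of_mem_Zs hz, sc_singleton_mem S hx,
      ws_singleton_ne S b g _ hxb, add_zero]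
    have h1 : ws S b g acc z = 0 := by
      apply ws_eq_zero
      intro y hy1 hy2
      rw [sc_of_mem_Zs hz] at hy2
      exact h y hy1 (by omega)
    have h2 : ws S b g (acc + (0 + 1)) p' = 0 := by
      apply ih _ hp'
      intro y hy1 hy2
      exact h y (by omega) (by omega)
    rw [h1, h2, add_zero]

theorem tri (w : List α) :
    w ∈ Cs S b ∨ (∃ c w', c ∈ Cs S b ∧ w = c ++ b :: w') ∨
      (∃ c x w', c ∈ Cs S b ∧ x ∈ S ∧ w = c ++ x :: w') := by
  induction w with
  | nil => exact Or.inl (by simp [mem_Cs])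
  | cons y l ih =>
    by_cases hyb : y = b
    · exact Or.inr (Or.inl ⟨[], l, by simp [mem_Cs], by rw [hyb]; rfl⟩)
    · by_cases hy : y ∈ S
      · exact Or.inr (Or.inr ⟨[], y, l, by simp [mem_Cs], hy, rfl⟩)
      · have hcons : ∀ c : List α, c ∈ Cs S b → (y :: c) ∈ Cs S b := by
          intro c hc t ht
          rcases List.mem_cons.mp ht with rfl | ht
          · exact ⟨hy, hyb⟩
          · exact hc t ht
        rcases ih with h | ⟨c, w', hc, rfl⟩ | ⟨c, x, w', hc, hx, rfl⟩
        · exact Or.inl (hcons l h)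
        · exact Or.inr (Or.inl ⟨y :: c, w', hcons c hc, rfl⟩)
        · exact Or.inr (Or.inr ⟨y :: c, x, w', hcons c hc, hx, rfl⟩)

theorem ind_zero_of_pos_lt {y : ℕ} (h1 : 1 ≤ y) (h2 : y < M) : ind M 0 y = 0 := by
  unfold ind
  rw [Nat.mod_eq_of_lt h2]
  simp; omega

/-- Third case of the trichotomy with few letters of `S`: a tail. -/
theorem ws_tri3 (hb : b ∉ S) {c : List α} {x : α} {w' : List α} (hc : c ∈ Cs S b) (hx : x ∈ S)
    (hsc : sc S (c ++ x :: w') < M) : ws S b (ind M 0) 0 (c ++ x :: w') = 0 := by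
  have hxb : x ≠ b := fun hxb => hb (hxb ▸ hx)
  have hsc' : sc S (c ++ x :: w') = sc S w' + 1 := by
    rw [sc_append, sc_of_mem_Cs hc, sc_cons]; simp [hx]
  rw [ws_append, ws_of_mem_Cs _ _ hc, sc_of_mem_Cs hc, ws_cons]
  simp only [hxb, hx, if_false, if_true, zero_add]
  apply ws_eq_zero
  intro y hy1 hy2
  exact ind_zero_of_pos_lt (by omega) (by omega)

theorem Rb_T (hb : b ∉ S) (hM : 0 < M) {r : List α} (hr : r ∈ Rb S b M) :
    M ∣ sc S r ∧ ws S b (ind M 0) 0 r + sc S r / M = 1 := by
  unfold Rb at hr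
  rcases (Language.mem_add _ _ _).mp hr with h | h
  · obtain ⟨c, hc, y, hy, rfl⟩ := Language.mem_mul.mp h
    have hy' : y = [b] := hy
    subst hy'
    have h0 : sc S (c ++ [b]) = 0 := by
      rw [sc_append, sc_of_mem_Cs hc, sc_singleton_not_mem S hb]
    rw [h0, ws_append, ws_of_mem_Cs _ _ hc, sc_of_mem_Cs hc, ws_singleton_self]
    refine ⟨dvd_zero M, ?_⟩
    simp [ind]
  · obtain ⟨cx, hcx, p, hp, rfl⟩ := Language.mem_mul.mp h
    obtain ⟨c, hc, y, ⟨x, hx, rfl⟩, rfl⟩ := Language.mem_mul.mp hcx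
    have hxb : x ≠ b := fun hxb => hb (hxb ▸ hx)
    have h0 : sc S (c ++ [x] ++ p) = M := by
      rw [sc_append, sc_append, sc_of_mem_Cs hc, sc_singleton_mem S hx, sc_of_mem_Seg_pow _ hp]
      omega
    rw [h0]
    refine ⟨dvd_refl M, ?_⟩
    have hp0 : ∀ acc, acc = 1 → ws S b (ind M 0) acc p = 0 := by
      intro acc hacc
      subst hacc
      apply ws_of_mem_Seg_pow hb (ind M 0) (M - 1) _ hp
      intro y hy1 hy2
      exact ind_zero_of_pos_lt (by omega) (by omega)
    rw [ws_append, ws_append, ws_of_mem_Cs _ _ hc, sc_append, sc_of_mem_Cs hc,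
      sc_singleton_mem S hx, ws_singleton_ne S b _ _ hxb, hp0 _ (by norm_num),
      Nat.div_self hM]
    norm_num

theorem ind_add_of_dvd {k : ℕ} (hk : M ∣ k) (x : ℕ) : ind M 0 (x + k) = ind M 0 x := by
  unfold ind
  obtain ⟨t, rfl⟩ := hk
  rw [Nat.add_mul_mod_self_left]

/-- Additivity of the block statistic. -/
theorem T_append (u v : List α) (hu : M ∣ sc S u) :
    ws S b (ind M 0) 0 (u ++ v) + sc S (u ++ v) / M =
      (ws S b (ind M 0) 0 u + sc S u / M) + (ws S b (ind M 0) 0 v + sc S v / M) := by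
  have h1 : ws S b (ind M 0) (0 + sc S u) v = ws S b (ind M 0) 0 v := by
    rw [ws_shift]
    exact ws_congr S b (fun x => ind_add_of_dvd hu x) 0 v
  rw [ws_append, h1, sc_append, Nat.add_div_of_dvd_right hu]
  ring

theorem block_mp (hb : b ∉ S) (hM : 0 < M) (k : ℕ) (w : List α)
    (h : w ∈ (Rb S b M) ^ k * Tail S b M) : ws S b (ind M 0) 0 w + sc S w / M = k := by
  induction k generalizing w with
  | zero =>
    rw [pow_zero, one_mul] at h
    obtain ⟨h1, h2⟩ := mem_Tail.mp h
    rw [h2, Nat.div_eq_of_lt h1]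
  | succ k ih =>
    rw [pow_succ', mul_assoc] at h
    obtain ⟨r, hr, w', hw', rfl⟩ := Language.mem_mul.mp h
    obtain ⟨hd, hT⟩ := Rb_T hb hM hr
    rw [T_append r w' hd, hT, ih w' hw']
    ring

theorem block_exists (hb : b ∉ S) (hM : 0 < M) (m : ℕ) (w : List α) (hw : w.length ≤ m) :
    ∃ k, w ∈ (Rb S b M) ^ k * Tail S b M := by
  induction m generalizing w with
  | zero =>
    have : w = [] := List.length_eq_zero_iff.mp (Nat.le_zero.mp hw)
    subst this
    refine ⟨0, ?_⟩
    rw [pow_zero, one_mul]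
    exact mem_Tail.mpr ⟨hM, rfl⟩
  | succ m ih =>
    rcases tri (S := S) (b := b) w with h | ⟨c, w', hc, rfl⟩ | ⟨c, x, w', hc, hx, rfl⟩
    · refine ⟨0, ?_⟩
      rw [pow_zero, one_mul]
      exact mem_Tail.mpr ⟨by rw [sc_of_mem_Cs h]; exact hM, ws_of_mem_Cs _ _ h⟩
    · have hlen : w'.length ≤ m := by
        simp only [List.length_append, List.length_cons] at hw
        omega
      obtain ⟨k, hk⟩ := ih w' hlen
      refine ⟨k + 1, ?_⟩
      rw [pow_succ', mul_assoc]
      have hr : c ++ [b] ∈ Rb S b M := by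
        unfold Rb
        exact (Language.mem_add _ _ _).mpr (Or.inl (Language.append_mem_mul hc rfl))
      have : c ++ b :: w' = (c ++ [b]) ++ w' := by simp
      rw [this]
      exact Language.append_mem_mul hr hk
    · by_cases hsc : M ≤ sc S (c ++ x :: w')
      · have hsc' : sc S (c ++ x :: w') = sc S w' + 1 := by
          rw [sc_append, sc_of_mem_Cs hc, sc_cons]; simp [hx]
        obtain ⟨p, v, hp, rfl⟩ := splitk (S := S) (M - 1) w' (by omega)
        have hlen : v.length ≤ m := by
          simp only [List.length_append, List.length_cons] at hw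
          omega
        obtain ⟨k, hk⟩ := ih v hlen
        refine ⟨k + 1, ?_⟩
        rw [pow_succ', mul_assoc]
        have hr : c ++ [x] ++ p ∈ Rb S b M := by
          unfold Rb
          exact (Language.mem_add _ _ _).mpr (Or.inr (Language.append_mem_mul
            (Language.append_mem_mul hc ⟨x, hx, rfl⟩) hp))
        have : c ++ x :: (p ++ v) = (c ++ [x] ++ p) ++ v := by simp
        rw [this]
        exact Language.append_mem_mul hr hk
      · refine ⟨0, ?_⟩
        rw [pow_zero, one_mul]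
        exact mem_Tail.mpr ⟨by omega, ws_tri3 hb hc hx (by omega)⟩

theorem block_iff (hb : b ∉ S) (hM : 0 < M) (k : ℕ) (w : List α) :
    w ∈ (Rb S b M) ^ k * Tail S b M ↔ ws S b (ind M 0) 0 w + sc S w / M = k := by
  constructor
  · exact block_mp hb hM k w
  · intro h
    obtain ⟨k', hk'⟩ := block_exists hb hM w.length w le_rfl
    have := block_mp hb hM k' w hk'
    rw [h] at this
    rw [this]
    exact hk'

end languages

end Vale.Agent.Lib.P329
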