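import Vale.Agent.Lib.P329.Zone

namespace Vale.Agent.Lib.P329

variable {α : Type} [DecidableEq α]

section gsh

variable [Fintype α] (S : Finset α) (b : α) (M : ℕ)

theorem gsh_Zs (k : ℕ) : GSH k (Zs S) := GSH.lettersStar k (fun x => x ∉ S)

theorem gsh_Cs (k : ℕ) : GSH k (Cs S b) := GSH.lettersStar k (fun x => x ∉ S ∧ x ≠ b)

theorem gsh_Sl (k : ℕ) : GSH k (Sl S) := GSH.letters k (fun x => x ∈ S)

theorem gsh_Seg (k : ℕ) : GSH k (Seg S) := (gsh_Zs S k).mul (gsh_Sl S k)

theorem gsh_Rb (k : ℕ) : GSH k (Rb S b M) :=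
  ((gsh_Cs S b k).mul (GSH.letter k b)).add
    (((gsh_Cs S b k).mul (gsh_Sl S k)).mul ((gsh_Seg S k).pow (M - 1)))

variable {S b M}

theorem tail_iff (hb : b ∉ S) (w : List α) :
    w ∈ Tail S b M ↔
      w ∈ ((Cs S b * {[b]} * ⊤)ᶜ ⊓ ((Seg S) ^ M * ⊤)ᶜ : Language α) := by
  rw [Language.mem_inf, mem_compl_lang, mem_compl_lang, ← sc_ge_iff, mem_Tail]
  constructor
  · rintro ⟨h1, h2⟩
    refine ⟨?_, by omega⟩
    intro hmem
    obtain ⟨cb, hcb, y, _, rfl⟩ := Language.mem_mul.mp hmem
    obtain ⟨c, hc, z, hz, rfl⟩ := Language.mem_mul.mp hcb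
    have hz' : z = [b] := hz
    subst hz'
    rw [ws_append, ws_append, ws_of_mem_Cs _ _ hc, sc_of_mem_Cs hc, ws_singleton_self] at h2
    have h3 : ind M 0 (0 + 0) = 1 := by simp [ind]
    rw [h3] at h2
    omega
  · rintro ⟨h1, h2⟩
    refine ⟨by omega, ?_⟩
    rcases tri (S := S) (b := b) w with h | ⟨c, w', hc, rfl⟩ | ⟨c, x, w', hc, hx, rfl⟩
    · exact ws_of_mem_Cs _ _ h
    · exfalso
      apply h1
      have : c ++ b :: w' = (c ++ [b]) ++ w' := by simp
      rw [this]
      exact Language.append_mem_mul (Language.append_mem_mul hc rfl) (mem_top_lang w')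
    · exact ws_tri3 hb hc hx (by omega)

theorem gsh_Tail (hb : b ∉ S) (k : ℕ) : GSH k (Tail S b M) :=
  (((((gsh_Cs S b k).mul (GSH.letter k b)).mul (GSH.top k)).compl).inf
    ((((gsh_Seg S k).pow M).mul (GSH.top k)).compl)).congr (tail_iff hb)

theorem ind_shift {s : ℕ} (hs : s < M) (x : ℕ) : ind M s (x + s) = ind M 0 x := by
  unfold ind
  have hM : 0 < M := by omega
  have h1 : (x + s) % M = (x % M + s) % M := by
    rw [Nat.add_mod, Nat.mod_eq_of_lt hs]
  have hr : x % M < M := Nat.mod_lt _ hM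
  rw [h1]
  by_cases h : x % M + s < M
  · rw [Nat.mod_eq_of_lt h]
    by_cases h0 : x % M = 0
    · simp [h0]
    · have : x % M + s ≠ s := by omega
      simp [h0, this]
  · have h2 : (x % M + s) % M = x % M + s - M := by
      rw [Nat.mod_eq_sub_mod (by omega), Nat.mod_eq_of_lt (by omega)]
    rw [h2]
    have h0 : x % M ≠ 0 := by omega
    have : x % M + s - M ≠ s := by omega
    simp [h0, this]

theorem ind_of_lt {s y : ℕ} (hs : s < M) (hy : y < s) : ind M s y = 0 := by
  unfold ind
  rw [Nat.mod_eq_of_lt (by omega)]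
  simp; omega

/-- Removing a prefix with exactly `s` letters of `S`. -/
theorem zone_prefix (hb : b ∉ S) {s : ℕ} (hs : s < M) {p : List α} (hp : p ∈ (Seg S) ^ s)
    (v : List α) :
    ws S b (ind M s) 0 (p ++ v) = ws S b (ind M 0) 0 v ∧ sc S (p ++ v) = s + sc S v := by
  constructor
  · rw [ws_append, sc_of_mem_Seg_pow s hp, ws_of_mem_Seg_pow hb (ind M s) s 0 hp, zero_add,
      ws_shift]
    · exact ws_congr S b (fun x => ind_shift hs x) 0 v
    · intro y _ hy2
      exact ind_of_lt hs (by omega)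
  · rw [sc_append, sc_of_mem_Seg_pow s hp]

theorem zone_iff (hb : b ∉ S) (hM : 0 < M) {s : ℕ} (hs : s < M) {n : ℕ} (hn : 0 < n)
    {j : ℕ} (hj : j < n) (w : List α) :
    w ∈ (Seg S) ^ s * (KStar.kstar ((Rb S b M) ^ n) * ((Rb S b M) ^ j * Tail S b M)) ↔
      s ≤ sc S w ∧ (ws S b (ind M s) 0 w + (sc S w - s) / M) % n = j := by
  constructor
  · intro h
    obtain ⟨p, hp, w'', hw'', rfl⟩ := Language.mem_mul.mp h
    obtain ⟨y, hy, y', hy', rfl⟩ := Language.mem_mul.mp hw''
    rw [Language.kstar_eq_iSup_pow, Language.mem_iSup] at hy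
    obtain ⟨i, hi⟩ := hy
    rw [← pow_mul] at hi
    have h1 : y ++ y' ∈ (Rb S b M) ^ (n * i + j) * Tail S b M := by
      rw [pow_add, mul_assoc]
      exact Language.append_mem_mul hi hy'
    have h2 := block_mp hb hM _ _ h1
    obtain ⟨h3, h4⟩ := zone_prefix hb hs hp (y ++ y')
    refine ⟨by omega, ?_⟩
    rw [h3, h4, Nat.add_sub_cancel_left, h2, Nat.mul_add_mod, Nat.mod_eq_of_lt hj]
  · rintro ⟨hsc, hT⟩
    obtain ⟨p, v, hp, rfl⟩ := splitk (S := S) s w hsc
    obtain ⟨h3, h4⟩ := zone_prefix hb hs hp v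
    rw [h3, h4, Nat.add_sub_cancel_left] at hT
    have h5 : v ∈ (Rb S b M) ^ (ws S b (ind M 0) 0 v + sc S v / M) * Tail S b M :=
      (block_iff hb hM _ v).mpr rfl
    rw [← Nat.div_add_mod (ws S b (ind M 0) 0 v + sc S v / M) n, hT, pow_add, mul_assoc,
      pow_mul] at h5
    obtain ⟨y, hy, y', hy', rfl⟩ := Language.mem_mul.mp h5
    refine Language.append_mem_mul hp (Language.append_mem_mul ?_ hy')
    rw [Language.kstar_eq_iSup_pow, Language.mem_iSup]
    exact ⟨_, hy⟩

end gsh

end Vale.Agent.Lib.P329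

namespace Vale.Agent.Lib.P329

variable {α : Type} [DecidableEq α]

section good

variable [Fintype α] (S : Finset α) (b : α) (M : ℕ)

/-- The block statistic of zone `s`, when the word has at least `s` letters of `S`. -/
noncomputable def f1 (s n : ℕ) (w : List α) : Option (ZMod n) :=
  if s ≤ sc S w then
    some (((ws S b (ind M s) 0 w + (sc S w - s) / M : ℕ) : ZMod n))
  else none

variable {S b M}

omit [Fintype α] in
theorem natCast_eq_iff_mod {n : ℕ} [NeZero n] (T : ℕ) (z : ZMod n) :
    ((T : ℕ) : ZMod n) = z ↔ T % n = z.val := by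
  constructor
  · intro h
    rw [← h, ZMod.val_natCast]
  · intro h
    rw [← ZMod.natCast_zmod_val z, ← h, ZMod.natCast_mod]

theorem good_f1 (hb : b ∉ S) (hM : 0 < M) {s : ℕ} (hs : s < M) (n : ℕ) [NeZero n] :
    Good (f1 S b M s n) := by
  intro v
  cases v with
  | none =>
    have h := (((gsh_Seg S 1).pow s).mul (GSH.top 1)).compl
    refine h.congr (fun w => ?_)
    rw [mem_compl_lang, ← sc_ge_iff, mem_langOf]
    unfold f1
    split_ifs with h1
    · simp [h1]
    · simp [h1]
  | some z =>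
    have hn : 0 < n := Nat.pos_of_ne_zero (NeZero.ne n)
    have h : GSH 1 ((Seg S) ^ s *
        (KStar.kstar ((Rb S b M) ^ n) * ((Rb S b M) ^ (z.val) * Tail S b M))) :=
      ((gsh_Seg S 1).pow s).mul
        ((((gsh_Rb S b M 0).pow n).kstar).mul (((gsh_Rb S b M 1).pow z.val).mul (gsh_Tail hb 1)))
    refine h.congr (fun w => ?_)
    rw [zone_iff hb hM hs hn (ZMod.val_lt z), mem_langOf]
    unfold f1
    split_ifs with h1
    · rw [Option.some.injEq, natCast_eq_iff_mod]
      exact ⟨fun h2 => ⟨h1, h2⟩, fun h2 => h2.2⟩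
    · constructor
      · intro h2; exact absurd h2 (by simp)
      · intro h2; exact absurd h2.1 h1

omit [Fintype α] in
theorem ws_empty_count (a : α) (w : List α) (acc : ℕ) :
    ws (∅ : Finset α) a (ind 1 0) acc w = w.count a := by
  induction w generalizing acc with
  | nil => rfl
  | cons x l ih =>
    rw [ws_cons, ih, List.count_cons]
    by_cases hx : x = a
    · simp [hx, ind, add_comm, Nat.mod_one]
    · simp [hx]

omit [Fintype α] in
theorem sc_empty (w : List α) : sc (∅ : Finset α) w = 0 :=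
  sc_eq_zero _ (fun x _ => by simp)

theorem good_count (a : α) (K : ℕ) [NeZero K] :
    Good (fun w : List α => ((w.count a : ℕ) : ZMod K)) := by
  have h := (good_f1 (S := (∅ : Finset α)) (b := a) (M := 1) (by simp) Nat.one_pos
    (s := 0) Nat.one_pos K).comp (fun o => o.getD 0)
  refine h.congr (fun w => ?_)
  unfold f1
  simp [ws_empty_count, sc_empty]

omit [Fintype α] in
theorem sc_eq_sum (w : List α) : sc S w = ∑ x ∈ S, w.count x := by
  induction w with
  | nil => simp
  | cons y l ih =>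
    rw [sc_cons, ih]
    simp only [List.count_cons]
    rw [Finset.sum_add_distrib]
    congr 1
    by_cases hy : y ∈ S
    · simp [hy]
    · simp [hy]

theorem good_sc (S : Finset α) (K : ℕ) [NeZero K] :
    Good (fun w : List α => ((sc S w : ℕ) : ZMod K)) := by
  have h := (Good.pi (fun x : α => good_count x K)).comp (fun v => ∑ x ∈ S, v x)
  refine h.congr (fun w => ?_)
  rw [sc_eq_sum]
  push_cast
  rfl

theorem good_zone (hb : b ∉ S) (hM : 0 < M) {s : ℕ} (hs : s < M) (n : ℕ) [NeZero n] :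
    Good (fun w : List α => ((ws S b (ind M s) 0 w : ℕ) : ZMod n)) := by
  have hn : 0 < n := Nat.pos_of_ne_zero (NeZero.ne n)
  haveI : NeZero (M * n) := ⟨by positivity⟩
  have h := ((good_f1 hb hM hs n).prod (good_sc S (M * n))).comp
    (fun p : Option (ZMod n) × ZMod (M * n) =>
      match p.1 with
      | none => (0 : ZMod n)
      | some z => z - (((p.2 - ((s : ℕ) : ZMod (M * n))).val / M : ℕ) : ZMod n))
  refine h.congr (fun w => ?_)
  unfold f1
  by_cases h1 : s ≤ sc S w
  · simp only [h1, if_true]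
    rw [← Nat.cast_sub h1, ZMod.val_natCast, Nat.mod_mul_right_div_self, ZMod.natCast_mod]
    push_cast
    ring
  · simp only [h1, if_false]
    rw [ws_eq_zero]
    · simp
    · intro y _ hy2
      exact ind_of_lt hs (by omega)

omit [Fintype α] in
theorem ws_decomp {n : ℕ} (hM : 0 < M) (G : ℕ → ZMod n) (hG : ∀ x, G (x + M) = G x)
    (w : List α) (acc : ℕ) :
    ws S b G acc w =
      ∑ s ∈ Finset.range M, G s * ((ws S b (ind M s) acc w : ℕ) : ZMod n) := by
  induction w generalizing acc with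
  | nil => simp
  | cons x l ih =>
    rw [ws_cons, ih]
    simp only [ws_cons S b (ind M _)]
    push_cast
    simp only [mul_add]
    rw [Finset.sum_add_distrib]
    congr 1
    have key : ∑ s ∈ Finset.range M, G s * ((ind M s acc : ℕ) : ZMod n) = G acc := by
      rw [Finset.sum_eq_single (acc % M)]
      · have : G (acc % M) = G acc := Function.Periodic.map_mod_nat hG acc
        simp [ind, this]
      · intro s _ hs
        have : ¬ acc % M = s := fun h => hs h.symm
        simp [ind, this]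
      · intro h
        exact absurd (Finset.mem_range.mpr (Nat.mod_lt _ hM)) h
    by_cases hx : x = b
    · simp only [hx, if_true]
      exact key.symm
    · simp [hx]

theorem good_ws (hb : b ∉ S) (hM : 0 < M) (n : ℕ) [NeZero n] (G : ℕ → ZMod n)
    (hG : ∀ x, G (x + M) = G x) : Good (fun w : List α => ws S b G 0 w) := by
  have h := (Good.pi (fun s : Fin M => good_zone hb hM s.isLt n)).comp
    (fun v => ∑ s : Fin M, G s * v s)
  refine h.congr (fun w => ?_)
  rw [ws_decomp hM G hG w 0, Finset.sum_range]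

end good

end Vale.Agent.Lib.P329
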